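import Vale.Agent.P207Z.Sm.Defs

/-!
# P207, the smooth case: the statements of the blocks and their assembly
-/

open Set Filter Topology Metric MeasureTheory
open scoped ContDiff

noncomputable section

namespace Vale.Agent.P207Z.SC

open Vale.Agent.P207.N4 Vale.Agent.P207.N3

/-! ### Generic blocks -/

/-- SKEW: linear fields which preserve a compact spanning set are skew for one scalar product -/
def SkewStmt : Prop := ∀ (V : Type) [NormedAddCommGroup V] [NormedSpace ℝ V]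
  [FiniteDimensional ℝ V] (K : Set V) (T : Set (V →L[ℝ] V)), IsCompact K →
  Submodule.span ℝ K = ⊤ →
  (∀ M ∈ T, ∀ y₀ ∈ K, ∃ y : ℝ → V, y 0 = y₀ ∧ ∀ t, y t ∈ K ∧ HasDerivAt y (M (y t)) t) →
  ∃ q : V →L[ℝ] V →L[ℝ] ℝ, (∀ v w, q v w = q w v) ∧ (∀ v, v ≠ 0 → 0 < q v v) ∧
    ∀ M ∈ T, ∀ v w, q (M v) w + q v (M w) = 0

/-- CARTAN: the Cartan involution of an algebra of rank one -/
def CartanStmt : Prop := ∀ (G : Type) [NormedAddCommGroup G] [NormedSpace ℝ G]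
  [FiniteDimensional ℝ G] (A : LA G) (H : G) (μ : G →ₗ[ℝ] ℝ) (q : G →ₗ[ℝ] G →ₗ[ℝ] ℝ),
  (⨆ r : ℝ, Module.End.eigenspace (A.br H : G →ₗ[ℝ] G) r) = ⊤ → μ H = 1 →
  (∀ Z W, A.br H Z = 0 → μ (A.br Z W) = 0) →
  (∀ (r : ℝ) Z, r ≠ 0 → A.br H Z = r • Z → (∀ W, μ (A.br Z W) = 0) → Z = 0) →
  (∀ Z, A.br H Z = 0 → μ Z = 0 →
    (∀ (r : ℝ) W, 0 < r → A.br H W = r • W → A.br Z W = 0) → Z = 0) →
  (∀ v w, q v w = q w v) →
  (∀ (r : ℝ) W, 0 < r → A.br H W = r • W → W ≠ 0 → 0 < q W W) →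
  (∀ Z, A.br H Z = 0 → μ Z = 0 → ∀ (r : ℝ) W W', 0 < r → A.br H W = r • W →
    A.br H W' = r • W' → q (A.br Z W) W' + q W (A.br Z W') = 0) →
  (∃ (r : ℝ) (W : G), 0 < r ∧ W ≠ 0 ∧ A.br H W = r • W) →
  ∃ (n : ℕ) (lam : Fin n → ℝ) (θ : G ≃L[ℝ] G) (Y : Fin n → G) (a : ℝ), A.Frame lam θ H Y ∧
    0 < a ∧ (∀ i, lam i = a ∨ lam i = 2 * a) ∧ (∃ i, lam i = a) ∧
    ∀ Z, A.br H Z = 0 → A.ip lam θ H Z = μ Z

/-- LEVI: two frames with the same parabolic subalgebra -/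
def LeviStmt : Prop := ∀ (G : Type) [NormedAddCommGroup G] [NormedSpace ℝ G]
  [FiniteDimensional ℝ G] (A : LA G) (n : ℕ) (lam : Fin n → ℝ) (a : ℝ) (θ θ' : G ≃L[ℝ] G)
  (v v' : G) (Y Y' : Fin n → G), A.Frame lam θ v Y → A.Frame lam θ' v' Y' → 0 < a →
  (∀ i, lam i = a ∨ lam i = 2 * a) →
  (∀ Z, (∀ i, A.ip lam θ Z (θ (Y i)) = 0) ↔ ∀ i, A.ip lam θ' Z (θ' (Y' i)) = 0) →
  (∀ i j, lam i = 2 * a → lam j = a → A.ip lam θ (θ' (Y' j)) (θ (Y i)) = 0) ∧
    |(Matrix.of fun i j : {i // lam i = 2 * a} => A.ip lam θ (θ' (Y' j)) (θ (Y i))).det| ^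
        Fintype.card {i // lam i = a} =
      |(Matrix.of fun i j : {i // lam i = a} => A.ip lam θ (θ' (Y' j)) (θ (Y i))).det| ^
        (2 * Fintype.card {i // lam i = 2 * a})

/-! ### Blocks on the boundary -/

variable [Dim]

variable {Γ X B : Type} [Group Γ] [MetricSpace X] [ProperSpace X] [MulAction Γ X]
  [IsIsometricSMul Γ X] [TopologicalSpace B] [CompactSpace B] [T2Space B] [MulAction Γ B]
  [ContinuousConstSMul Γ B] [MeasurableSpace B] [BorelSpace B] {L : Leaf Γ X B}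

/-- IC: integral curves exist for all times -/
def IC (L : Leaf Γ X B) : Prop :=
  ∀ c, IsVF L c → ∀ ξ : B, ∃ γ : ℝ → B, γ 0 = ξ ∧ Drv L (fun _ => c) γ

variable {S : Sm L} {G : Type} [NormedAddCommGroup G] [NormedSpace ℝ G]

/-- the moment map in two charts -/
def Alg.mm (A : Alg S G) (x y : X) (Z : G) (z : E2 × E2) : ℝ := A.mom (L.e x z.1) (L.e y z.2) Z

/-- MOM: the moment map in any chart, its derivatives, and the jets which determine a field -/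
structure Alg.MomEq (A : Alg S G) : Prop where
  eq : ∀ x y, ∀ z ∈ Od L x y, ∀ Z,
    A.mm x y Z z = A.f Z (L.e x z.1) - d1 (FF L S.A.D x y) z (A.c Z x z.1)
  anti : ∀ ξ η Z, ξ ≠ η → A.mom η ξ Z = -A.mom ξ η Z
  smooth : ∀ x y Z, ContDiffOn ℝ ∞ (A.mm x y Z) (Od L x y)
  br : ∀ x y, ∀ z ∈ Od L x y, ∀ W Z,
    A.mm x y (A.br W Z) z = fderiv ℝ (A.mm x y Z) z (A.c W x z.1, A.c W y z.2)
  snd : ∀ x y, ∀ z ∈ Od L x y, ∀ Z w,
    d2 (A.mm x y Z) z w = -mix (FF L S.A.D x y) z w (A.c Z x z.1)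
  fst : ∀ x y, ∀ z ∈ Od L x y, ∀ Z w,
    d1 (A.mm x y Z) z w = mix (FF L S.A.D x y) z (A.c Z y z.2) w
  jet : ∀ x, ∀ u ∈ ball (0 : E2) 3, ∀ Z, A.c Z x u = 0 → fderiv ℝ (A.c Z x) u = 0 →
    fderiv ℝ (fun w => A.f Z (L.e x w)) u = 0 → Z = 0

/-- DIAG: hyperbolic elements are diagonalisable -/
def Alg.Diag (A : Alg S G) : Prop := ∀ x H, A.Hyp x H →
  (⨆ r : ℝ, Module.End.eigenspace (A.br H : G →ₗ[ℝ] G) r) = ⊤

/-- KILL: the algebra is transitive and contains a hyperbolic element -/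
def Alg.Kill (A : Alg S G) : Prop := A.Trans ∧ ∃ x H, A.Hyp x H

/-- the roots are `a` and `2 a` -/
def Two (lam : Fin Dim.m → ℝ) (a : ℝ) : Prop := 0 < a ∧ ∀ i, lam i = a ∨ lam i = 2 * a

/-- CAR0: a frame at one point -/
def Alg.Car0 (A : Alg S G) : Prop :=
  ∃ lam θ ξ v Y a, A.Car lam θ ξ v Y ∧ Two lam a ∧ ∃ i, lam i = a

/-- MODEL: from one point to all points -/
def Alg.ToModel (A : Alg S G) : Prop :=
  ∀ lam θ ξ v₀ Y, A.Car lam θ ξ v₀ Y → ∃ v, A.Model lam θ v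

/-- ALPHA -/
def Alg.ToAl (A : Alg S G) : Prop := ∀ lam θ v, A.Model lam θ v → ∃ al, A.IsAl lam θ v al

/-- POLAR: `v` maps `e^{-h α} ν` to a multiple of the round measure -/
def Alg.Polar (A : Alg S G) : Prop := ∀ lam θ v al, A.Model lam θ v → A.IsAl lam θ v al →
  (∃ j : G →L[ℝ] E3, ∀ Z Z', θ Z = -Z → θ Z' = -Z' → inner ℝ (j Z) (j Z') = A.ip lam θ Z Z') ∧
  ∀ j : G →L[ℝ] E3, (∀ Z Z', θ Z = -Z → θ Z' = -Z' → inner ℝ (j Z) (j Z') = A.ip lam θ Z Z') →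
    ∃ w : B ≃ₜ sphere (0 : E3) 1, (∀ ξ, (w ξ : E3) = j (v ξ)) ∧ MeasurePreserving w
      (S.A.ν.withDensity fun ξ =>
        ENNReal.ofReal (Real.sqrt (∏ i, 2 * lam i) * Real.exp (-S.A.h * al ξ)))
      (volume : Measure E3).toSphere

/-- MASS: the bound of the mass -/
def Alg.MassLe (A : Alg S G) : Prop := ∀ lam θ v al a, A.Model lam θ v → A.IsAl lam θ v al →
  Two lam a → S.A.ν.real univ * Real.sqrt (∏ i, 2 * lam i) ≤
    (volume : Measure E3).toSphere.real univ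

/-- EXPO: the growth of volumes -/
def Alg.Expo (A : Alg S G) : Prop := ∀ lam θ v al a, A.Model lam θ v → A.IsAl lam θ v al →
  Two lam a → (∃ i, lam i = a) → Grow L a (Finset.univ.filter fun i => lam i = 2 * a).card

/-! ### The assembly -/

theorem two_sum {lam : Fin Dim.m → ℝ} {a : ℝ} (h : Two lam a) :
    ∑ i, lam i = a * (Dim.m + (Finset.univ.filter fun i => lam i = 2 * a).card) := by
  have : ∀ i, lam i = a + if lam i = 2 * a then a else 0 := fun i => by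
    split_ifs with hi
    · linarith
    · rcases h.2 i with h' | h'
      · linarith
      · exact absurd h' hi
  rw [Finset.sum_congr rfl fun i _ => this i, Finset.sum_add_distrib, ← Finset.sum_filter]
  simp only [Finset.sum_const, Finset.card_univ, Fintype.card_fin, nsmul_eq_mul]
  ring

theorem two_prod {lam : Fin Dim.m → ℝ} {a : ℝ} (h : Two lam a) :
    ∏ i, 2 * lam i = (2 * a) ^ (Dim.m - (Finset.univ.filter fun i => lam i = 2 * a).card) *
      (4 * a) ^ (Finset.univ.filter fun i => lam i = 2 * a).card := by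
  have : ∀ i, 2 * lam i = if lam i = 2 * a then 4 * a else 2 * a := fun i => by
    split_ifs with hi
    · linarith
    · rcases h.2 i with h' | h'
      · linarith
      · exact absurd h' hi
  rw [Finset.prod_congr rfl fun i _ => this i, Finset.prod_ite, Finset.prod_const,
    Finset.prod_const, mul_comm]
  congr 2
  have := Finset.card_filter_add_card_filter_not (s := (Finset.univ : Finset (Fin Dim.m)))
    fun i => lam i = 2 * a
  rw [Finset.card_univ, Fintype.card_fin] at this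
  omega

/-- the smooth case from the blocks -/
theorem smOut_of (A : Alg S G) (h0 : A.Car0) (hM : A.ToModel) (hA : A.ToAl) (hm : A.MassLe)
    (hE : A.Expo) : SmOut S := by
  obtain ⟨lam, θ, ξ, v₀, Y, a, hc, h2, h1⟩ := h0
  obtain ⟨v, hv⟩ := hM _ _ _ _ _ hc
  obtain ⟨al, hal⟩ := hA _ _ _ hv
  have := S.A.ν_finite
  refine ⟨a, _, h2.1, ?_, hal.sum.trans (two_sum h2), hE _ _ _ _ _ hv hal h2 h1, ?_⟩
  · simpa using Finset.card_filter_le Finset.univ fun i => lam i = 2 * a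
  rw [← two_prod h2]
  have hP0 : 0 < ∏ i, 2 * lam i := Finset.prod_pos fun i _ => by
    have := hc.lam_pos i
    positivity
  rw [← ENNReal.ofReal_toReal (measure_ne_top S.A.ν univ)]
  exact ENNReal.ofReal_le_ofReal
    ((le_div_iff₀ (Real.sqrt_pos.2 hP0)).2 (hm _ _ _ _ _ hv hal h2))

end Vale.Agent.P207Z.SC
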