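import Vale.Agent.P207Z.SM.K.Glue
import Vale.Agent.P207Z.Sm.Sk

/-!
# P207, smooth case: the Killing algebra is transitive and contains a hyperbolic element
-/

set_option linter.all false

open Set Filter Topology Metric
open scoped ContDiff

noncomputable section

namespace Vale.Agent.P207Z.K

open Vale.Agent.P207.N3 Vale.Agent.P207.N4 Vale.Agent.P207.N4.H391
open Vale.Agent.P207.N4.Ten (ball_sub mem_ball0 mem_dm tau_eq e_tau tau_mem isOpen_dm
  tau_symm_mem fderiv_tau_self)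

variable [Dim]

variable {Γ X B : Type} [Group Γ] [MetricSpace X] [ProperSpace X] [MulAction Γ X]
  [IsIsometricSMul Γ X] [TopologicalSpace B] [CompactSpace B] [T2Space B] [MulAction Γ B]
  [ContinuousConstSMul Γ B] {L : Leaf Γ X B} {D : B → B → ℝ}

namespace Hy

variable (H : Hy L D) {W : X → E2 → E2} {f : B → ℝ}

theorem AK.tr {H : Hy L D} (h : H.AK W f) {z z' : X} {b : E2} (hb : H.pt z b ≠ L.em z') :
    W z' (H.tr z z' b) = fderiv ℝ (H.tr z z') b (W z b) := by
  refine sub_eq_zero.1 (H.uniq (y := z) (z := z') (b := H.tr z z' b) (c := 0) fun a ha => ?_).1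
  have ha' : H.pt z a ≠ H.pt z b := by rwa [H.pt_tr hb] at ha
  have e : d1 (H.G z z') (a, H.tr z z' b) = d1 (H.G z z) (a, b) := by
    simp only [d1, G, H.pt_tr hb]
  have h1 := h.kill _ _ _ _ ha
  have h2 := h.kill _ _ _ _ ha'
  rw [e, H.pt_tr hb] at h1
  rw [map_sub, ← H.d2_tr ha' hb]
  linarith

/-- the affine coordinate on a disc -/
def el (_ : Hy L D) (z : X) (u : E2) : E2 := ch L D z (L.e z u)

variable {z : X} {u : E2}

theorem pt_el (hu : u ∈ ball (0 : E2) 3) : H.pt z (H.el z u) = L.e z u :=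
  H.pt_ch (L.e_ne z u (ball_sub hu))

theorem mem_el (hu : u ∈ ball (0 : E2) 3) : H.pt z (H.el z u) ∈ L.e z '' ball 0 3 :=
  ⟨u, hu, (H.pt_el hu).symm⟩

theorem cd_el (hu : u ∈ ball (0 : E2) 3) : ContDiffAt ℝ ∞ (H.el z) u :=
  H.cd_ch hu (L.e_ne z u (ball_sub hu))

theorem el_zero : H.el z 0 = 0 := by rw [el, L.e_zero, ch_ep]

theorem el_kap (hu : u ∈ ball (0 : E2) 3) (v : E2) :
    fderiv ℝ (H.el z) u (fderiv ℝ (H.kap z z) (H.el z u) v) = v := by
  have h1 := (dfa (H.cd_el (z := z) hu)).hasFDerivAt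
  have e : H.kap z z (H.el z u) = u := by rw [kap, H.pt_el hu, L.inv_e (ball_sub hu)]
  rw [← e] at h1
  have h2 := (h1.comp _ (dfa (H.cd_kap (H.mem_el hu))).hasFDerivAt).unique
    ((hasFDerivAt_id _).congr_of_eventuallyEq ((H.ev_kd (H.mem_el hu)).mono fun v hv => by
      simp only [Function.comp, el, H.e_kap hv, H.ch_pt, id]))
  rw [e] at h2
  exact congrArg (fun A : E2 →L[ℝ] E2 => A v) h2

theorem inj_el (hu : u ∈ ball (0 : E2) 3) : Function.Injective (fderiv ℝ (H.el z) u) := by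
  obtain ⟨e, he⟩ := H.inv_ch (q := ((z, z), u)) ⟨hu, L.e_ne z u (ball_sub hu)⟩
  rw [show fderiv ℝ (H.el z) u = e from he.symm]
  exact e.injective

/-- the components in the discs -/
def dc (W : X → E2 → E2) (z : X) (u : E2) : E2 :=
  fderiv ℝ (H.kap z z) (H.el z u) (W z (H.el z u))

theorem AK.vf {H : Hy L D} (h : H.AK W f) : SC.IsVF L (H.dc W) := by
  refine ⟨fun z u hu => ContDiffAt.contDiffWithinAt ?_, fun x y u hu => ?_⟩
  · exact ((cdf (H.cd_kap (H.mem_el hu))).comp u (H.cd_el hu)).clm_apply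
      ((h.sm z).contDiffAt.comp u (H.cd_el hu))
  have h1 : H.pt x (H.el x u) ≠ L.em y := by
    rw [H.pt_el hu.1, ← e_tau hu]; exact L.e_ne _ _ (ball_sub (tau_mem hu))
  have e : ∀ v ∈ L.dm x y, H.tr x y (H.el x v) = H.el y (L.τ x y v) := fun v hv => by
    rw [Hy.tr, H.pt_el hv.1, el, e_tau hv]
  have h2 := ((H.has_tr h1).comp u (dfa (H.cd_el hu.1)).hasFDerivAt).unique
    (((dfa (H.cd_el (z := y) (tau_mem hu))).hasFDerivAt.comp u
      (H.has_tau hu)).congr_of_eventuallyEq (Eventually.mono ((isOpen_dm L x y).mem_nhds hu) e))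
  have h3 := congrArg (fun A : E2 →L[ℝ] E2 => A (H.dc W x u)) h2
  simp only [ContinuousLinearMap.comp_apply] at h3
  refine H.inj_el (z := y) (tau_mem hu) ?_
  rw [← h3, dc, dc, H.el_kap (tau_mem hu), H.el_kap hu.1, ← h.tr h1, e u hu]

theorem van {c : X → E2 → E2} (h : SC.IsVF L c) (h0 : c z 0 = 0) (x : X)
    (hu : u ∈ ball (0 : E2) 3) (e : L.e x u = L.ep z) : c x u = 0 := by
  have e' : L.e x u = L.e z 0 := by rw [e, L.e_zero]
  have := h.2 z x 0 (mem_dm mem_ball0 hu e')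
  rwa [tau_eq (ball_sub hu) e', h0, map_zero] at this

end Hy

variable [MeasurableSpace B] [BorelSpace B] {S : SC.Sm L} {G : Type} [NormedAddCommGroup G]
  [NormedSpace ℝ G]

theorem hy_of (S : SC.Sm L) : Hy L S.A.D :=
  ⟨⟨S.tau_jc, S.f_jc, fun x y a b h => S.nd x y (a, b) h⟩, S.A.D_eq⟩

theorem isKill_of {W : X → E2 → E2} {f : B → ℝ} (h : (hy_of S).AK W f) :
    SC.IsKill S ((hy_of S).dc W) f := by
  set H := hy_of S
  refine ⟨h.vf, fun z u hu => ContDiffAt.contDiffWithinAt ?_, fun x y p hp => ?_⟩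
  · refine ((h.smf z).contDiffAt.comp u (H.cd_el (z := z) hu)).congr_of_eventuallyEq ?_
    filter_upwards [isOpen_ball.mem_nhds hu] with v hv
    simp only [Function.comp, H.pt_el hv]
  have hn : H.pt x (H.el x p.1) ≠ H.pt y (H.el y p.2) := by
    rw [H.pt_el hp.1, H.pt_el hp.2.1]; exact hp.2.2
  have h1 : SC.d1 (SC.FF L S.A.D x y) p = _ := (((has_d1 (p := (H.el x p.1, H.el y p.2))
    (H.cd_G hn)).comp p.1 (dfa (H.cd_el hp.1)).hasFDerivAt).congr_of_eventuallyEq
    (Eventually.mono (isOpen_ball.mem_nhds hp.1) fun v hv => by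
      simp only [Function.comp, SC.FF, Hy.G, H.pt_el hv, H.pt_el hp.2.1])).fderiv
  have h2 : SC.d2 (SC.FF L S.A.D x y) p = _ := (((has_d2 (p := (H.el x p.1, H.el y p.2))
    (H.cd_G hn)).comp p.2 (dfa (H.cd_el hp.2.1)).hasFDerivAt).congr_of_eventuallyEq
    (Eventually.mono (isOpen_ball.mem_nhds hp.2.1) fun v hv => by
      simp only [Function.comp, SC.FF, Hy.G, H.pt_el hv, H.pt_el hp.1])).fderiv
  have h3 := h.kill _ _ _ _ hn
  rw [H.pt_el hp.1, H.pt_el hp.2.1] at h3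
  simp only [SC.err, h1, h2, ContinuousLinearMap.comp_apply, Hy.dc, H.el_kap hp.1,
    H.el_kap hp.2.1, h3]
  ring

theorem exists_hyp (hp : ∀ c, IsCompact {p : B × B | p.1 ≠ p.2 ∧ c ≤ S.A.D p.1 p.2})
    (A : SC.Alg S G) : ∃ x Z, A.Hyp x Z := by
  set H := hy_of S
  obtain ⟨x, T, W, f, h, ⟨b, r, hr, hb⟩, h1, h2⟩ := H.exists_ak hp
  obtain ⟨Z, hZ, -⟩ := A.full _ _ (isKill_of h)
  obtain ⟨e, he⟩ := Hy.inv_of_inj (H.inj_el (z := L.flip x) mem_ball0)
  have hk : fderiv ℝ (H.kap (L.flip x) (L.flip x)) 0 = e.symm := by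
    ext1 v
    have := H.el_kap (z := L.flip x) mem_ball0 v
    rw [H.el_zero, ← he] at this
    exact e.injective (by simpa using this)
  refine ⟨x, Z, fun y u hu hx => Hy.van (z := L.flip x) (A.kill Z).1 ?_ y hu
    (by rw [hx, L.ep_of_flip]), fun y u hu hx => Hy.van (z := x) (A.kill Z).1 ?_ y hu hx,
    b.map e.symm.toLinearEquiv, r, hr, fun i => ?_⟩
  · rw [hZ _ _ mem_ball0, Hy.dc, H.el_zero, h1, map_zero, map_zero]
  · rw [hZ _ _ mem_ball0, Hy.dc, H.el_zero, h2, map_zero]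
  have h3 := (dfa (H.cd_el (z := L.flip x) mem_ball0)).hasFDerivAt
  have h4 := ((dfa ((cdf (H.cd_kap (H.mem_el (z := L.flip x) mem_ball0))).comp 0
    (H.cd_el mem_ball0))).hasFDerivAt.clm_apply
    (T.hasFDerivAt.comp 0 h3)).congr_of_eventuallyEq (f₁ := A.c Z (L.flip x))
    (ev_ball.mono fun v hv => by simp only [hZ _ _ hv, Hy.dc, h1, Function.comp])
  rw [h4.fderiv]
  simp [H.el_zero, hk, ← he, hb]

/-- `k` fields are independent at a point -/
def Ind (A : SC.Alg S G) (k : ℕ) (x : X) (u : E2) : Prop :=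
  ∃ Z : Fin k → G, LinearIndependent ℝ fun i => A.c (Z i) x u

theorem ind_all {A : SC.Alg S G} (had : A.Ad) {k : ℕ} {x : X} {u : E2} (hu : u ∈ ball (0 : E2) 3)
    (h : Ind A k x u) (y : X) {v : E2} (hv : v ∈ ball (0 : E2) 3) : Ind A k y v := by
  set H := hy_of S
  obtain ⟨Z, hZ⟩ := h
  have h1 : ∀ᶠ w in 𝓝 u, LinearIndependent ℝ fun i => A.c (Z i) x w :=
    (continuousAt_pi.2 fun i => (((A.kill (Z i)).1.1 x).contDiffAt
      (isOpen_ball.mem_nhds hu)).continuousAt).eventually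
      (isOpen_setOf_linearIndependent.mem_nhds hZ)
  have h2 := (L.inv_tendsto (l := 𝓝 (L.e x u)) (tendsto_const_nhds (x := x)) tendsto_id hu).2
  obtain ⟨_, ⟨h3, h4⟩, g, rfl⟩ := mem_closure_iff_nhds.1 (L.dense_orbit (L.e y v) (L.e x u)) _
    ((h2.eventually h1).and ((H824.open_disc' L x le_rfl).mem_nhds ⟨u, hu, rfl⟩))
  obtain ⟨w, hw, e⟩ := h4
  simp only [id] at h3 e
  rw [← e, L.inv_e (ball_sub hw)] at h3
  have e' : L.e (g • y) v = L.e x w := by rw [L.e_smul g y v (ball_sub hv), e]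
  have hd := mem_dm hw hv e'
  obtain ⟨κ, -, hκ⟩ := had g⁻¹
  refine ⟨fun i => κ (Z i), ?_⟩
  have e2 : ∀ i, A.c (κ (Z i)) y v = fderiv ℝ (L.τ x (g • y)) w (A.c (Z i) x w) := fun i => by
    have := hκ (Z i) (g • y) v hv
    rw [inv_smul_smul] at this
    rw [this, ← (A.kill (Z i)).1.2 _ _ _ hd, tau_eq (ball_sub hv) e']
  simp only [e2]
  refine h3.map' (fderiv ℝ (L.τ x (g • y)) w : E2 →ₗ[ℝ] E2)
    (LinearMap.ker_eq_bot.2 fun a b hab => ?_)
  have h5 := H.ftau_trans hd (tau_symm_mem hd)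
  rw [fderiv_tau_self hw] at h5
  have ea := congrArg (fun T : E2 →L[ℝ] E2 => T a) h5
  have eb := congrArg (fun T : E2 →L[ℝ] E2 => T b) h5
  simp only [ContinuousLinearMap.id_apply, ContinuousLinearMap.comp_apply] at ea eb
  rw [ea, eb]
  exact congrArg _ hab

theorem trans_of {A : SC.Alg S G} (had : A.Ad) {x : X} {Z : G} (h : A.Hyp x Z) : A.Trans := by
  obtain ⟨h0, -, b, r, hr, hb⟩ := h
  set y := L.flip x
  have z0 : A.c Z y 0 = 0 := h0 y 0 mem_ball0 (e0_flip x)
  have cd : ∀ a, ContDiffAt ℝ ∞ (A.c a y) 0 := fun a => ((A.kill a).1.1 y).contDiffAt ev_ball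
  have key : ∀ k, k ≤ Dim.m → Ind A k y 0 := by
    intro k
    induction k with
    | zero => exact fun _ => ⟨Fin.elim0, linearIndependent_empty_type⟩
    | succ k ih =>
      intro hk
      obtain ⟨Y, hY⟩ := ih (by omega)
      obtain ⟨i, hi⟩ : ∃ i, b i ∉ Submodule.span ℝ (range fun j => A.c (Y j) y 0) := by
        by_contra hc
        have h1 : Submodule.span ℝ (range fun j => A.c (Y j) y 0) = ⊤ := by
          rw [eq_top_iff, ← b.span_eq, Submodule.span_le]
          rintro _ ⟨i, rfl⟩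
          exact not_not.1 fun h => hc ⟨i, h⟩
        have h2 := finrank_span_eq_card hY
        rw [h1, finrank_top, finrank_euclideanSpace_fin, Fintype.card_fin] at h2
        omega
      have h1 : LinearIndependent ℝ (Fin.cons (r i • b i) fun j => A.c (Y j) y 0 :
          Fin (k + 1) → E2) := linearIndependent_finCons.2 ⟨hY, fun h =>
        hi ((Submodule.smul_mem_iff _ (hr i).ne').1 h)⟩
      have l0 : HasDerivAt (fun t : ℝ => t • b i) (b i) 0 := by
        simpa using (hasDerivAt_id (0 : ℝ)).smul_const (b i)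
      have l1 : Tendsto (fun t : ℝ => t • b i) (𝓝[≠] 0) (𝓝 0) := by
        simpa using l0.continuousAt.tendsto.mono_left nhdsWithin_le_nhds
      have h2 := (dfa (cd Z)).hasFDerivAt
      rw [← zero_smul ℝ (b i)] at h2
      have h3 := (h2.comp_hasDerivAt 0 l0).tendsto_slope_zero
      rw [zero_smul, hb] at h3
      have h4 : Tendsto (fun t : ℝ => (Fin.cons (t⁻¹ • A.c Z y (t • b i))
          fun j => A.c (Y j) y (t • b i) : Fin (k + 1) → E2)) (𝓝[≠] 0)
          (𝓝 (Fin.cons (r i • b i) fun j => A.c (Y j) y 0)) := by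
        refine tendsto_pi_nhds.2 fun j => Fin.cases ?_ (fun j => ?_) j
        · simpa [z0] using h3
        · exact (cd (Y j)).continuousAt.tendsto.comp l1
      obtain ⟨t, h5, h6⟩ := ((h4.eventually (isOpen_setOf_linearIndependent.mem_nhds h1)).and
        (l1.eventually ev_ball)).exists
      refine ind_all had (x := y) h6 ⟨Fin.cons (t⁻¹ • Z) Y, ?_⟩ y mem_ball0
      rwa [show (fun j => A.c ((Fin.cons (t⁻¹ • Z) Y : Fin (k + 1) → G) j) y (t • b i)) =
        Fin.cons (t⁻¹ • A.c Z y (t • b i)) fun j => A.c (Y j) y (t • b i) from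
        funext fun j => Fin.cases (by simp) (fun j => by simp) j]
  intro z u hu w
  obtain ⟨Y, hY⟩ := ind_all had mem_ball0 (key _ le_rfl) z hu
  have h1 := hY.span_eq_top_of_card_eq_finrank' (by simp)
  obtain ⟨s, hs⟩ := (Submodule.mem_span_range_iff_exists_fun ℝ).1
    (show w ∈ Submodule.span ℝ (range fun j => A.c (Y j) z u) from h1 ▸ Submodule.mem_top)
  exact ⟨∑ j, s j • Y j, by simpa using hs⟩

/-- the Killing algebra is transitive and contains a hyperbolic element -/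
theorem kill0 (h : SC.Basic0 S) (A : SC.Alg S G) (had : A.Ad) : A.Kill := by
  obtain ⟨x, Z, hZ⟩ := exists_hyp h.proper A
  exact ⟨trans_of had hZ, x, Z, hZ⟩

theorem _root_.Vale.Agent.P207Z.SC.kill (h : SC.Basic S) (A : SC.Alg S G) [FiniteDimensional ℝ G]
    (hm : A.MomEq) (had : A.Ad) (hi : SC.IC L) (ht : A.Transport) : A.Kill :=
  kill0 h.toBasic0 A had

end Vale.Agent.P207Z.K
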