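import Vale.Agent.P207Z.Sm.AlgCh

/-!
# P207, the smooth case: the algebra of Killing pairs
-/

set_option linter.unusedSectionVars false

open Set Filter Topology Metric MeasureTheory
open scoped ContDiff

noncomputable section

namespace Vale.Agent.P207Z.SC

open Vale.Agent.P207.N4 Vale.Agent.P207.N3 AL

variable [Dim]

variable {Γ X B : Type} [Group Γ] [MetricSpace X] [ProperSpace X] [MulAction Γ X]
  [IsIsometricSMul Γ X] [TopologicalSpace B] [CompactSpace B] [T2Space B] [MulAction Γ B]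
  [ContinuousConstSMul Γ B] [MeasurableSpace B] [BorelSpace B] {L : Leaf Γ X B}
  {S : Sm L} {G : Type} [NormedAddCommGroup G] [NormedSpace ℝ G]

namespace AL

/-! ### existence -/

open Classical in
/-- cut a field off outside the ball -/
def cut (c : X → E2 → E2) (x : X) (u : E2) : E2 := if u ∈ ball (0 : E2) 3 then c x u else 0

theorem cut_eq (c : X → E2 → E2) (x : X) : ∀ u ∈ ball (0 : E2) 3, cut c x u = c x u :=
  fun _ hu => if_pos hu

/-- the space of the normalised Killing pairs -/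
def KP (S : Sm L) : Submodule ℝ ((X → E2 → E2) × (B → ℝ)) where
  carrier := {p | IsKill S p.1 p.2 ∧ ∀ x, ∀ u ∉ ball (0 : E2) 3, p.1 x u = 0}
  add_mem' ha hb := ⟨kill_add ha.1 hb.1, fun x u hu => by
    simp only [Prod.fst_add, Pi.add_apply, ha.2 x u hu, hb.2 x u hu, add_zero]⟩
  zero_mem' := ⟨kill_zero, fun _ _ _ => rfl⟩
  smul_mem' r p hp := ⟨kill_smul r hp.1, fun x u hu => by
    simp only [Prod.smul_fst, Pi.smul_apply, hp.2 x u hu, smul_zero]⟩

theorem KP_zero (hb : Basic0 S) (p : KP S) (h : ∀ x, ∀ u ∈ ball (0 : E2) 3, p.1.1 x u = 0) :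
    p = 0 :=
  Subtype.ext (Prod.ext (funext fun x => funext fun u => by
    by_cases hu : u ∈ ball (0 : E2) 3
    · exact h x u hu
    · exact p.2.2 x u hu) (kill_f_zero hb p.2.1 h))

/-- the jet of a Killing pair at the centre of a chart -/
def jetK (S : Sm L) (x : X) : KP S →ₗ[ℝ] E2 × (E2 →L[ℝ] E2) × (E2 →L[ℝ] ℝ) where
  toFun p := (p.1.1 x 0, fderiv ℝ (p.1.1 x) 0, fderiv ℝ (fun w => p.1.2 (L.e x w)) 0)
  map_add' p q := Prod.ext rfl (Prod.ext
    (fderiv_add (vf_diff p.2.1.1 x zero_mem) (vf_diff q.2.1.1 x zero_mem))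
    (fderiv_add (fn_diff p.2.1.2.1 x zero_mem) (fn_diff q.2.1.2.1 x zero_mem)))
  map_smul' r p := Prod.ext rfl (Prod.ext (fderiv_const_smul (vf_diff p.2.1.1 x zero_mem) r)
    (fderiv_const_smul (fn_diff p.2.1.2.1 x zero_mem) r))

theorem KP_fin (hb : Basic0 S) : FiniteDimensional ℝ (KP S) := by
  obtain ⟨x⟩ := L.nonempty
  refine FiniteDimensional.of_injective (jetK S x) ((injective_iff_map_eq_zero _).2 fun p hp => ?_)
  exact KP_zero hb p (kill_jet p.2.1 zero_mem (congrArg Prod.fst hp)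
    (congrArg (fun q => q.2.1) hp) (congrArg (fun q => q.2.2) hp))

/-- a faithful and full family of Killing pairs is an algebra -/
theorem alg_of (hb : Basic0 S) [FiniteDimensional ℝ G] (c : G →ₗ[ℝ] X → E2 → E2)
    (f : G →ₗ[ℝ] B → ℝ) (kill : ∀ a, IsKill S (c a) (f a))
    (faith : ∀ a, (∀ x, ∀ u ∈ ball (0 : E2) 3, c a x u = 0) → a = 0)
    (full : ∀ c' f', IsKill S c' f' →
      ∃ a, (∀ x, ∀ u ∈ ball (0 : E2) 3, c a x u = c' x u) ∧ f a = f') : Nonempty (Alg S G) := by
  choose br h1 h2 using fun a b => full _ _ (kill_lie hb (kill a) (kill b))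
  have ext : ∀ a b, (∀ x, ∀ u ∈ ball (0 : E2) 3, c a x u = c b x u) → a = b := fun a b h =>
    sub_eq_zero.1 (faith _ fun x u hu => by
      rw [map_sub, Pi.sub_apply, Pi.sub_apply, h x u hu, sub_self])
  have d : ∀ a x, ∀ u ∈ ball (0 : E2) 3, DifferentiableAt ℝ (c a x) u := fun a x u hu =>
    vf_diff (kill a).1 x hu
  have ev : ∀ a b x, ∀ u ∈ ball (0 : E2) 3,
      c (br a b) x =ᶠ[𝓝 u] VectorField.lieBracket ℝ (c a x) (c b x) := fun a b x u hu => by
    filter_upwards [ball_nhds hu] with w hw using h1 a b x w hw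
  let b2 : G →ₗ[ℝ] G →ₗ[ℝ] G := LinearMap.mk₂ ℝ br
    (fun a a' b => ext _ _ fun x u hu => by
      rw [map_add, Pi.add_apply, Pi.add_apply, h1 _ _ x u hu, h1 _ _ x u hu, h1 _ _ x u hu, map_add]
      exact VectorField.lieBracket_add_left (d a x u hu) (d a' x u hu))
    (fun r a b => ext _ _ fun x u hu => by
      rw [map_smul, Pi.smul_apply, Pi.smul_apply, h1 _ _ x u hu, h1 _ _ x u hu, map_smul]
      exact VectorField.lieBracket_const_smul_left (d a x u hu))
    (fun a b b' => ext _ _ fun x u hu => by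
      rw [map_add, Pi.add_apply, Pi.add_apply, h1 _ _ x u hu, h1 _ _ x u hu, h1 _ _ x u hu, map_add]
      exact VectorField.lieBracket_add_right (d b x u hu) (d b' x u hu))
    (fun r a b => ext _ _ fun x u hu => by
      rw [map_smul, Pi.smul_apply, Pi.smul_apply, h1 _ _ x u hu, h1 _ _ x u hu, map_smul]
      exact VectorField.lieBracket_const_smul_right (d b x u hu))
  refine ⟨{ br := LinearMap.toContinuousLinearMap
              ((LinearMap.toContinuousLinearMap : (G →ₗ[ℝ] G) ≃ₗ[ℝ] G →L[ℝ] G).toLinearMap ∘ₗ b2)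
            anti := fun a b => ext _ _ fun x u hu => ?_
            jac := fun a b e => ext _ _ fun x u hu => ?_
            c := c, f := f, kill := kill, c_br := h1
            f_br := fun a b x u hu => ?_
            faith := faith, full := full }⟩
  · show c (br a b) x u = c (-br b a) x u
    rw [map_neg, Pi.neg_apply, Pi.neg_apply, h1 _ _ x u hu, h1 _ _ x u hu]
    exact VectorField.lieBracket_swap
  · show c (br a (br b e)) x u = c (br (br a b) e + br b (br a e)) x u
    rw [map_add, Pi.add_apply, Pi.add_apply, h1 _ _ x u hu, h1 _ _ x u hu, h1 _ _ x u hu,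
      EventuallyEq.rfl.lieBracket_vectorField_eq (ev b e x u hu),
      (ev a b x u hu).lieBracket_vectorField_eq EventuallyEq.rfl,
      EventuallyEq.rfl.lieBracket_vectorField_eq (ev a e x u hu)]
    exact VectorField.leibniz_identity_lieBracket (n := (2 : ℕ)) (by simp)
      (vf_at (kill a).1 x hu 2) (vf_at (kill b).1 x hu 2) (vf_at (kill e).1 x hu 2)
  · show f (br a b) (L.e x u) = _
    rw [h2, Pi.sub_apply, dv_eq hb (kill a).1 hu (fn_diff (kill b).2.1 x hu),
      dv_eq hb (kill b).1 hu (fn_diff (kill a).2.1 x hu)]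

theorem alg_ext (A : Alg S G) {a b : G} (h : ∀ x, ∀ u ∈ ball (0 : E2) 3, A.c a x u = A.c b x u) :
    a = b := sub_eq_zero.1 (A.faith _ fun x u hu => by
      rw [map_sub, Pi.sub_apply, Pi.sub_apply, h x u hu, sub_self])

/-! ### the moment map -/

theorem mm_eq (hb : Basic0 S) (A : Alg S G) {x y : X} {z : E2 × E2} (hz : z ∈ Od L x y) (Z : G) :
    A.mm x y Z z = A.f Z (L.e x z.1) - d1 (FF L S.A.D x y) z (A.c Z x z.1) :=
  congrArg (A.f Z (L.e x z.1) - ·)
    (dv_eq (g := fun ξ => S.A.D ξ (L.e y z.2)) hb (A.kill Z).1 hz.1 (FF_left S hz))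

theorem mm_ev (hb : Basic0 S) (A : Alg S G) {x y : X} {z : E2 × E2} (hz : z ∈ Od L x y) (Z : G) :
    A.mm x y Z =ᶠ[𝓝 z] fun w => A.f Z (L.e x w.1) -
      fderiv ℝ (FF L S.A.D x y) w (A.c Z x w.1, (fun _ => 0 : E2 → E2) w.2) := by
  filter_upwards [(isOpen_Od S x y).mem_nhds hz] with w hw
  rw [mm_eq hb A hw, d1_eq (FF_diff S hw)]

theorem mm_inf (hb : Basic0 S) (A : Alg S G) {x y : X} {z : E2 × E2} (hz : z ∈ Od L x y) (Z : G) :
    ContDiffAt ℝ ∞ (A.mm x y Z) z :=
  (((fn_inf (A.kill Z).2.1 x hz.1).comp z contDiffAt_fst).sub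
    (((FF_inf S hz).fderiv_right (m := ∞) (by simp)).clm_apply
      (((vf_inf (A.kill Z).1 x hz.1).comp z contDiffAt_fst).prodMk
        contDiffAt_const))).congr_of_eventuallyEq (mm_ev hb A hz Z)

theorem mm_fderiv (hb : Basic0 S) (A : Alg S G) {x y : X} {z : E2 × E2} (hz : z ∈ Od L x y)
    (Z : G) (v w : E2) : fderiv ℝ (A.mm x y Z) z (v, w) =
      fderiv ℝ (fun u => A.f Z (L.e x u)) z.1 v -
        (fderiv ℝ (fderiv ℝ (FF L S.A.D x y)) z (v, w) (A.c Z x z.1, 0) +
          fderiv ℝ (FF L S.A.D x y) z (fderiv ℝ (A.c Z x) z.1 v, 0)) := by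
  have a1 : HasFDerivAt (fun w : E2 × E2 => A.f Z (L.e x w.1)) _ z :=
    (fn_diff (A.kill Z).2.1 x hz.1).hasFDerivAt.comp z hasFDerivAt_fst
  have a2 := (diff_fderiv (FF_at S hz 2)).clm_apply (hasFDerivAt_pv (c₂ := fun _ => 0)
    (vf_diff (A.kill Z).1 x hz.1) (differentiableAt_const _)).differentiableAt
  have a3 := fderiv_pv (c₂ := fun _ => 0) (FF_at S hz 2) (vf_diff (A.kill Z).1 x hz.1)
    (differentiableAt_const _) v w
  rw [fderiv_fun_const] at a3
  rw [(mm_ev hb A hz Z).fderiv_eq]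
  refine (congrArg (fun T : (E2 × E2) →L[ℝ] ℝ => T (v, w))
    (a1.fun_sub a2.hasFDerivAt).fderiv).trans ?_
  exact congrArg (fderiv ℝ (fun u => A.f Z (L.e x u)) z.1 v - ·) a3

theorem mm_add (A : Alg S G) (x y : X) (Z Z' : G) :
    A.mm x y (Z + Z') = A.mm x y Z + A.mm x y Z' := by
  funext z
  simp only [Alg.mm, Alg.mom, map_add, Pi.add_apply]
  ring

theorem mm_smul (A : Alg S G) (x y : X) (r : ℝ) (Z : G) : A.mm x y (r • Z) = r • A.mm x y Z := by
  funext z
  simp only [Alg.mm, Alg.mom, map_smul, Pi.smul_apply, smul_eq_mul]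
  ring

theorem mm_at {A : Alg S G} (hm : A.MomEq) {x y : X} {z : E2 × E2} (hz : z ∈ Od L x y) (Z : G)
    (n : ℕ) : ContDiffAt ℝ n (A.mm x y Z) z :=
  at_nat ((hm.smooth x y Z).contDiffAt ((isOpen_Od S x y).mem_nhds hz)) n

/-- the mixed derivative of the moment of a field which vanishes at the second point -/
theorem mix_mm {A : Alg S G} (hm : A.MomEq) {x y : X} {z : E2 × E2} (hz : z ∈ Od L x y) {Z : G}
    (h0 : A.c Z y z.2 = 0) (w v : E2) :
    mix (A.mm x y Z) z w v = mix (FF L S.A.D x y) z (fderiv ℝ (A.c Z y) z.2 w) v := by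
  have e : (fun p => fderiv ℝ (A.mm x y Z) p (v, 0)) =ᶠ[𝓝 z]
      fun p => fderiv ℝ (fun q => fderiv ℝ (FF L S.A.D x y) q (v, 0)) p
        ((fun _ => 0 : E2 → E2) p.1, A.c Z y p.2) := by
    filter_upwards [(isOpen_Od S x y).mem_nhds hz] with p hp
    rw [← d1_eq (diff_of (mm_at hm hp Z 1)), hm.fst x y p hp, mix_eq (FF_at S hp 2),
      fderiv_eval (FF_at S hp 2)]
  have hv : ContDiffAt ℝ (2 : ℕ) (fun q => fderiv ℝ (FF L S.A.D x y) q (v, 0)) z :=
    (at_fderiv (FF_at S hz 3)).clm_apply contDiffAt_const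
  rw [mix_eq (mm_at hm hz Z 2), ← fderiv_eval (mm_at hm hz Z 2), e.fderiv_eq,
    fderiv_pv hv (differentiableAt_const _) (vf_diff (A.kill Z).1 y hz.2.1), h0, Prod.mk_zero_zero,
    map_zero, zero_add, map_zero, fderiv_eval (FF_at S hz 2), mix_eq (FF_at S hz 2)]

/-- the mixed derivative of the moment of a bracket with a field which vanishes at both points -/
theorem mix_mm_br {A : Alg S G} (hm : A.MomEq) {x y : X} {z : E2 × E2} (hz : z ∈ Od L x y) {H : G}
    (h1 : A.c H x z.1 = 0) (h2 : A.c H y z.2 = 0) (Z : G) (w v : E2) :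
    mix (A.mm x y (A.br H Z)) z w v = mix (A.mm x y Z) z w (fderiv ℝ (A.c H x) z.1 v) +
      mix (A.mm x y Z) z (fderiv ℝ (A.c H y) z.2 w) v :=
  mix_lie (mm_at hm hz Z 3) (vf_at (A.kill H).1 x hz.1 2) (vf_at (A.kill H).1 y hz.2.1 2) h1 h2
    (by filter_upwards [(isOpen_Od S x y).mem_nhds hz] with p hp using hm.br x y p hp H Z) w v

theorem c_br_zero (A : Alg S G) {x : X} {u : E2} (hu : u ∈ ball (0 : E2) 3) {H : G}
    (h : A.c H x u = 0) (Z : G) : A.c (A.br H Z) x u = -fderiv ℝ (A.c H x) u (A.c Z x u) := by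
  rw [A.c_br H Z x u hu, VectorField.lieBracket, h, map_zero, zero_sub]

end AL

/-- **existence of the algebra of Killing pairs** -/
theorem exists_alg (h : Basic0 S) : ∃ n, Nonempty (Alg S (EuclideanSpace ℝ (Fin n))) := by
  have := KP_fin h
  obtain ⟨e⟩ : Nonempty (EuclideanSpace ℝ (Fin (Module.finrank ℝ (KP S))) ≃ₗ[ℝ] KP S) :=
    FiniteDimensional.nonempty_linearEquiv_of_finrank_eq (by simp)
  refine ⟨_, alg_of h (LinearMap.fst ℝ _ _ ∘ₗ (KP S).subtype ∘ₗ e.toLinearMap)
    (LinearMap.snd ℝ _ _ ∘ₗ (KP S).subtype ∘ₗ e.toLinearMap) (fun a => (e a).2.1)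
    (fun a ha => e.map_eq_zero_iff.1 (KP_zero h _ ha)) fun c' f' hk => ?_⟩
  obtain ⟨a, ha⟩ := e.surjective ⟨(cut c', f'), kill_congr hk (cut_eq c'), fun x u hu => if_neg hu⟩
  refine ⟨a, fun x u hu => ?_, ?_⟩
  · show (e a).1.1 x u = _
    rw [ha]
    exact cut_eq c' x u hu
  · show (e a).1.2 = _
    rw [ha]

/-- **the moment map** -/
theorem momEq (h : Basic0 S) (A : Alg S G) : A.MomEq where
  eq _ _ _ hz Z := mm_eq h A hz Z
  anti ξ η Z hne := by
    have hz : ((0 : E2), (0 : E2)) ∈ Od L (fr L ξ) (fr L η) :=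
      ⟨zero_mem, zero_mem, by rwa [e_fr h, e_fr h]⟩
    have a1 := (A.kill Z).2.2 _ _ _ hz
    have e : (fun a => S.A.D (L.e (fr L η) a) ξ) =ᶠ[𝓝 0]
        fun b => FF L S.A.D (fr L ξ) (fr L η) (0, b) := by
      have hc : Tendsto (fun b : E2 => ((0 : E2), b)) (𝓝 0) (𝓝 (0, 0)) :=
        (by fun_prop : Continuous fun b : E2 => ((0 : E2), b)).continuousAt.tendsto
      filter_upwards [hc.eventually ((isOpen_Od S _ _).mem_nhds hz)] with b hb
      have := h.symm _ _ hb.2.2
      rw [FF, this, e_fr h]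
    unfold Alg.mom
    rw [e.fderiv_eq]
    simp only [err, d1, d2, FF, e_fr h] at a1 ⊢
    linarith
  smooth _ _ Z _ hz := (mm_inf h A hz Z).contDiffWithinAt
  br x y z hz W Z := by
    have a1 := kill_deriv (A.kill W) hz (A.c Z x z.1) 0
    rw [symm2 (FF_at S hz 2), map_zero, map_zero, add_zero] at a1
    rw [mm_fderiv h A hz, mm_eq h A hz, d1_eq (FF_diff S hz), A.f_br W Z x _ hz.1,
      A.c_br W Z x _ hz.1, VectorField.lieBracket, ← sub_zero (0 : E2), ← Prod.mk_sub_mk, map_sub,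
      sub_zero]
    linarith
  snd x y z hz Z w := by
    rw [d2_eq (diff_of (at_nat (mm_inf h A hz Z) 1)), mm_fderiv h A hz, mix_eq (FF_at S hz 2)]
    simp [Prod.mk_zero_zero]
  fst x y z hz Z w := by
    have a1 := kill_deriv (A.kill Z) hz w 0
    rw [split _ (A.c Z x z.1), map_zero, map_zero, add_zero] at a1
    rw [d1_eq (diff_of (at_nat (mm_inf h A hz Z) 1)), mm_fderiv h A hz, mix_eq' (FF_at S hz 2)]
    linarith
  jet _ _ hu Z h0 h1 h2 := A.faith Z (kill_jet (A.kill Z) hu h0 h1 h2)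

/-- **the group acts on the algebra** -/
theorem alg_ad [FiniteDimensional ℝ G] (h : Basic0 S) (A : Alg S G) : A.Ad := by
  intro g
  have ex : ∀ a, ∃ b, ∀ x, ∀ u ∈ ball (0 : E2) 3, A.c b x u = A.c a (g⁻¹ • x) u := fun a => by
    obtain ⟨f', hf⟩ := kill_act h g⁻¹ (A.kill a)
    obtain ⟨b, hb, -⟩ := A.full _ _ hf
    exact ⟨b, hb⟩
  choose k hk using ex
  let k1 : G →ₗ[ℝ] G :=
    { toFun := k
      map_add' := fun a b => alg_ext A fun x u hu => by
        simp only [map_add, Pi.add_apply, hk _ x u hu]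
      map_smul' := fun r a => alg_ext A fun x u hu => by
        simp only [map_smul, Pi.smul_apply, hk _ x u hu, RingHom.id_apply] }
  have inj : Function.Injective k1 := (injective_iff_map_eq_zero _).2 fun a ha =>
    A.faith a fun x u hu => by
      have := hk a (g • x) u hu
      rw [inv_smul_smul, show k a = 0 from ha, map_zero] at this
      exact this.symm
  have ev : ∀ a x, ∀ u ∈ ball (0 : E2) 3, A.c (k a) x =ᶠ[𝓝 u] A.c a (g⁻¹ • x) :=
    fun a x u hu => by filter_upwards [ball_nhds hu] with w hw using hk a x w hw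
  refine ⟨(LinearEquiv.ofInjectiveEndo k1 inj).toContinuousLinearEquiv, fun a b => ?_,
    fun a x u hu => ?_⟩
  · show k (A.br a b) = A.br (k a) (k b)
    refine alg_ext A fun x u hu => ?_
    rw [hk _ x u hu, A.c_br _ _ _ u hu, A.c_br _ _ _ u hu,
      (ev a x u hu).lieBracket_vectorField_eq (ev b x u hu)]
  · show A.c (k a) (g • x) u = _
    rw [hk _ _ u hu, inv_smul_smul]

/-- **hyperbolic elements are diagonalisable** -/
theorem alg_diag (_h : Basic0 S) (A : Alg S G) (hm : A.MomEq) : A.Diag := by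
  rintro x H ⟨v1, v2, b, r, -, hb⟩
  set y := L.flip x with hy
  have e1 : L.e y 0 = L.em x := by rw [L.e_zero, L.ep_flip, hy, L.flip_flip]
  have hz : ((0 : E2), (0 : E2)) ∈ Od L y x :=
    ⟨zero_mem, zero_mem, by rw [e1, L.e_zero]; exact L.em_ne_ep x⟩
  have z1 : A.c H y 0 = 0 := v1 y 0 zero_mem e1
  have z2 : A.c H x 0 = 0 := v2 x 0 zero_mem (L.e_zero x)
  have inj := S.nd _ _ _ hz
  have hN := kill_mix (A.kill H) hz z1 z2
  dsimp only at hN
  set T := mix (FF L S.A.D y x) (0, 0) with hT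
  have ext : ∀ w w', (∀ j, T w (b j) = T w' (b j)) → w = w' := fun w w' h =>
    inj (ContinuousLinearMap.coe_injective (b.ext h))
  choose b' hb' using fun i => surj_of_inj inj (LinearMap.toContinuousLinearMap (b.coord i))
  have dual : ∀ i j, T (b' i) (b j) = if j = i then 1 else 0 := fun i j => by
    rw [hb']
    simp [Finsupp.single_apply]
  have span : ∀ w, w = ∑ i, T w (b i) • b' i := fun w => ext _ _ fun j => by
    simp [dual]
  have N2 : ∀ i, fderiv ℝ (A.c H x) 0 (b' i) = -r i • b' i := fun i => ext _ _ fun j => by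
    have := hN (b' i) (b j)
    rw [hb, map_smul, dual] at this
    rw [map_smul, smul_apply, dual]
    split_ifs at this ⊢ with hij
    · rw [hij] at this ⊢
      simp only [smul_eq_mul] at this ⊢
      linarith
    · simpa using this
  let φ1 : Fin Dim.m → G →ₗ[ℝ] ℝ := fun i =>
    { toFun := fun Z => T (A.c Z x 0) (b i)
      map_add' := fun _ _ => by simp
      map_smul' := fun _ _ => by simp }
  let φ2 : Fin Dim.m → G →ₗ[ℝ] ℝ := fun i =>
    { toFun := fun Z => T (b' i) (A.c Z y 0)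
      map_add' := fun _ _ => by simp
      map_smul' := fun _ _ => by simp }
  let φ3 : Fin Dim.m × Fin Dim.m → G →ₗ[ℝ] ℝ := fun p =>
    { toFun := fun Z => mix (A.mm y x Z) (0, 0) (b' p.1) (b p.2)
      map_add' := fun Z Z' => by
        rw [mm_add, mix_add (mm_at hm hz Z 2) (mm_at hm hz Z' 2)]
      map_smul' := fun t Z => by
        rw [mm_smul, mix_smul (mm_at hm hz Z 2)]
        rfl }
  refine diag_of_functionals _ (Sum.elim φ1 (Sum.elim φ2 φ3))
    (Sum.elim r (Sum.elim (fun i => -r i) fun p => r p.2 - r p.1)) ?_ fun Z hZ => ?_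
  · rintro (i | i | p) Z
    · show T (A.c (A.br H Z) x 0) (b i) = r i * T (A.c Z x 0) (b i)
      have := hN (A.c Z x 0) (b i)
      rw [hb, map_smul, smul_eq_mul] at this
      rw [c_br_zero A zero_mem z2, map_neg, neg_apply]
      linarith
    · show T (b' i) (A.c (A.br H Z) y 0) = -r i * T (b' i) (A.c Z y 0)
      have := hN (b' i) (A.c Z y 0)
      rw [N2, map_smul, smul_apply, smul_eq_mul] at this
      rw [c_br_zero A zero_mem z1, map_neg]
      linarith
    · show mix (A.mm y x (A.br H Z)) (0, 0) (b' p.1) (b p.2) =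
        (r p.2 - r p.1) * mix (A.mm y x Z) (0, 0) (b' p.1) (b p.2)
      rw [mix_mm_br hm hz z1 z2]
      dsimp only
      rw [hb, N2, map_smul, map_smul, smul_apply, smul_eq_mul, smul_eq_mul]
      ring
  · have k1 : A.c Z x 0 = 0 := ext _ _ fun j => by
      rw [map_zero, zero_apply]
      exact hZ (Sum.inl j)
    have k2 : A.c Z y 0 = 0 := eq_zero_of_right inj fun w => by
      have : ∀ i, T (b' i) (A.c Z y 0) = 0 := fun i => hZ (Sum.inr (Sum.inl i))
      rw [span w]
      simp [this]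
    have k3 : ∀ i, fderiv ℝ (A.c Z x) 0 (b' i) = 0 := fun i => ext _ _ fun j => by
      rw [map_zero, zero_apply]
      exact (mix_mm hm hz k1 _ _).symm.trans (hZ (Sum.inr (Sum.inr (i, j))))
    have k4 : fderiv ℝ (A.c Z x) 0 = 0 := ContinuousLinearMap.ext fun w => by
      rw [span w]
      simp [k3]
    refine hm.jet x 0 zero_mem Z k1 k4 (ContinuousLinearMap.ext fun w => ?_)
    have := kill_deriv (A.kill Z) hz 0 w
    dsimp only at this
    rw [k1, k2, k4] at this
    simpa [Prod.mk_zero_zero] using this.symm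

end Vale.Agent.P207Z.SC
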