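import Vale.Agent.P207Z.Sm.B1.Calc

/-!
# P207, the smooth case: the Monge-Ampère equation and the divergence of Killing fields
-/

open Set Filter Topology Metric MeasureTheory
open scoped ContDiff

noncomputable section

namespace Vale.Agent.P207Z.SC

open Vale.Agent.P207.N4 Vale.Agent.P207.N3

variable [Dim]

variable {Γ X B : Type} [Group Γ] [MetricSpace X] [ProperSpace X] [MulAction Γ X]
  [IsIsometricSMul Γ X] [TopologicalSpace B] [CompactSpace B] [T2Space B] [MulAction Γ B]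
  [ContinuousConstSMul Γ B] {L : Leaf Γ X B}

namespace B1

theorem mem0 : (0 : E2) ∈ ball (0 : E2) 3 := mem_ball_self (by norm_num)

theorem e_tau {x y : X} {u : E2} (h : u ∈ L.dm x y) : L.e y (L.τ x y u) = L.e x u := by
  obtain ⟨w, h1, h2⟩ := h.2
  exact Function.invFunOn_eq ⟨w, ball_subset_closedBall h1, h2⟩

theorem tau_eq {x y : X} {u w : E2} (hw : w ∈ ball (0 : E2) 3) (h : L.e x u = L.e y w) :
    L.τ x y u = w := by
  rw [Leaf.τ, tau, h]
  exact (L.e_inj y).leftInvOn_invFunOn (ball_subset_closedBall hw)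

theorem em_flip (x : X) : L.em (L.flip x) = L.ep x := (L.ep_flip x).symm

theorem ep_flip (x : X) : L.ep (L.flip x) = L.em x := by rw [L.ep_flip, L.flip_flip]

theorem od0 (x : X) : ((0, 0) : E2 × E2) ∈ Od L (L.flip x) x :=
  ⟨mem0, mem0, by rw [L.e_zero, L.e_zero, ep_flip]; exact L.em_ne_ep x⟩

/-- a continuous invariant function of the end points does not depend on the first one -/
theorem hol_inv {j : X → ℝ} (hc : Continuous j) (hg : ∀ (g : Γ) x, j (g • x) = j x)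
    (he : ∀ x y, L.em x = L.em y → L.ep x = L.ep y → j x = j y) {x y : X}
    (h : L.ep x = L.ep y) : j x = j y := by
  have h1 : L.em y ≠ L.ep x := h ▸ L.em_ne_ep y
  have h2 : ∀ t z, j (L.φ t z) = j z := fun t z => he _ _ (L.em_φ t z) (by
    rw [L.ep_flip, L.ep_flip, L.flip_φ, L.em_φ])
  rw [he y _ (L.hol_em _ x h1).symm (h.symm.trans (L.hol_ep _ x h1).symm)]
  refine eq_of_forall_dist_le fun ε hε => ?_
  obtain ⟨K, hK, h3⟩ := L.cocompact
  obtain ⟨δ, hδ, h4⟩ := mem_uniformity_dist.1 (hK.uniformContinuousAt_of_continuousAt j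
    (fun _ _ => hc.continuousAt) (dist_mem_uniformity hε))
  obtain ⟨C, h5⟩ := L.hol_asym {(L.em y, x)} isCompact_singleton (by rintro _ rfl; exact h1)
  have h6 : Tendsto (fun t : ℝ => C * Real.exp (-L.χ * t)) atTop (𝓝 (C * 0)) :=
    (Real.tendsto_exp_atBot.comp
      (tendsto_id.const_mul_atTop_of_neg (neg_neg_of_pos L.χ_pos))).const_mul C
  rw [mul_zero] at h6
  obtain ⟨t, h7, h8⟩ := ((h6.eventually (gt_mem_nhds hδ)).and (eventually_ge_atTop 0)).exists
  obtain ⟨g, h9⟩ := h3 (L.φ t x)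
  have h10 : dist (j (g • L.φ t x)) (j (g • L.φ t (L.hol (L.em y) x))) < ε :=
    h4 (a := g • L.φ t x) (by rw [dist_smul]; exact (h5 _ rfl t h8).trans_lt h7) h9
  rw [hg, hg, h2, h2] at h10
  exact h10.le

variable [MeasurableSpace B] [BorelSpace B] (S : Sm L)

include S in
theorem od_nhds {x y : X} {z : E2 × E2} (h : z ∈ Od L x y) : Od L x y ∈ 𝓝 z :=
  (isOpen_slice S.f_jc.isOpen (x, y)).mem_nhds h

theorem cd {x y : X} {z : E2 × E2} (h : z ∈ Od L x y) (n : ℕ) :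
    ContDiffAt ℝ n (FF L S.A.D x y) z :=
  (S.f_jc.contDiffAt (p := ((x, y), z)) h).of_le (by exact_mod_cast le_top)

/-- the Monge-Ampère quotient -/
def JJ (x y : X) (z : E2 × E2) : ℝ := |mdet (mix (FF L S.A.D x y) z)| /
  (Real.exp (-S.A.h * FF L S.A.D x y z) * S.rho x z.1 * S.rho y z.2)

/-- the quotient as a function of the frame -/
def jj (x : X) : ℝ :=
  |mdet (mix (FF L S.A.D (L.flip x) x) (0, 0))| / (S.A.s x 0 * S.A.s (L.flip x) 0)

theorem JJ_jj (x : X) : JJ S (L.flip x) x (0, 0) = jj S x := by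
  have h1 := S.A.D_eq x
  have h2 := S.A.D_eq (L.flip x)
  rw [Leaf.lp] at h1 h2
  rw [ep_flip, L.flip_flip] at h2
  rw [JJ, jj, Sm.rho, Sm.rho, FF, L.e_zero, L.e_zero, ep_flip, h1, h2]
  congr 1
  have h3 : Real.exp (-S.A.h * (L.lv x + L.lv (L.flip x))) *
      Real.exp (S.A.h * (L.lv (L.flip x) + L.lv x - L.lv (L.flip x))) *
      Real.exp (S.A.h * (L.lv x + L.lv (L.flip x) - L.lv x)) = 1 := by
    rw [← Real.exp_add, ← Real.exp_add, Real.exp_eq_one_iff]
    ring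
  linear_combination (S.A.s x 0 * S.A.s (L.flip x) 0) * h3

theorem jj_cont : Continuous (jj S) := by
  have h1 : Continuous fun x => fderiv ℝ (fderiv ℝ (FF L S.A.D (L.flip x) x)) (0, 0) :=
    S.f_jc.fderiv.fderiv.continuousOn.comp_continuous
      (f := fun x => ((L.flip x, x), ((0, 0) : E2 × E2)))
      ((L.flip_cont.prodMk continuous_id).prodMk continuous_const) od0
  have h2 : JC S.A.s (univ ×ˢ ball 0 3) :=
    ⟨isOpen_univ.prod isOpen_ball, fun x => (S.A.s_smooth x).mono fun _ h => h.2, S.A.s_cont⟩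
  have h3 : Continuous fun x => S.A.s x 0 :=
    h2.continuousOn.comp_continuous (f := fun x => (x, (0 : E2)))
      (continuous_id.prodMk continuous_const) fun _ => ⟨trivial, mem0⟩
  refine Continuous.div (Continuous.abs (Continuous.matrix_det (continuous_matrix fun i j => ?_)))
    (h3.mul (h3.comp L.flip_cont)) fun x => (mul_pos (S.A.s_pos _ _ mem0) (S.A.s_pos _ _ mem0)).ne'
  exact ((h1.clm_apply continuous_const).clm_apply continuous_const).congr fun x =>
    (mix_eq (cd S (od0 x) 2) _ _).symm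

variable {S}

theorem JJ_chart (h : Basic0 S) {x y x' y' : X} {z z' : E2 × E2} (hz : z ∈ Od L x y)
    (hz' : z' ∈ Od L x' y') (h1 : L.e x z.1 = L.e x' z'.1) (h2 : L.e y z.2 = L.e y' z'.2) :
    JJ S x y z = JJ S x' y' z' := by
  have d1 : z.1 ∈ L.dm x x' := ⟨hz.1, z'.1, hz'.1, h1.symm⟩
  have d2 : z.2 ∈ L.dm y y' := ⟨hz.2.1, z'.2, hz'.2.1, h2.symm⟩
  have t1 := tau_eq hz'.1 h1
  have t2 := tau_eq hz'.2.1 h2
  have r1 := h.rho_trans x x' _ d1
  have r2 := h.rho_trans y y' _ d2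
  have h3 := mdet_law (mix_law (F := FF L S.A.D x y) (F' := FF L S.A.D x' y') (z := z)
    (c₁ := fun _ => 0) (c₂ := fun _ => 0) (by rw [t1, t2]; exact cd S hz' 2)
    (S.tau_jc.hasFDerivAt (p := ((x, x'), z.1)) d1) (S.tau_jc.hasFDerivAt (p := ((y, y'), z.2)) d2)
    (differentiableAt_const _) (by
      filter_upwards [continuousAt_fst.eventually
        ((isOpen_slice S.tau_jc.isOpen (x, x')).mem_nhds d1), continuousAt_snd.eventually
        ((isOpen_slice S.tau_jc.isOpen (y, y')).mem_nhds d2)] with q k1 k2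
      rw [add_zero, add_zero, FF, FF, e_tau k1, e_tau k2]))
  have p1 := (h.rho_pos x _ hz.1).ne'
  have p2 := (h.rho_pos y _ hz.2.1).ne'
  have h4 : FF L S.A.D x y z = FF L S.A.D x' y' z' := by rw [FF, FF, h1, h2]
  rw [t1] at r1
  rw [t2] at r2
  rw [r1] at p1
  rw [r2] at p2
  have p3 := left_ne_zero_of_mul p1
  have p4 := left_ne_zero_of_mul p2
  rw [JJ, JJ, h3, h4, r1, r2, t1, t2, abs_mul, abs_mul]
  field_simp

theorem jj_ends (h : Basic0 S) (x y : X) (h1 : L.em x = L.em y) (h2 : L.ep x = L.ep y) :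
    jj S x = jj S y := by
  rw [← JJ_jj, ← JJ_jj]
  exact JJ_chart h (od0 x) (od0 y) (by rw [L.e_zero, L.e_zero, ep_flip, ep_flip, h1])
    (by rw [L.e_zero, L.e_zero, h2])

theorem jj_smul (h : Basic0 S) (g : Γ) (x : X) : jj S (g • x) = jj S x := by
  obtain ⟨c, h1, h2⟩ := h.cocycle g
  have h3 := mdet_law (mix_law (F := FF L S.A.D (L.flip (g • x)) (g • x))
    (F' := FF L S.A.D (L.flip x) x) (z := (0, 0)) (c₁ := fun u => c (L.e (L.flip x) u))
    (c₂ := fun u => c (L.e x u)) (cd S (od0 x) 2) (hasFDerivAt_id _) (hasFDerivAt_id _)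
    (((h1 _).contDiffAt (isOpen_ball.mem_nhds mem0)).differentiableAt (by simp)) (by
      filter_upwards [od_nhds S (od0 x)] with q hq
      rw [FF, L.flip_smul, L.e_smul g _ _ (ball_subset_closedBall hq.1),
        L.e_smul g _ _ (ball_subset_closedBall hq.2.1), h2 _ _ hq.2.2]
      rfl))
  have h4 : (ContinuousLinearMap.id ℝ E2).det = 1 := LinearMap.det_id
  rw [jj, jj, h3, h4, one_mul, mul_one, L.flip_smul, S.A.s_smul g _ _ mem0, S.A.s_smul g _ _ mem0]
  rfl

theorem jj_flip (h : Basic0 S) (x : X) : jj S (L.flip x) = jj S x := by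
  have h1 : mdet (mix (FF L S.A.D x (L.flip x)) (0, 0)) =
      mdet (mix (FF L S.A.D (L.flip x) x) (0, 0)) := by
    refine mdet_swap fun w v => Eq.trans ?_ (mix_swap (cd S (od0 x) 2) w v)
    have h2 : ((0, 0) : E2 × E2) ∈ Od L x (L.flip x) := ⟨mem0, mem0, (od0 x).2.2.symm⟩
    refine mix_law (F := FF L S.A.D x (L.flip x)) (z := (0, 0)) (c₁ := fun _ => 0)
      (c₂ := fun _ => 0) (ContDiffAt.comp (f := Prod.swap) _ (cd S (od0 x) 2)
        (contDiffAt_snd.prodMk contDiffAt_fst)) (hasFDerivAt_id _) (hasFDerivAt_id _)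
      (differentiableAt_const _) ?_ w v
    filter_upwards [od_nhds S h2] with q hq
    rw [add_zero, add_zero]
    exact h.symm _ _ hq.2.2
  rw [jj, jj, L.flip_flip, h1, mul_comm]

theorem jj_one (h : Basic0 S) (x : X) : jj S x = 1 := by
  have h1 : ∀ {x y : X}, L.ep x = L.ep y → jj S x = jj S y :=
    hol_inv (jj_cont S) (jj_smul h) (jj_ends h)
  have h2 : ∀ {x y : X}, L.em x = L.em y → jj S x = jj S y := fun {x y} e => by
    rw [← jj_flip h x, ← jj_flip h y]
    exact h1 (by rw [ep_flip, ep_flip, e])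
  obtain ⟨y, hy⟩ := S.cal
  have h3 : jj S y = 1 := by
    rw [jj, hy, div_self (mul_pos (S.A.s_pos _ _ mem0) (S.A.s_pos _ _ mem0)).ne']
  rw [← h3]
  by_cases h4 : L.em x = L.ep y
  · rw [← jj_flip h y]
    exact h2 (by rw [em_flip, h4])
  · obtain ⟨z, h5, h6, -⟩ := L.exists_frame _ _ h4 0
    exact (h2 h5.symm).trans (h1 h6)

theorem ma (h : Basic0 S) (x y : X) (z : E2 × E2) (hz : z ∈ Od L x y) :
    |mdet (mix (FF L S.A.D x y) z)| =
      Real.exp (-S.A.h * FF L S.A.D x y z) * S.rho x z.1 * S.rho y z.2 := by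
  obtain ⟨w, h1, h2, -⟩ := L.exists_frame _ _ hz.2.2 0
  have h3 := JJ_chart h hz (od0 w) (by rw [L.e_zero, ep_flip, h1]) (by rw [L.e_zero, h2])
  rw [JJ_jj, jj_one h] at h3
  exact (div_eq_one_iff_eq (mul_pos (mul_pos (Real.exp_pos _) (h.rho_pos x _ hz.1))
    (h.rho_pos y _ hz.2.1)).ne').1 h3

/-- the defect of the divergence -/
def del (S : Sm L) (c : X → E2 → E2) (f : B → ℝ) (x : X) (u : E2) : ℝ :=
  fderiv ℝ (S.rho x) u (c x u) / S.rho x u +
    LinearMap.trace ℝ E2 (fderiv ℝ (c x) u : E2 →ₗ[ℝ] E2) - S.A.h * f (L.e x u)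

theorem del_add (h : Basic0 S) {c : X → E2 → E2} {f : B → ℝ} (hk : IsKill S c f) {x y : X}
    {z : E2 × E2} (hz : z ∈ Od L x y) : del S c f x z.1 + del S c f y z.2 = 0 := by
  have a1 : ∀ x, ∀ u ∈ ball (0 : E2) 3, ContDiffAt ℝ 2 (c x) u := fun x u hu =>
    ((hk.1.1 x).contDiffAt (isOpen_ball.mem_nhds hu)).of_le (WithTop.coe_le_coe.2 le_top)
  have a2 : ∀ x, ∀ u ∈ ball (0 : E2) 3, ContDiffAt ℝ 2 (fun u => f (L.e x u)) u := fun x u hu =>
    ((hk.2.1 x).contDiffAt (isOpen_ball.mem_nhds hu)).of_le (WithTop.coe_le_coe.2 le_top)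
  have a3 : ∀ q ∈ Od L x y, fderiv ℝ (FF L S.A.D x y) q (c x q.1, c y q.2) =
      f (L.e x q.1) + f (L.e y q.2) := fun q hq => by
    have h1 := hk.2.2 x y q hq
    rw [err, d12 ((cd S hq 1).differentiableAt (by simp))] at h1
    linarith
  have h1 := kill_mix (cd S hz 3) (a1 x _ hz.1) (a1 y _ hz.2.1) (a2 x _ hz.1) (a2 y _ hz.2.1)
    (mem_of_superset (od_nhds S hz) a3)
  obtain ⟨γ, g0, hγ⟩ : ∃ γ : ℝ → E2 × E2, γ 0 = z ∧ HasDerivAt γ (c x z.1, c y z.2) 0 :=
    ⟨fun t => z + t • (c x z.1, c y z.2), by simp,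
      by simpa using ((hasDerivAt_id (0 : ℝ)).smul_const (c x z.1, c y z.2)).const_add z⟩
  subst g0
  have h2 := hasDerivAt_mdet (T := fun s => mix (FF L S.A.D x y) (γ s))
    (A₁ := fderiv ℝ (c x) (γ 0).1) (A₂ := fderiv ℝ (c y) (γ 0).2) (t := 0) fun w v =>
      ((h1 w v).1.hasFDerivAt.comp_hasDerivAt 0 hγ).congr_deriv (h1 w v).2
  have h3 := (((cd S hz 1).differentiableAt (by simp)).hasFDerivAt.comp_hasDerivAt 0
    hγ).congr_deriv (a3 _ hz)
  have h4 := (h.rho_jc.hasFDerivAt (p := (x, (γ 0).1)) ⟨trivial, hz.1⟩).comp_hasDerivAt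
    (f := fun s => (γ s).1) 0 hγ.fst
  have h5 := (h.rho_jc.hasFDerivAt (p := (y, (γ 0).2)) ⟨trivial, hz.2.1⟩).comp_hasDerivAt
    (f := fun s => (γ s).2) 0 hγ.snd
  have h6 := ((h3.const_mul (-S.A.h)).exp.mul h4).mul h5
  have h7 := ((h6.mul h6).congr_of_eventuallyEq (f₁ := fun s =>
      mdet (mix (FF L S.A.D x y) (γ s)) * mdet (mix (FF L S.A.D x y) (γ s))) (by
    filter_upwards [hγ.continuousAt.eventually (od_nhds S hz)] with s hs
    rw [← abs_mul_abs_self, ma h x y _ hs]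
    rfl)).unique (h2.mul h2)
  have h8 := abs_mul_abs_self (mdet (mix (FF L S.A.D x y) (γ 0)))
  rw [ma h x y _ hz] at h8
  have p1 := (h.rho_pos x _ hz.1).ne'
  have p2 := (h.rho_pos y _ hz.2.1).ne'
  have p3 := Real.exp_ne_zero (-S.A.h * FF L S.A.D x y (γ 0))
  simp only [Pi.mul_apply, Function.comp_apply] at h7
  rw [del, del]
  field_simp
  refine mul_left_cancel₀ (mul_ne_zero (mul_ne_zero two_ne_zero p3)
    (mul_ne_zero (mul_ne_zero p3 p1) p2)) ?_
  linear_combination h7 + 2 * (LinearMap.trace ℝ E2 (fderiv ℝ (c x) (γ 0).1 : E2 →ₗ[ℝ] E2) +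
    LinearMap.trace ℝ E2 (fderiv ℝ (c y) (γ 0).2 : E2 →ₗ[ℝ] E2)) * h8

theorem div (h : Basic0 S) {c : X → E2 → E2} {f : B → ℝ} (hk : IsKill S c f) (x : X) {u : E2}
    (hu : u ∈ ball (0 : E2) 3) : del S c f x u = 0 := by
  have h1 : ∀ a ∈ ball (0 : E2) 3, ∀ b ∈ ball (0 : E2) 3, a ≠ b →
      del S c f x a + del S c f x b = 0 := fun a ha b hb hab =>
    del_add h hk (z := (a, b)) ⟨ha, hb, fun e =>
      hab (L.e_inj x (ball_subset_closedBall ha) (ball_subset_closedBall hb) e)⟩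
  have h2 : ‖(EuclideanSpace.single 0 1 : E2)‖ = 1 := by simp
  generalize (EuclideanSpace.single 0 1 : E2) = e at h2
  have h3 : e ≠ 0 := by
    rintro rfl
    simp at h2
  have h4 : e ∈ ball (0 : E2) 3 := by simp [h2]
  have h5 : -e ∈ ball (0 : E2) 3 := by simp [h2]
  have h6 := h1 0 mem0 e h4 h3.symm
  have h7 := h1 0 mem0 _ h5 (neg_ne_zero.2 h3).symm
  have h8 := h1 e h4 _ h5 fun k => h3 (by
    rwa [eq_neg_iff_add_eq_zero, ← two_smul ℝ, smul_eq_zero_iff_right two_ne_zero] at k)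
  rcases eq_or_ne u 0 with rfl | h9
  · linarith
  · linarith [h1 u hu 0 mem0 h9]

end B1

variable [MeasurableSpace B] [BorelSpace B]

theorem basic (S : Sm L) (h : Basic0 S) : Basic S := by
  refine ⟨h, B1.ma h, fun c f hk x u hu => ?_⟩
  have h1 := B1.div h hk x hu
  have h2 := (h.rho_pos x u hu).ne'
  rw [B1.del] at h1
  field_simp at h1
  linarith

end Vale.Agent.P207Z.SC
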