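import Vale.Agent.P207Z.Sm.Car0.Pt

/-!
# P207, the smooth case: a frame at one point
-/

set_option linter.unusedSectionVars false

open Set Filter Topology Metric MeasureTheory
open scoped ContDiff

noncomputable section

namespace Vale.Agent.P207Z.SC

open Vale.Agent.P207.N4 Vale.Agent.P207.N3

variable [Dim]

variable {Γ X B : Type} [Group Γ] [MetricSpace X] [ProperSpace X] [MulAction Γ X]
  [IsIsometricSMul Γ X] [TopologicalSpace B] [CompactSpace B] [T2Space B] [MulAction Γ B]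
  [ContinuousConstSMul Γ B] [MeasurableSpace B] [BorelSpace B] {L : Leaf Γ X B}

variable {S : Sm L} {G : Type} [NormedAddCommGroup G] [NormedSpace ℝ G]

namespace Car0x

variable {A : Alg S G} {x : X} {H Z : G} {s : ℝ}

theorem e_flip (L : Leaf Γ X B) (x : X) : L.e (L.flip x) 0 = L.em x := by
  rw [L.e_zero, L.ep_flip, L.flip_flip]

theorem od0 (L : Leaf Γ X B) (x : X) : ((0 : E2), (0 : E2)) ∈ Od L (L.flip x) x :=
  ⟨z3, z3, by
    rw [e_flip, L.e_zero]
    exact L.em_ne_ep x⟩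

theorem hyp_a (h : A.Hyp x H) : A.c H (L.flip x) 0 = 0 := h.1 _ 0 z3 (e_flip L x)

theorem hyp_b (h : A.Hyp x H) : A.c H x 0 = 0 := h.2.1 _ 0 z3 (L.e_zero x)

theorem rescale (h : Basic S) (hH : A.Hyp x H) : ∃ H, A.Hyp x H ∧ A.f H (L.em x) = 1 := by
  obtain ⟨h1, h2, e, r, hr, he⟩ := id hH
  have h3 := h.div _ _ (A.kill H) (L.flip x) 0 z3
  have h4 : LinearMap.trace ℝ E2 (fderiv ℝ (A.c H (L.flip x)) 0 : E2 →ₗ[ℝ] E2) = ∑ i, r i := by
    rw [LinearMap.trace_eq_matrix_trace ℝ e, Matrix.trace]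
    exact Finset.sum_congr rfl fun i _ => by simp [LinearMap.toMatrix_apply, he]
  have h5 : 0 < ∑ i, r i := Finset.sum_pos (fun i _ => hr i) Finset.univ_nonempty
  have h6 := h.rho_pos (L.flip x) 0 z3
  rw [hyp_a hH, map_zero, zero_add, h4, e_flip, mul_comm, mul_left_inj' h6.ne'] at h3
  have h7 : 0 < A.f H (L.em x) := (pos_iff_pos_of_mul_pos (h5.trans_eq h3)).1 S.A.h_pos
  refine ⟨(A.f H (L.em x))⁻¹ • H, ⟨fun y u hu h8 => ?_, fun y u hu h8 => ?_, e,
    fun i => (A.f H (L.em x))⁻¹ * r i, fun i => mul_pos (inv_pos.2 h7) (hr i), fun i => ?_⟩, ?_⟩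
  · rw [map_smul, Pi.smul_apply, Pi.smul_apply, h1 y u hu h8, smul_zero]
  · rw [map_smul, Pi.smul_apply, Pi.smul_apply, h2 y u hu h8, smul_zero]
  · rw [d_smul, smul_apply, he, smul_smul]
  · rw [map_smul, Pi.smul_apply, smul_eq_mul, inv_mul_cancel₀ h7.ne']

theorem van_a (hH : A.Hyp x H) (hs : 0 ≤ s) (hZ : A.br H Z = s • Z) :
    A.c Z (L.flip x) 0 = 0 := by
  obtain ⟨-, -, e, r, hr, he⟩ := id hH
  have h1 := c_br0 (W := Z) (hyp_a hH)
  rw [hZ, map_smul, Pi.smul_apply, Pi.smul_apply] at h1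
  generalize A.c Z (L.flip x) 0 = v at h1
  refine e.repr.injective (Finsupp.ext fun i => ?_)
  have h2 : e.repr (fderiv ℝ (A.c H (L.flip x)) 0 v) i = r i * e.repr v i := by
    have h4 : e.coord i ∘ₗ (fderiv ℝ (A.c H (L.flip x)) 0 : E2 →ₗ[ℝ] E2) = r i • e.coord i :=
      e.ext fun j => by
        by_cases h5 : j = i <;> simp [he, h5]
    exact DFunLike.congr_fun h4 v
  have h3 := congrArg (fun w => e.repr w i) h1
  simp only [map_smul, map_neg, Finsupp.smul_apply, Finsupp.neg_apply, smul_eq_mul, h2] at h3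
  rw [map_zero, Finsupp.zero_apply]
  refine (mul_eq_zero.1 ?_).resolve_left (add_pos_of_nonneg_of_pos hs (hr i)).ne'
  linear_combination h3

theorem van_b (hm : A.MomEq) (hH : A.Hyp x H) (hs : s ≤ 0) (hZ : A.br H Z = s • Z) :
    A.c Z x 0 = 0 := by
  obtain ⟨-, -, e, r, hr, he⟩ := id hH
  have h1 := c_br0 (W := Z) (hyp_b hH)
  rw [hZ, map_smul, Pi.smul_apply, Pi.smul_apply, ← neg_eq_iff_eq_neg] at h1
  have h2 := dual hm (od0 L x) (hyp_a hH) (hyp_b hH) (A.c Z x 0)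
  rw [← h1] at h2
  refine S.nd _ _ _ (od0 L x) (ContinuousLinearMap.coe_injective (e.ext fun i => ?_))
  have h3 := DFunLike.congr_fun h2 (e i)
  simp only [map_neg, map_smul, neg_apply, smul_apply, ContinuousLinearMap.comp_apply, he,
    smul_eq_mul] at h3
  rw [map_zero]
  refine (mul_eq_zero.1 ?_).resolve_left (sub_pos.2 (hs.trans_lt (hr i))).ne'
  rw [ContinuousLinearMap.coe_coe]
  linear_combination h3

theorem mu_eig (hm : A.MomEq) (hH : A.Hyp x H) {μ : G →ₗ[ℝ] ℝ}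
    (hμ : ∀ Z, μ Z = A.mm (L.flip x) x Z (0, 0)) (hs : s ≠ 0) (hZ : A.br H Z = s • Z) :
    μ Z = 0 := by
  have h1 := mu_br hm (od0 L x) H Z
  rw [← hμ, hZ, hyp_a hH, hyp_b hH, map_zero, map_zero, zero_apply, sub_zero, map_smul] at h1
  exact (mul_eq_zero.1 h1).resolve_left hs

theorem span_pos (hm : A.MomEq) (hT : A.Trans) (hd : A.Diag) (hH : A.Hyp x H)
    {φ : E2 →L[ℝ] E2} (h : ∀ (r : ℝ) W, 0 < r → A.br H W = r • W → φ (A.c W x 0) = 0) :
    φ = 0 := by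
  have h1 : ⊤ ≤ LinearMap.ker ((φ : E2 →ₗ[ℝ] E2) ∘ₗ LinearMap.proj 0 ∘ₗ LinearMap.proj x ∘ₗ A.c) := by
    rw [← hd x H hH]
    refine iSup_le fun r W hW => ?_
    have h1 : A.br H W = r • W := Module.End.mem_eigenspace_iff.1 hW
    change φ (A.c W x 0) = 0
    rcases lt_or_ge 0 r with h2 | h2
    · exact h r W h2 h1
    · rw [van_b hm hH h2 h1, map_zero]
  refine ContinuousLinearMap.ext fun w => ?_
  obtain ⟨W, rfl⟩ := hT x 0 z3 w
  exact h1 (Submodule.mem_top (x := W))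

theorem split_two {n : ℕ} {lam : Fin n → ℝ} {a : ℝ} (h : ∀ i, lam i = a ∨ lam i = 2 * a)
    {ε : ℝ} {Y : Fin n → G} (hY : ∀ i, A.br H (Y i) = (ε * lam i) • Y i) (t : Fin n → ℝ) :
    ∃ U V, A.br H U = (ε * a) • U ∧ A.br H V = (ε * (2 * a)) • V ∧ ∑ i, t i • Y i = U + V := by
  classical
  refine ⟨_, _, ?_, ?_, (Finset.sum_filter_add_sum_filter_not _ (fun i => lam i = a) _).symm⟩
  · rw [map_sum, Finset.smul_sum]
    refine Finset.sum_congr rfl fun i hi => ?_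
    rw [map_smul, hY, (Finset.mem_filter.1 hi).2, smul_comm]
  · rw [map_sum, Finset.smul_sum]
    refine Finset.sum_congr rfl fun i hi => ?_
    rw [map_smul, hY, (h i).resolve_left (Finset.mem_filter.1 hi).2, smul_comm]

theorem two_van {y : X} (h0 : A.c H y 0 = 0) {U V : G} {r : ℝ} (hr : r ≠ s)
    (hU : A.br H U = r • U) (hV : A.br H V = s • V) (h : A.c (U + V) y 0 = 0) :
    A.c U y 0 = 0 ∧ A.c V y 0 = 0 := by
  have h1 := c_br0 (W := U + V) h0
  rw [h, map_zero, neg_zero, map_add, hU, hV] at h1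
  simp only [map_add, map_smul, Pi.add_apply, Pi.smul_apply] at h h1
  have h2 : A.c U y 0 = 0 := by
    refine (smul_eq_zero.1 ?_).resolve_left (sub_ne_zero.2 hr)
    linear_combination (norm := module) h1 - s • h
  rw [h2, zero_add] at h
  exact ⟨h2, h⟩

end Car0x

open Car0x

theorem car0 [FiniteDimensional ℝ G] (h : Basic S) (A : Alg S G) (hm : A.MomEq) (hk : A.Kill)
    (hd : A.Diag) (hi : IC L) (ht : A.Transport) (hc : CartanStmt) (hs : SkewStmt) : A.Car0 := by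
  obtain ⟨hT, x, H0, hH0⟩ := hk
  obtain ⟨H, hH, h1⟩ := rescale h hH0
  have hq := od0 L x
  obtain ⟨μ, hμ⟩ := exists_mu hm hq
  obtain ⟨k, k1, k2, k3⟩ := exists_q h.toBasic0 hm hi ht hs hq
  have both : ∀ (r : ℝ) Z, r ≠ 0 → A.br H Z = r • Z → A.c Z (L.flip x) 0 = 0 → A.c Z x 0 = 0 →
      Z = 0 := fun r Z hr hZ h2 h3 => by
    refine key2 hm hq h2 h3 (skew_zero (q := fun v w => k v w) k2 (fun v => by simp)
      (k3 Z h2 h3 ((hμ Z).symm.trans (mu_eig hm hH hμ hr hZ))) hr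
      (P := fderiv ℝ (A.c H x) 0) ?_)
    rw [← d_br (hyp_b hH) h3, hZ, d_smul]
  let b : G →ₗ[ℝ] E2 := LinearMap.proj 0 ∘ₗ LinearMap.proj x ∘ₗ A.c
  have hb : ∀ Z, b Z = A.c Z x 0 := fun _ => rfl
  have z0 : ∀ Z, A.br H Z = 0 → A.br H Z = (0 : ℝ) • Z := fun Z hZ => by rw [hZ, zero_smul]
  obtain ⟨n, lam, θ, Y, a, hF, ha, h2, h3, h4⟩ := hc G A.toLA H μ (k.compl₁₂ b b) (hd x H hH)
    (by rw [hμ, mm_f hm hq (hyp_a hH), e_flip, h1])
    (fun Z W hZ => by
      rw [hμ, mu_br hm hq, van_a hH le_rfl (z0 Z hZ), van_b hm hH le_rfl (z0 Z hZ)]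
      simp)
    (fun r Z hr hZ h2 => by
      simp only [hμ, mu_br hm hq] at h2
      rcases hr.lt_or_gt with h3 | h3
      · have h4 := van_b hm hH h3.le hZ
        refine both r Z hr hZ (nd_right (S.nd _ _ _ hq) fun w => ?_) h4
        obtain ⟨W, rfl⟩ := hT x 0 z3 w
        simpa [h4] using h2 W
      · have h4 := van_a hH h3.le hZ
        refine both r Z hr hZ h4 (S.nd _ _ _ hq (ContinuousLinearMap.ext fun v => ?_))
        obtain ⟨W, rfl⟩ := hT (L.flip x) 0 z3 v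
        simpa [h4] using h2 W)
    (fun Z hZ _ h2 => by
      have h3 := van_b hm hH le_rfl (z0 Z hZ)
      refine key2 hm hq (van_a hH le_rfl (z0 Z hZ)) h3 (span_pos hm hT hd hH fun r W hr hW => ?_)
      have h4 := c_br0 (W := W) h3
      rw [h2 r W hr hW, map_zero] at h4
      exact neg_eq_zero.1 h4.symm)
    (fun v w => k1 _ _)
    (fun r W hr hW h2 => k2 _ fun h3 => h2 (both r W hr.ne' hW (van_a hH hr.le hW) h3))
    (fun Z hZ h2 r W W' _ _ _ => by
      have h3 := van_b hm hH le_rfl (z0 Z hZ)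
      have h4 := k3 Z (van_a hH le_rfl (z0 Z hZ)) h3 ((hμ Z).symm.trans h2) (A.c W x 0)
        (A.c W' x 0)
      simp only [LinearMap.compl₁₂_apply, hb, c_br0 h3, map_neg, LinearMap.neg_apply]
      linear_combination -h4)
    (by
      by_contra h2
      push Not at h2
      have h3 := span_pos hm hT hd hH (φ := ContinuousLinearMap.id ℝ E2) fun r W hr hW => by
        by_cases h3 : W = 0
        · rw [h3, map_zero]
          rfl
        · exact absurd hW (h2 r W hr h3)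
      obtain ⟨v, hv⟩ := exists_ne (0 : E2)
      exact hv (DFunLike.congr_fun h3 v))
  have inj : ∀ (ε : ℝ) (Y' : Fin n → G), ε ≠ 0 → (∀ i, A.br H (Y' i) = (ε * lam i) • Y' i) →
      ∀ t : Fin n → ℝ, A.c (∑ i, t i • Y' i) (L.flip x) 0 = 0 → A.c (∑ i, t i • Y' i) x 0 = 0 →
        ∑ i, t i • Y' i = 0 := fun ε Y' hε hY t h5 h6 => by
    obtain ⟨U, V, hU, hV, h7⟩ := split_two h2 hY t
    have h8 : ε * a ≠ ε * (2 * a) := fun h8 => by
      have h9 := mul_left_cancel₀ hε h8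
      linarith
    rw [h7] at h5 h6 ⊢
    have h9 := two_van (hyp_a hH) h8 hU hV h5
    have h10 := two_van (hyp_b hH) h8 hU hV h6
    rw [both _ U (mul_ne_zero hε ha.ne') hU h9.1 h10.1,
      both _ V (mul_ne_zero hε (by linarith)) hV h9.2 h10.2, add_zero]
  have aY : ∀ s : Fin n → ℝ, A.c (∑ i, s i • Y i) (L.flip x) 0 = 0 := fun s => by
    simp [fun i => van_a hH (hF.lam_pos i).le (hF.eig i)]
  have bY : ∀ s : Fin n → ℝ, A.c (∑ i, s i • θ (Y i)) x 0 = 0 := fun s => by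
    simp [fun i => van_b hm hH (neg_nonpos.2 (hF.lam_pos i).le) (eig_neg hF i)]
  have hn : n = Dim.m := by
    have h5 : Function.Bijective (b ∘ₗ Fintype.linearCombination ℝ Y) := by
      refine ⟨(injective_iff_map_eq_zero _).2 fun s hs => funext fun j => ?_, fun w => ?_⟩
      · rw [← ip_Y hF s j, inj 1 Y one_ne_zero (fun i => by rw [one_mul, hF.eig]) s (aY s) hs]
        simp [LA.ip, LA.kil]
      · obtain ⟨Z, rfl⟩ := hT x 0 z3 w
        obtain ⟨Z₀, s, t, h5, rfl⟩ := hF.dec Z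
        refine ⟨s, ?_⟩
        simp only [map_add, Pi.add_apply, bY, van_b hm hH le_rfl (z0 _ h5), zero_add, add_zero]
        rfl
    simpa using (LinearEquiv.ofBijective _ h5).finrank_eq
  subst hn
  refine ⟨lam, θ, L.em x, H, Y, a, ⟨hF, fun Z => ?_, fun Z hZ => ?_⟩, ⟨ha, h2⟩, h3⟩
  · obtain ⟨Z₀, s, t, h5, rfl⟩ := hF.dec Z
    have h6 : A.c (Z₀ + ∑ i, s i • Y i + ∑ i, t i • θ (Y i)) (L.flip x) 0 =
        A.c (∑ i, t i • θ (Y i)) (L.flip x) 0 := by
      simp only [map_add, Pi.add_apply, aY, van_a hH le_rfl (z0 _ h5), zero_add]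
    simp only [ip_thY hF h5]
    refine ⟨fun h7 j => ?_, fun h7 => ?_⟩
    · have h8 := inj (-1) _ (by norm_num) (fun i => by rw [neg_one_mul, eig_neg hF]) t
        (h6.symm.trans (h7 _ 0 z3 (e_flip L x))) (bY t)
      have h9 := ip_thY hF (map_zero _) 0 t j
      rw [← h9, h8]
      simp [LA.ip, LA.kil]
    · rw [← e_flip]
      refine van_of z3 (h6.trans ?_)
      simp [h7]
  · rw [← e_flip, ← mm_f hm hq (hZ _ 0 z3 (e_flip L x)), ← hμ]
    obtain ⟨Z₀, s, t, h5, rfl⟩ := hF.dec Z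
    rw [ip_H hF, h4 Z₀ h5]
    simp [fun i => mu_eig hm hH hμ (hF.lam_pos i).ne' (hF.eig i),
      fun i => mu_eig hm hH hμ (neg_ne_zero.2 (hF.lam_pos i).ne') (eig_neg hF i)]

end Vale.Agent.P207Z.SC

end
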