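import Vale.Agent.P207Z.Sm.Sk
import Vale.Agent.P207Z.Lie.Frame

/-!
# CARTAN
-/

noncomputable section

namespace Vale.Agent.P207Z.SC

open Vale.Agent.P207Z.Lie

variable {G : Type} [NormedAddCommGroup G] [NormedSpace ℝ G]

/-- the Lie ring of a bracket -/
@[reducible] def LA.ring (A : LA G) : LieRing G :=
  { (inferInstance : AddCommGroup G) with
    bracket a b := A.br a b
    add_lie a b c := by simp
    lie_add a b c := by simp
    lie_self a := by
      have h := A.anti a a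
      rw [eq_neg_iff_add_eq_zero, ← two_smul ℝ, smul_eq_zero] at h
      exact h.resolve_left two_ne_zero
    leibniz_lie := A.jac }

/-- the Lie algebra of a bracket -/
@[reducible] def LA.alg (A : LA G) : @LieAlgebra ℝ G _ A.ring :=
  letI := A.ring
  { (inferInstance : Module ℝ G) with lie_smul t a b := (A.br a).map_smul t b }

theorem cartan : CartanStmt := by
  intro G _ _ _ A H μ q h1 h2 h3 h4 h5 h6 h7 h8 h9
  let := A.ring
  let := A.alg
  have h : Inp H μ := inp_of q h1 h2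
    (fun Z hZ X => h3 Z X ((mem_wt.1 hZ).trans (zero_smul ℝ Z)))
    (fun l hl Z hZ => h4 l Z hl (mem_wt.1 hZ))
    (fun Z hZ h0 h => h5 Z ((mem_wt.1 hZ).trans (zero_smul ℝ Z)) h0
      fun r W hr hW => h r hr W (mem_wt.2 hW))
    h6 (fun l hl W hW => h7 l W hl (mem_wt.1 hW))
    (fun Z hZ h0 l hl W hW W' hW' =>
      h8 Z ((mem_wt.1 hZ).trans (zero_smul ℝ Z)) h0 l W W' hl (mem_wt.1 hW) (mem_wt.1 hW'))
    (let ⟨r, W, e1, e2, e3⟩ := h9; ⟨r, e1, (Submodule.ne_bot_iff _).2 ⟨W, mem_wt.2 e3, e2⟩⟩)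
  obtain ⟨a, θ, o⟩ := h.rank_one
  obtain ⟨n, lam, Y, e1, e2, e3, e4, e5, e6⟩ := o.frame h
  let θ' := (LinearEquiv.ofInvolutive θ o.invol).toContinuousLinearEquiv
  have ip : ∀ X Y, A.ip lam θ' X Y = -B G X (θ Y) / B G H H := fun X Y => by
    rw [← e4]
    rfl
  have hb := h.B_HH
  have tH : θ H = -H := by
    rw [o.zero H (self_mem_wt H), h2]
    module
  have z : ∀ Z, A.ip lam θ' H Z = μ Z := fun Z => by
    rw [ip, o.tau.symm, tH, map_neg, LinearMap.neg_apply, neg_neg, h.B_H,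
      mul_div_cancel_right₀ _ hb.ne']
  refine ⟨n, lam, θ', Y, a, ⟨o.lie, o.invol, fun Z hZ => ?_, fun i => ?_, tH, (z H).trans h2,
    fun i => mem_wt.1 (e3 i), fun i j => ip _ _ ▸ e5 i j, e6, fun Z hZ => ?_⟩, o.a_pos, e1, e2,
    fun Z _ => z Z⟩
  · exact ip Z Z ▸ div_pos (neg_pos.2 (o.tau.neg Z hZ)) hb
  · rcases e1 i with h | h <;> linarith [o.a_pos]
  · obtain ⟨h10, h11⟩ := h.sub_m (mem_wt.2 (hZ.trans (zero_smul ℝ Z).symm))
    rw [z]
    exact (o.zero _ h10).trans (by rw [h11, mul_zero, zero_smul, sub_zero])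

end Vale.Agent.P207Z.SC
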