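import Vale.Agent.P207Z.Sm.ExpoLin

/-!
# P207, the smooth case, block EXPO: the growth of volumes
-/

set_option linter.unusedSectionVars false

open Set Filter Topology Metric MeasureTheory
open scoped ContDiff

noncomputable section

namespace Vale.Agent.P207Z.SC

open Vale.Agent.P207.N4 Vale.Agent.P207.N3

namespace Expo

section Lie
variable {G : Type} [NormedAddCommGroup G] [NormedSpace ℝ G] [FiniteDimensional ℝ G] {A : LA G}
  {n : ℕ} {lam : Fin n → ℝ} {θ g : G ≃L[ℝ] G} {v : G} {Y : Fin n → G}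

theorem kil_aut (hg : A.IsAut g) (a b : G) : A.kil (g a) (g b) = A.kil a b := by
  unfold LA.kil
  rw [← LinearMap.trace_conj' ((A.br a ∘L A.br b : G →L[ℝ] G) : G →ₗ[ℝ] G) g.toLinearEquiv]
  congr 1
  ext z
  show A.br (g a) (A.br (g b) z) = g (A.br a (A.br b (g.symm z)))
  rw [hg, hg, g.apply_symm_apply]

/-- the scalar product, as a linear function of the first slot -/
def ipL (A : LA G) (lam : Fin n → ℝ) (θ : G ≃L[ℝ] G) (b : G) : G →ₗ[ℝ] ℝ where
  toFun a := A.ip lam θ a b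
  map_add' a a' := by
    simp only [LA.ip, LA.kil, map_add, ContinuousLinearMap.add_comp, ContinuousLinearMap.coe_add]
    ring
  map_smul' t a := by
    simp only [LA.ip, LA.kil, map_smul, ContinuousLinearMap.smul_comp, ContinuousLinearMap.coe_smul,
      smul_eq_mul, RingHom.id_apply]
    ring

theorem ip_theta (h : A.Frame lam θ v Y) (a b : G) :
    A.ip lam θ (θ a) (θ b) = A.ip lam θ a b := by
  unfold LA.ip
  rw [kil_aut h.aut]

/-- the conjugate involution -/
def cj (g θ : G ≃L[ℝ] G) : G ≃L[ℝ] G := g.symm.trans (θ.trans g)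

theorem cj_apply (z : G) : cj g θ (g z) = g (θ z) := by simp [cj]

theorem ip_cj (hg : A.IsAut g) (a b : G) : A.ip lam (cj g θ) (g a) (g b) = A.ip lam θ a b := by
  unfold LA.ip
  rw [cj_apply, kil_aut hg]

theorem frame_cj (hg : A.IsAut g) (h : A.Frame lam θ v Y) :
    A.Frame lam (cj g θ) (g v) fun i => g (Y i) where
  aut a b := by
    obtain ⟨a, rfl⟩ := g.surjective a
    obtain ⟨b, rfl⟩ := g.surjective b
    rw [← hg, cj_apply, cj_apply, cj_apply, ← hg, h.aut]
  inv Z := by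
    obtain ⟨Z, rfl⟩ := g.surjective Z
    rw [cj_apply, cj_apply, h.inv]
  pos Z hZ := by
    obtain ⟨Z, rfl⟩ := g.surjective Z
    rw [ip_cj hg]
    exact h.pos Z fun h0 => hZ (by rw [h0, map_zero])
  lam_pos := h.lam_pos
  neg := by rw [cj_apply, h.neg, map_neg]
  unit := by rw [ip_cj hg, h.unit]
  eig i := by rw [← hg, h.eig, map_smul]
  on i j := by rw [ip_cj hg, h.on]
  dec Z := by
    obtain ⟨Z, rfl⟩ := g.surjective Z
    obtain ⟨Z₀, s, t, h1, h2⟩ := h.dec Z
    refine ⟨g Z₀, s, t, by rw [← hg, h1, map_zero], ?_⟩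
    rw [h2]
    simp only [map_add, map_sum, map_smul, cj_apply]
  zero Z hZ := by
    obtain ⟨Z, rfl⟩ := g.surjective Z
    rw [← hg, map_eq_zero_iff g g.injective] at hZ
    rw [ip_cj hg, ← map_smul, ← map_sub, cj_apply, h.zero Z hZ]

theorem norm_le_of_ip (h : ∀ Z, Z ≠ 0 → 0 < A.ip lam θ Z Z) :
    ∃ C, ∀ Z, A.ip lam θ Z Z = 1 → ‖Z‖ ≤ C := by
  have hc : Continuous fun Z => A.ip lam θ Z Z := by
    have h1 := (LinearMap.trace ℝ G ∘ₗ ContinuousLinearMap.coeLM ℝ).continuous_of_finiteDimensional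
    exact (h1.comp (A.br.continuous.clm_comp (A.br.continuous.comp θ.continuous))).neg.div_const _
  have hs : ∀ (t : ℝ) Z, A.ip lam θ (t • Z) (t • Z) = t * t * A.ip lam θ Z Z := fun t Z => by
    simp only [LA.ip, LA.kil, map_smul, ContinuousLinearMap.smul_comp, ContinuousLinearMap.comp_smul,
      ContinuousLinearMap.coe_smul, smul_eq_mul]
    ring
  obtain ⟨c, hc0, hc1⟩ := (isCompact_sphere (0 : G) 1).exists_forall_le' hc.continuousOn (a := 0)
    fun Z hZ => h Z (ne_of_mem_sphere hZ one_ne_zero)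
  refine ⟨c⁻¹ + 1, fun Z hZ => ?_⟩
  by_cases h0 : Z = 0
  · rw [h0, norm_zero]
    positivity
  have h1 : 0 < ‖Z‖ := norm_pos_iff.2 h0
  have h2 := hc1 (‖Z‖⁻¹ • Z) (by
    rw [mem_sphere_zero_iff_norm, norm_smul, norm_inv, norm_norm, inv_mul_cancel₀ h1.ne'])
  rw [hs, hZ, mul_one, ← mul_inv, le_inv_comm₀ hc0 (mul_pos h1 h1)] at h2
  nlinarith [sq_nonneg (‖Z‖ - 1)]

end Lie

variable [Dim]

variable {Γ X B : Type} [Group Γ] [MetricSpace X] [ProperSpace X] [MulAction Γ X]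
  [IsIsometricSMul Γ X] [TopologicalSpace B] [CompactSpace B] [T2Space B] [MulAction Γ B]
  [ContinuousConstSMul Γ B] [MeasurableSpace B] [BorelSpace B] {L : Leaf Γ X B}
  {S : Sm L} {G : Type} [NormedAddCommGroup G] [NormedSpace ℝ G] [FiniteDimensional ℝ G]

theorem z3 : (0 : E2) ∈ ball (0 : E2) 3 := mem_ball_self (by norm_num)

theorem tau_eq {x y : X} {u w : E2} (hw : w ∈ ball (0 : E2) 3) (h : L.e y w = L.e x u) :
    L.τ x y u = w := by
  unfold Leaf.τ tau
  rw [← h]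
  exact (L.e_inj y).leftInvOn_invFunOn (ball_subset_closedBall hw)

theorem c_trans {c : X → E2 → E2} (hc : IsVF L c) {x y : X} {u w : E2} (hu : u ∈ ball (0 : E2) 3)
    (hw : w ∈ ball (0 : E2) 3) (h : L.e y w = L.e x u) :
    c y w = fderiv ℝ (L.τ x y) u (c x u) := by
  rw [← hc.2 x y u ⟨hu, w, hw, h⟩, tau_eq hw h]

theorem ep_φ (t : ℝ) (x : X) : L.ep (L.φ t x) = L.ep x := by
  rw [L.ep_flip, L.ep_flip, L.flip_φ, L.em_φ]

theorem lp_φ (t : ℝ) (x : X) : L.lp (L.φ t x) = L.lp x - t := by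
  unfold Leaf.lp
  rw [L.flip_φ, L.lv_φ, sub_eq_add_neg]

theorem cont_c (S : Sm L) {c : X → E2 → E2} (hc : IsVF L c) : Continuous fun x => c x 0 := by
  refine continuous_iff_continuousAt.2 fun x₀ => ?_
  have hm : ((x₀, x₀), (0 : E2)) ∈ {q : (X × X) × E2 | q.2 ∈ L.dm q.1.1 q.1.2} := ⟨z3, 0, z3, rfl⟩
  have hn := S.tau_jc.isOpen.mem_nhds hm
  have hi : ContinuousAt (fun x : X => ((x, x₀), (0 : E2))) x₀ := by fun_prop
  have hu : ContinuousAt (fun x => L.τ x x₀ 0) x₀ :=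
    ContinuousAt.comp (f := fun x : X => ((x, x₀), (0 : E2))) (S.tau_jc.continuousOn.continuousAt hn) hi
  have h0 : L.τ x₀ x₀ 0 = 0 := tau_eq z3 rfl
  have h1 : ContinuousAt (fun x => fderiv ℝ (L.τ x₀ x) (L.τ x x₀ 0)) x₀ :=
    ContinuousAt.comp_of_eq (f := fun x : X => ((x₀, x), L.τ x x₀ 0))
      (S.tau_jc.fderiv.continuousOn.continuousAt hn)
      ((continuousAt_const.prodMk continuousAt_id).prodMk hu) (by rw [h0])
  have h2 : ContinuousAt (fun x => c x₀ (L.τ x x₀ 0)) x₀ :=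
    ContinuousAt.comp_of_eq ((hc.1 x₀).continuousOn.continuousAt (isOpen_ball.mem_nhds z3)) hu h0
  refine (h1.clm_apply h2).congr ?_
  filter_upwards [hi.preimage_mem_nhds hn] with x hx
  obtain ⟨-, w, hw, e⟩ := hx
  rw [tau_eq hw e]
  exact (c_trans hc hw z3 e.symm).symm

theorem cont_fn (h : Basic0 S) {f : B → ℝ} (hf : IsFn L f) : Continuous f := by
  refine continuous_iff_continuousAt.2 fun ξ => ?_
  have h1 := (hf (fr L ξ)).continuousOn.continuousAt (isOpen_ball.mem_nhds z3)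
  rw [← h.ep_fr ξ, ← L.e_zero, ContinuousAt, ← h.nhds _ 0 z3, tendsto_map'_iff]
  exact h1

theorem s_bound (S : Sm L) : ∃ C, ∀ x, |Real.log (S.A.s x 0)| ≤ C := by
  obtain ⟨K, hK, hK'⟩ := L.cocompact
  have h1 : Continuous fun x => S.A.s x 0 := by
    have h2 : Continuous fun x => iteratedFDeriv ℝ 0 (S.A.s x) 0 :=
      (S.A.s_cont 0).comp_continuous (f := fun x : X => (x, (0 : E2))) (by fun_prop)
        fun _ => ⟨mem_univ _, z3⟩
    exact (h2.eval_const fun _ => 0).congr fun x => iteratedFDeriv_zero_apply _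
  obtain ⟨C, hC⟩ := hK.exists_bound_of_continuousOn
    (h1.log fun x => (S.A.s_pos x 0 z3).ne').continuousOn
  refine ⟨C, fun x => ?_⟩
  obtain ⟨g, hg⟩ := hK' x
  rw [← S.A.s_smul g x 0 z3]
  exact hC _ hg

variable (A : Alg S G)

theorem c_bound {K : Set X} (hK : IsCompact K) : ∃ C, ∀ x ∈ K, ∀ Z, ‖A.c Z x 0‖ ≤ C * ‖Z‖ := by
  obtain ⟨C, hC⟩ := banach_steinhaus (g := fun x : K => LinearMap.toContinuousLinearMap
    (LinearMap.proj (0 : E2) ∘ₗ LinearMap.proj (x : X) ∘ₗ A.c)) fun Z => by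
      obtain ⟨C, hC⟩ := hK.exists_bound_of_continuousOn (cont_c S (A.kill Z).1).continuousOn
      exact ⟨C, fun x => hC x x.2⟩
  exact ⟨C, fun x hx Z => ContinuousLinearMap.le_of_opNorm_le _ (hC ⟨x, hx⟩) Z⟩

theorem van_iff (x : X) (Z : G) : A.Van (L.ep x) Z ↔ A.c Z x 0 = 0 := by
  refine ⟨fun h => h x 0 z3 (L.e_zero x), fun h y u hu e => ?_⟩
  rw [c_trans (A.kill Z).1 z3 hu (e.trans (L.e_zero x).symm), h, map_zero]

variable {A} {lam : Fin Dim.m → ℝ} {θ : G ≃L[ℝ] G} {a : ℝ}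

theorem expand {x : X} {v : G} {Y : Fin Dim.m → G} (h : A.Car lam θ (L.ep x) v Y) (Z : G) :
    A.c Z x 0 = ∑ i, A.ip lam θ Z (θ (Y i)) • A.c (θ (Y i)) x 0 := by
  have h1 := (van_iff A x _).1 ((h.stab (Z - ∑ i, A.ip lam θ Z (θ (Y i)) • θ (Y i))).2 fun j => by
    show ipL A.toLA lam θ (θ (Y j)) _ = 0
    rw [map_sub, map_sum]
    simp only [map_smul, smul_eq_mul]
    simp only [ipL, LinearMap.coe_mk, AddHom.coe_mk, ip_theta h.toFrame, h.on, mul_ite, mul_one,
      mul_zero, Finset.sum_ite_eq', Finset.mem_univ, if_true, sub_self])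
  simpa only [map_sub, map_sum, map_smul, Pi.sub_apply, Finset.sum_apply, Pi.smul_apply,
    sub_eq_zero] using h1

/-- comparison of the frames at `x` and at `g • x` -/
theorem compare (had : A.Ad) (hl : LeviStmt) (h2 : Two lam a) (g : Γ) {x : X} {v v' : G}
    {Y Y' : Fin Dim.m → G} (h : A.Car lam θ (L.ep x) v Y) (h' : A.Car lam θ (L.ep (g • x)) v' Y') :
    ∃ s t : ℝ, 0 ≤ s ∧ 0 ≤ t ∧
      t ^ Fintype.card {i // lam i = a} = s ^ (2 * Fintype.card {i // lam i = 2 * a}) ∧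
      |vdet fun i => A.c (θ (Y i)) x 0| = s * t * |vdet fun i => A.c (θ (Y' i)) (g • x) 0| ∧
      (Matrix.gram ℝ fun i : {i // lam i = a} => A.c (θ (Y i)) x 0).det =
        s ^ 2 * (Matrix.gram ℝ fun i : {i // lam i = a} => A.c (θ (Y' i)) (g • x) 0).det := by
  obtain ⟨k, hk, hk'⟩ := had g
  obtain ⟨h3, h4⟩ := hl G A.toLA _ lam a θ (cj k θ) v' (k v) Y' (fun i => k (Y i)) h'.toFrame
    (frame_cj hk h.toFrame) h2.1 h2.2 fun Z => by
      obtain ⟨Z, rfl⟩ := k.surjective Z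
      simp only [cj_apply, ip_cj hk]
      rw [← h'.stab, ← h.stab, van_iff, van_iff, hk' _ _ _ z3]
  simp only [cj_apply] at h3 h4
  let M : Matrix (Fin Dim.m) (Fin Dim.m) ℝ :=
    Matrix.of fun i j => A.ip lam θ (k (θ (Y j))) (θ (Y' i))
  have hM : ∀ j, A.c (θ (Y j)) x 0 = ∑ i, M i j • A.c (θ (Y' i)) (g • x) 0 := fun j => by
    rw [← hk' _ _ _ z3, expand h']
    rfl
  have hn : ∀ i, lam i = 2 * a ↔ ¬ lam i = a := fun i =>
    ⟨fun e e' => by have := h2.1; linarith, fun e => (h2.2 i).resolve_left e⟩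
  have hz : ∀ i, ¬ lam i = a → ∀ j, lam j = a → M i j = 0 := fun i hi j hj =>
    h3 i j ((hn i).2 hi) hj
  refine ⟨_, _, abs_nonneg _, abs_nonneg _, h4, ?_, ?_⟩
  · rw [funext hM, vdet_comb, Matrix.twoBlockTriangular_det M _ hz,
      Matrix.equiv_block_det M (p := fun i => ¬ lam i = a) hn, abs_mul, abs_mul]
    rfl
  · rw [sq_abs, ← gram_comb]
    congr 2
    funext j
    rw [hM, ← Fintype.sum_subtype_add_sum_subtype (fun i => lam i = a),
      Finset.sum_eq_zero (s := (Finset.univ : Finset {i // ¬ lam i = a})) fun i _ => by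
        rw [hz i i.2 j j.2, zero_smul], add_zero]
    rfl

theorem card_add (h2 : Two lam a) : Fintype.card {i // lam i = a} +
    (Finset.univ.filter fun i => lam i = 2 * a).card = Dim.m := by
  have hn : ∀ i, lam i = 2 * a ↔ ¬ lam i = a := fun i =>
    ⟨fun e e' => by have := h2.1; linarith, fun e => (h2.2 i).resolve_left e⟩
  have h := Finset.card_filter_add_card_filter_not (s := (Finset.univ : Finset (Fin Dim.m)))
    fun i => lam i = a
  rw [Finset.card_univ, Fintype.card_fin] at h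
  rw [Fintype.card_subtype, Finset.filter_congr fun i _ => hn i, h]

theorem log_vol {v : B → G} {al : B → ℝ} (hal : A.IsAl lam θ v al) {x : X} {Y : Fin Dim.m → G}
    (h : A.Car lam θ (L.ep x) (v (L.ep x)) Y) : 0 < |vdet fun i => A.c (θ (Y i)) x 0| ∧
      Real.log |vdet fun i => A.c (θ (Y i)) x 0| = S.A.h * al (L.ep x) +
        Real.log (Real.sqrt (∏ i, lam i)) - S.A.h * L.lp x - Real.log (S.A.s x 0) := by
  have h1 := hal.eq Y x 0 z3 (by rwa [L.e_zero])
  have h2 : 0 < Real.sqrt (∏ i, lam i) :=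
    Real.sqrt_pos.2 (Finset.prod_pos fun i _ => h.lam_pos i)
  have h3 := S.A.s_pos x 0 z3
  rw [Sm.rho, L.e_zero, S.A.D_eq, add_sub_cancel_left] at h1
  have h4 : 0 < |vdet fun i => A.c (θ (Y i)) x 0| :=
    pos_of_mul_pos_right (h1 ▸ mul_pos (Real.exp_pos _) h2) (by positivity)
  have h5 := congrArg Real.log h1
  rw [Real.log_mul (Real.exp_pos _).ne' h2.ne', Real.log_mul (by positivity) h4.ne',
    Real.log_mul (Real.exp_pos _).ne' h3.ne', Real.log_exp, Real.log_exp] at h5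
  exact ⟨h4, by linarith⟩

end Expo

open Expo

variable [Dim]

variable {Γ X B : Type} [Group Γ] [MetricSpace X] [ProperSpace X] [MulAction Γ X]
  [IsIsometricSMul Γ X] [TopologicalSpace B] [CompactSpace B] [T2Space B] [MulAction Γ B]
  [ContinuousConstSMul Γ B] [MeasurableSpace B] [BorelSpace B] {L : Leaf Γ X B}
  {S : Sm L} {G : Type} [NormedAddCommGroup G] [NormedSpace ℝ G] [FiniteDimensional ℝ G]

/-- **EXPO** -/
theorem expo (h : Basic S) (A : Alg S G) (htr : A.Trans) (had : A.Ad) (hl : LeviStmt) :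
    A.Expo := by
  intro lam θ v al a hv hal h2 _
  choose Y hY using hv.car
  obtain ⟨K, hK, hK'⟩ := L.cocompact
  obtain ⟨x₀⟩ := L.nonempty
  obtain ⟨Cs, hCs⟩ := s_bound S
  set k := (Finset.univ.filter fun i => lam i = 2 * a).card with hk
  set p := Fintype.card {i // lam i = a} with hp
  have hpk : p + k = Dim.m := card_add h2
  have hk2 : Fintype.card {i // lam i = 2 * a} = k := Fintype.card_subtype _
  let d : X → Fin Dim.m → E2 := fun x i => A.c (θ (Y (L.ep x) i)) x 0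
  let V : X → ℝ := fun x => |vdet (d x)|
  let R : X → ℝ := fun x => (Matrix.gram ℝ fun i : {i // lam i = a} => d x i).det
  have hV := fun x => log_vol hal (hY (L.ep x))
  have hR : ∀ x, 0 < R x := fun x => (Matrix.posDef_gram_of_linearIndependent
    ((li_of_vdet (abs_pos.1 (hV x).1)).comp _ Subtype.val_injective)).det_pos
  have hcont : Continuous (L.ep : X → B) := by
    rw [funext L.ep_flip]
    exact L.em_cont.comp L.flip_cont
  -- bounds on the compact set
  obtain ⟨C1, hC1⟩ : ∃ C, ∀ x ∈ K, |Real.log (V x)| ≤ C := by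
    have hc : Continuous fun x => S.A.h * al (L.ep x) + Real.log (Real.sqrt (∏ i, lam i)) -
        S.A.h * L.lp x :=
      ((continuous_const.mul ((cont_fn h.toBasic0 hal.smooth).comp hcont)).add continuous_const).sub
        (continuous_const.mul (L.lv_cont.comp L.flip_cont))
    obtain ⟨C, hC⟩ := hK.exists_bound_of_continuousOn hc.continuousOn
    refine ⟨C + Cs, fun x hx => ?_⟩
    rw [(hV x).2]
    exact (abs_sub _ _).trans (add_le_add (hC x hx) (hCs x))
  obtain ⟨C2, hC2⟩ : ∃ C, ∀ x ∈ K, |Real.log (R x)| ≤ C := by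
    obtain ⟨C, hC⟩ := c_bound A hK
    obtain ⟨C', hC'⟩ := norm_le_of_ip (hY (L.ep x₀)).pos
    have hd : ∀ x ∈ K, ∀ i, ‖d x i‖ ≤ |C| * C' := fun x hx i =>
      (hC x hx _).trans ((mul_le_mul_of_nonneg_right (le_abs_self C) (norm_nonneg _)).trans
        (mul_le_mul_of_nonneg_left (hC' _ (by
          rw [ip_theta (hY (L.ep x)).toFrame, (hY (L.ep x)).on, if_pos rfl])) (abs_nonneg C)))
    obtain ⟨D1, hD1⟩ := gram_bound (E := E2) {i // lam i = a} (|C| * C')
    obtain ⟨D2, hD2⟩ := gram_bound (E := E2) {i // ¬ lam i = a} (|C| * C')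
    refine ⟨|Real.log D1| + (2 * C1 + |Real.log D2|), fun x hx => abs_le.2 ⟨?_, ?_⟩⟩
    · have h3 := (vdet_sq_le (d x) fun i => lam i = a).trans
        (mul_le_mul_of_nonneg_left (hD2 _ fun i => hd x hx i) (hR x).le)
      have h4 : 0 < vdet (d x) ^ 2 := by
        rw [← sq_abs]
        exact pow_pos (hV x).1 2
      have h5 : 0 < D2 := pos_of_mul_pos_right (h4.trans_le h3) (hR x).le
      have h6 := Real.log_le_log h4 h3
      rw [Real.log_mul (hR x).ne' h5.ne', ← sq_abs, Real.log_pow] at h6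
      have h7 := (abs_le.1 (hC1 x hx)).1
      have h8 := le_abs_self (Real.log D2)
      have h9 := abs_nonneg (Real.log D1)
      simp only [V] at h7
      push_cast at h6
      linarith
    · have h3 := Real.log_le_log (hR x) (hD1 _ fun i => hd x hx i)
      have h4 := le_abs_self (Real.log D1)
      have h5 := abs_nonneg (Real.log D2)
      have h6 := (abs_nonneg _).trans (hC1 x hx)
      linarith
  -- the invariant combination
  have hQ : ∀ x, |(p + 2 * k) * Real.log (R x) - 2 * p * Real.log (V x)| ≤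
      (p + 2 * k) * C2 + 2 * p * C1 := fun x => by
    obtain ⟨g, hg⟩ := hK' x
    obtain ⟨s, t, hs, ht, e1, e2, e3⟩ := compare had hl h2 g (hY (L.ep x)) (hY (L.ep (g • x)))
    have e2' : V x = s * t * V (g • x) := e2
    have e3' : R x = s ^ 2 * R (g • x) := e3
    have hVx : V x ≠ 0 := (hV x).1.ne'
    have hs0 : s ≠ 0 := fun h0 => hVx (by rw [e2', h0, zero_mul, zero_mul])
    have ht0 : t ≠ 0 := fun h0 => hVx (by rw [e2', h0, mul_zero, zero_mul])
    have l1 := congrArg Real.log e1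
    rw [Real.log_pow, Real.log_pow, hk2, ← hp] at l1
    push_cast at l1
    have e : (p + 2 * k) * Real.log (R x) - 2 * p * Real.log (V x) =
        (p + 2 * k) * Real.log (R (g • x)) - 2 * p * Real.log (V (g • x)) := by
      rw [e2', e3', Real.log_mul (pow_ne_zero 2 hs0) (hR _).ne', Real.log_pow,
        Real.log_mul (mul_ne_zero hs0 ht0) (hV _).1.ne', Real.log_mul hs0 ht0]
      push_cast
      linear_combination (-2 : ℝ) * l1
    rw [e]
    refine (abs_sub _ _).trans (add_le_add ?_ ?_)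
    · rw [abs_mul, abs_of_nonneg (by positivity)]
      exact mul_le_mul_of_nonneg_left (hC2 _ hg) (by positivity)
    · rw [abs_mul, abs_of_nonneg (by positivity)]
      exact mul_le_mul_of_nonneg_left (hC1 _ hg) (by positivity)
  have hh : S.A.h = a * (p + 2 * k) := by
    rw [hal.sum, two_sum h2, ← hk, ← hpk]
    push_cast
    ring
  have hN : (0 : ℝ) < p + 2 * k := by
    have := Dim.two_le
    exact_mod_cast (by omega : 0 < p + 2 * k)
  refine ⟨Real.exp (-(8 * k * Cs + 2 * ((p + 2 * k) * C2 + 2 * p * C1)) / (p + 2 * k)),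
    Real.exp_pos _, fun x t _ => ?_⟩
  obtain ⟨w, w', hw, hT, hle⟩ := key (k := k) (Subtype.val : {i // lam i = a} → Fin Dim.m)
    Subtype.val_injective hpk (d := d x) (d' := d (L.φ t x)) (abs_pos.1 (hV x).1)
    (fderiv ℝ (L.τ (L.φ t x) x) 0) fun i => by
      simp only [d, ep_φ]
      exact (c_trans (A.kill _).1 z3 z3 (by rw [L.e_zero, L.e_zero, ep_φ])).symm
  refine ⟨w, w', hw, hT, ?_⟩
  show _ ≤ (Matrix.gram ℝ w').det
  rw [← sq_abs, ← sq_abs (vdet (d x))] at hle
  have hle' : V (L.φ t x) ^ 2 * R x ≤ V x ^ 2 * ((Matrix.gram ℝ w').det * R (L.φ t x)) := hle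
  have p1 : 0 < V (L.φ t x) := (hV _).1
  have p2 : 0 < V x := (hV _).1
  have p3 : 0 < V (L.φ t x) ^ 2 * R x := mul_pos (pow_pos p1 2) (hR x)
  have p4 : 0 < (Matrix.gram ℝ w').det := pos_of_mul_pos_left
    (pos_of_mul_pos_right (p3.trans_le hle') (sq_nonneg _)) (hR _).le
  have l1 := Real.log_le_log p3 hle'
  rw [Real.log_mul (pow_pos p1 2).ne' (hR x).ne', Real.log_mul (pow_pos p2 2).ne'
    (mul_pos p4 (hR _)).ne', Real.log_mul p4.ne' (hR _).ne', Real.log_pow, Real.log_pow] at l1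
  push_cast at l1
  have l2 : S.A.h * t - 2 * Cs ≤ Real.log (V (L.φ t x)) - Real.log (V x) := by
    have e1 := (hV (L.φ t x)).2
    have e2 := (hV x).2
    rw [lp_φ] at e1
    have e3 : al (L.ep (L.φ t x)) = al (L.ep x) := by rw [ep_φ]
    have b1 := abs_le.1 (hCs x)
    have b2 := abs_le.1 (hCs (L.φ t x))
    simp only [V, d]
    rw [e1, e2, e3]
    linarith [b1.1, b2.2]
  have q1 := (abs_le.1 (hQ x)).1
  have q2 := (abs_le.1 (hQ (L.φ t x))).2
  rw [← Real.exp_add, ← Real.le_log_iff_exp_le p4, div_add' _ _ _ hN.ne', div_le_iff₀ hN]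
  have l3 := mul_le_mul_of_nonneg_left l1 hN.le
  have l4 := mul_le_mul_of_nonneg_left l2 (by positivity : (0 : ℝ) ≤ 4 * k)
  rw [hh] at l4
  nlinarith

end Vale.Agent.P207Z.SC
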