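import Vale.Agent.P207Z.Sm.Skew

/-!
# P207, the smooth case: two frames with the same parabolic subalgebra
-/

open Matrix

noncomputable section

namespace Vale.Agent.P207Z.SC

namespace Levi

variable {G : Type} [NormedAddCommGroup G] [NormedSpace ℝ G] (A : LA G)

/-- the Killing form as a bilinear map -/
def kilL : G →ₗ[ℝ] G →ₗ[ℝ] ℝ := LinearMap.mk₂ ℝ A.kil
  (fun a b c => by simp [LA.kil, ContinuousLinearMap.add_comp])
  (fun t a c => by simp [LA.kil, ContinuousLinearMap.smul_comp])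
  (fun a b c => by simp [LA.kil, ContinuousLinearMap.comp_add])
  (fun t a c => by simp [LA.kil])

/-- the adjoint action -/
def ad (a : G) : Module.End ℝ G := (A.br a : G →ₗ[ℝ] G)

theorem kil_eq (a b : G) : A.kil a b = LinearMap.trace ℝ G (ad A a * ad A b) := rfl

theorem ad_br (a b : G) : ad A (A.br a b) = ad A a * ad A b - ad A b * ad A a :=
  LinearMap.ext fun c => eq_sub_of_add_eq (A.jac a b c).symm

theorem kil_comm (a b : G) : A.kil a b = A.kil b a := by
  rw [kil_eq, kil_eq, LinearMap.trace_mul_comm]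

theorem kil_br (a b c : G) : A.kil (A.br a b) c = A.kil a (A.br b c) := by
  rw [kil_eq, kil_eq, ad_br, ad_br, sub_mul, mul_sub, map_sub, map_sub, mul_assoc, mul_assoc,
    LinearMap.trace_mul_comm ℝ (ad A b) (ad A a * ad A c), mul_assoc]

theorem kil_aut {g : G ≃L[ℝ] G} (hg : A.IsAut g) (a b : G) : A.kil (g a) (g b) = A.kil a b := by
  rw [kil_eq, kil_eq, ← LinearMap.trace_conj' (ad A a * ad A b) g.toLinearEquiv]
  refine congrArg _ (LinearMap.ext fun c => ?_)
  obtain ⟨d, rfl⟩ := g.surjective c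
  change A.br (g a) (A.br (g b) (g d)) = g (A.br a (A.br b (g.symm (g d))))
  rw [g.symm_apply_apply, hg, hg]

variable {n : ℕ} (lam : Fin n → ℝ) (θ : G ≃L[ℝ] G)

/-- the scalar product as a bilinear map -/
def ipL : G →ₗ[ℝ] G →ₗ[ℝ] ℝ :=
  (-(2 * ∑ i, lam i ^ 2)⁻¹) • (kilL A).compl₂ (θ : G →ₗ[ℝ] G)

theorem ip_eq (a b : G) : A.ip lam θ a b = ipL A lam θ a b := by
  change -A.kil a (θ b) / _ = -(2 * ∑ i, lam i ^ 2)⁻¹ * A.kil a (θ b)
  ring

theorem ipL_eq (a b : G) : ipL A lam θ a b = -(2 * ∑ i, lam i ^ 2)⁻¹ * kilL A a (θ b) := rfl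

variable {A lam θ} {θ' : G ≃L[ℝ] G} {v v' : G} {Y Y' : Fin n → G} {a : ℝ}

theorem ip_aut (F : A.Frame lam θ v Y) (a b : G) :
    ipL A lam θ (θ a) (θ b) = ipL A lam θ a b :=
  congrArg (_ * ·) (kil_aut A F.aut a (θ b))

theorem ip_comm (F : A.Frame lam θ v Y) (a b : G) : ipL A lam θ a b = ipL A lam θ b a := by
  refine congrArg (fun x : ℝ => -(2 * ∑ i, lam i ^ 2)⁻¹ * x) ?_
  change A.kil a (θ b) = A.kil b (θ a)
  rw [← kil_aut A F.aut, F.inv, kil_comm]

/-- the adjoint of `ad b` is `-ad (θ b)` -/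
theorem ip_br (F : A.Frame lam θ v Y) (a b c : G) :
    ipL A lam θ (A.br b a) c = -ipL A lam θ a (A.br (θ b) c) := by
  rw [A.anti b a, map_neg, LinearMap.neg_apply, neg_inj]
  refine congrArg (fun x : ℝ => -(2 * ∑ i, lam i ^ 2)⁻¹ * x) ?_
  change A.kil (A.br a b) (θ c) = A.kil a (θ (A.br (θ b) c))
  rw [kil_br, F.aut, F.inv]

theorem ip_on (F : A.Frame lam θ v Y) (i j : Fin n) :
    ipL A lam θ (Y i) (Y j) = if i = j then 1 else 0 := by rw [← ip_eq, F.on]

theorem ip_def (F : A.Frame lam θ v Y) {Z : G} (h : ipL A lam θ Z Z = 0) : Z = 0 := by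
  by_contra h0
  exact (F.pos Z h0).ne' ((ip_eq A lam θ Z Z).trans h)

theorem eig_th (F : A.Frame lam θ v Y) {U : G} {r : ℝ} (h : A.br v U = r • U) :
    A.br v (θ U) = (-r) • θ U := by
  have h1 := F.aut v U
  rw [h, F.neg, map_neg, map_smul, _root_.neg_apply] at h1
  rw [neg_smul, h1, neg_neg]

theorem eig_br {U W : G} {r s : ℝ} (h : A.br v U = r • U) (h' : A.br v W = s • W) :
    A.br v (A.br U W) = (r + s) • A.br U W := by
  rw [A.jac, h, h', map_smul, map_smul, add_smul, _root_.smul_apply]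

theorem ip_eig (F : A.Frame lam θ v Y) {U W : G} {r s : ℝ} (h : A.br v U = r • U)
    (h' : A.br v W = s • W) (hrs : r ≠ s) : ipL A lam θ U W = 0 := by
  have h1 := ip_br F U v W
  rw [h, F.neg, map_neg, _root_.neg_apply, h', map_neg, neg_neg, map_smul, map_smul,
    LinearMap.smul_apply, smul_eq_mul, smul_eq_mul] at h1
  exact (mul_eq_mul_right_iff.1 h1).resolve_left hrs

theorem eig_zero (F : A.Frame lam θ v Y) {U : G} {r : ℝ} (hr : 0 < r) (h : A.br v U = r • U)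
    (h1 : ∀ i, lam i = r → ipL A lam θ U (Y i) = 0) : U = 0 := by
  obtain ⟨Z, s, t, h2, h3⟩ := F.dec U
  have k1 : ipL A lam θ U Z = 0 := ip_eig F h (h2.trans (zero_smul ℝ Z).symm) hr.ne'
  have k2 : ∀ i, ipL A lam θ U (Y i) = 0 := fun i => by
    by_cases hi : lam i = r
    · exact h1 i hi
    · exact ip_eig F h (F.eig i) (Ne.symm hi)
  have k3 : ∀ i, ipL A lam θ U (θ (Y i)) = 0 := fun i =>
    ip_eig F h (eig_th F (F.eig i)) (by linarith [F.lam_pos i])
  refine ip_def F ?_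
  nth_rewrite 2 [h3]
  simp only [map_add, map_sum, map_smul, k1, k2, k3, smul_zero, Finset.sum_const_zero, add_zero]

theorem eig_sum (F : A.Frame lam θ v Y) {r : ℝ} (s : {i // lam i = r} → ℝ) :
    A.br v (∑ i, s i • Y i) = r • ∑ i, s i • Y i := by
  rw [map_sum, Finset.smul_sum]
  refine Finset.sum_congr rfl fun i _ => ?_
  rw [map_smul, F.eig, i.2, smul_comm]

theorem ip_sum (F : A.Frame lam θ v Y) {r : ℝ} (s : {i // lam i = r} → ℝ) (j : {i // lam i = r}) :
    ipL A lam θ (∑ i, s i • Y i) (Y j) = s j := by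
  simp [map_sum, ip_on F, Subtype.val_inj]

/-- expansion of an eigenvector -/
theorem eig_exp (F : A.Frame lam θ v Y) {U : G} {r : ℝ} (hr : 0 < r) (h : A.br v U = r • U) :
    ∑ i : {i // lam i = r}, ipL A lam θ U (Y i) • Y i = U := by
  refine (sub_eq_zero.1 (eig_zero F hr ?_ fun i hi => ?_)).symm
  · rw [map_sub, h, eig_sum F, smul_sub]
  · rw [map_sub, LinearMap.sub_apply, ip_sum F _ ⟨i, hi⟩, sub_self]

theorem br_th (F : A.Frame lam θ v Y) {W : G} {r : ℝ} (h : A.br v W = r • W) :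
    A.br W (θ W) = (-(r * ipL A lam θ W W)) • v := by
  have h1 : A.br v (A.br W (θ W)) = 0 := by rw [eig_br h (eig_th F h), add_neg_cancel, zero_smul]
  have h2 := F.zero _ h1
  have h3 : ipL A lam θ v (A.br W (θ W)) = -(r * ipL A lam θ W W) := by
    rw [ip_comm F, ip_br F, A.anti (θ W), eig_th F h, map_neg, neg_neg, map_smul, ip_aut F,
      smul_eq_mul, neg_mul]
  rw [ip_eq, h3, map_sub, map_smul, F.aut, F.inv, F.neg, A.anti (θ W)] at h2
  linear_combination (norm := module) (-2⁻¹ : ℝ) • h2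

theorem br_top (F : A.Frame lam θ v Y) (ha : 0 < a) (h2 : ∀ i, lam i = a ∨ lam i = 2 * a)
    {U W : G} {r : ℝ} (hr : a ≤ r) (h : A.br v U = r • U) (h' : A.br v W = (2 * a) • W) :
    A.br W U = 0 :=
  eig_zero F (by linarith) (eig_br h' h) fun i hi => by
    rcases h2 i with k | k <;> linarith

/-- the matrix of the alternating form defined by a linear form -/
def om (A : LA G) (lam : Fin n → ℝ) (Y : Fin n → G) (a : ℝ) (φ : G →ₗ[ℝ] ℝ) :
    Matrix {i // lam i = a} {i // lam i = a} ℝ := Matrix.of fun i j => φ (A.br (Y i) (Y j))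

theorem om_sq (F : A.Frame lam θ v Y) (ha : 0 < a) (h2 : ∀ i, lam i = a ∨ lam i = 2 * a)
    (φ : G →ₗ[ℝ] ℝ) : om A lam Y a φ * om A lam Y a φ =
      (-(2 * a ^ 2 * ∑ i : {i // lam i = 2 * a}, φ (Y i) ^ 2)) • (1 : Matrix _ _ ℝ) := by
  obtain ⟨W, hW⟩ : ∃ W, W = ∑ i : {i // lam i = 2 * a}, φ (Y i) • Y i := ⟨_, rfl⟩
  have w1 : A.br v W = (2 * a) • W := hW ▸ eig_sum F _
  have w2 : ∀ U, A.br v U = (2 * a) • U → φ U = ipL A lam θ U W := fun U hU => by
    conv_lhs => rw [← eig_exp F (by linarith) hU]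
    simp only [hW, map_sum, map_smul, smul_eq_mul, mul_comm]
  have w3 : ipL A lam θ W W = ∑ i : {i // lam i = 2 * a}, φ (Y i) ^ 2 := by
    rw [← w2 W w1, hW]
    simp only [map_sum, map_smul, smul_eq_mul, sq]
  have y1 : ∀ i : {i // lam i = a}, A.br v (Y i) = a • Y i := fun i => by rw [F.eig, i.2]
  have w4 : ∀ i j : {i // lam i = a}, om A lam Y a φ i j =
      ipL A lam θ (A.br W (θ (Y i))) (Y j) := fun i j => by
    rw [om, of_apply, w2 _ (by rw [eig_br (y1 i) (y1 j), two_mul]), ip_br F, ip_comm F,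
      A.anti W, map_neg, LinearMap.neg_apply]
  ext i k
  have w5 : A.br v (A.br W (θ (Y i))) = a • A.br W (θ (Y i)) := by
    rw [eig_br w1 (eig_th F (y1 i))]
    congr 1
    ring
  have w6 : A.br W (θ (A.br W (θ (Y i)))) = (-(2 * a ^ 2 * ipL A lam θ W W)) • Y i := by
    rw [F.aut, F.inv, A.jac, br_top F ha h2 le_rfl (y1 i) w1, map_zero, add_zero, br_th F w1,
      map_smul, _root_.smul_apply, y1, smul_smul]
    congr 1
    ring
  have w7 := congrArg (fun U => ipL A lam θ (A.br W (θ U)) (Y k)) (eig_exp F ha w5)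
  simp only [w6, map_sum, map_smul, LinearMap.sum_apply, LinearMap.smul_apply, smul_eq_mul,
    ip_on F, Subtype.val_inj] at w7
  simp only [Matrix.mul_apply, w4, w7, w3, Matrix.smul_apply, Matrix.one_apply, smul_eq_mul]

theorem ip_th (F : A.Frame lam θ v Y) (F' : A.Frame lam θ' v' Y') (Z U : G) :
    ipL A lam θ Z (θ U) = ipL A lam θ' Z (θ' U) := by
  rw [ipL_eq, ipL_eq, F.inv, F'.inv]

/-- expansion of one frame in the other one -/
theorem expand (F : A.Frame lam θ v Y) (F' : A.Frame lam θ' v' Y')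
    (h : ∀ Z, (∀ i, A.ip lam θ' Z (θ' (Y' i)) = 0) → ∀ i, A.ip lam θ Z (θ (Y i)) = 0) (i : Fin n) :
    ∑ j, ipL A lam θ' (Y i) (Y' j) • Y' j = Y i := by
  obtain ⟨U, hU⟩ : ∃ U, U = Y i - ∑ j, ipL A lam θ' (Y i) (Y' j) • Y' j := ⟨_, rfl⟩
  have h1 : ∀ j, ipL A lam θ' U (Y' j) = 0 := fun j => by simp [hU, map_sum, ip_on F']
  have h2 := h (θ' U) (fun j => by rw [ip_eq, ip_aut F', h1]) i
  rw [ip_eq, ip_th F F', ip_aut F'] at h2
  refine (sub_eq_zero.1 (hU.symm.trans (ip_def F' ?_))).symm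
  nth_rewrite 2 [hU]
  simp only [map_sub, map_sum, map_smul, h1, h2, smul_zero, Finset.sum_const_zero, sub_zero]

theorem sum_two (ha : 0 < a) (h2 : ∀ i, lam i = a ∨ lam i = 2 * a) {M : Type} [AddCommMonoid M]
    (f : Fin n → M) :
    ∑ i, f i = ∑ i : {i // lam i = a}, f i + ∑ i : {i // lam i = 2 * a}, f i := by
  rw [← Fintype.sum_subtype_add_sum_subtype (fun i => lam i = a) f]
  refine congrArg _ (Fintype.sum_equiv (Equiv.subtypeEquivRight fun i => ⟨fun h =>
    (h2 i).resolve_left h, fun h h' => by linarith⟩) _ _ fun _ => rfl)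

theorem conf {k : Type} [Fintype k] [DecidableEq k] {N : Matrix k k ℝ} {ρ : ℝ}
    (h : ∀ w : k → ℝ, ∑ i, (N *ᵥ w) i ^ 2 = ρ * ∑ i, w i ^ 2) :
    N.det ^ 2 = ρ ^ Fintype.card k := by
  have h1 : ∀ w : k → ℝ, (N *ᵥ w) ⬝ᵥ (N *ᵥ w) = ρ * (w ⬝ᵥ w) := fun w => by
    simpa only [sq, dotProduct] using h w
  have h2 : ∀ u w : k → ℝ, (N *ᵥ u) ⬝ᵥ (N *ᵥ w) = ρ * (u ⬝ᵥ w) := fun u w => by
    have k1 := h1 (u + w)
    simp only [mulVec_add, add_dotProduct, dotProduct_add, h1, dotProduct_comm w u,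
      dotProduct_comm (N *ᵥ w) (N *ᵥ u)] at k1
    linarith
  have h3 : Nᵀ * N = ρ • (1 : Matrix k k ℝ) := by
    ext i j
    have k1 := h2 (Pi.single i 1) (Pi.single j 1)
    rw [mulVec_single_one, mulVec_single_one, single_one_dotProduct, Pi.single_apply] at k1
    rw [Matrix.smul_apply, Matrix.one_apply, smul_eq_mul, ← k1]
    rfl
  have h4 := congrArg det h3
  rwa [det_mul, det_transpose, det_smul, det_one, mul_one, ← sq] at h4

end Levi

open Levi in
theorem levi : LeviStmt := by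
  intro G _ _ _ A n lam a θ θ' v v' Y Y' F F' ha h2 h
  have e1 := expand F F' fun Z => (h Z).2
  have e2 := expand F' F fun Z => (h Z).1
  have e3 : ∀ i j, A.ip lam θ (θ' (Y' j)) (θ (Y i)) = ipL A lam θ' (Y i) (Y' j) := fun i j => by
    rw [ip_eq, ip_th F F', ip_aut F', ip_comm F']
  simp only [e3]
  obtain ⟨M, hM⟩ : ∃ M : Fin n → Fin n → ℝ, ∀ i j, ipL A lam θ' (Y i) (Y' j) = M i j :=
    ⟨_, fun _ _ => rfl⟩
  simp only [hM] at e1 ⊢
  have a1 : ∀ i, a ≤ lam i := fun i => by rcases h2 i with k | k <;> linarith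
  have t1 : ∀ i : {i // lam i = 2 * a}, ∀ j, A.br (Y i) (Y j) = 0 := fun i j =>
    br_top F ha h2 (a1 j) (F.eig j) (by rw [F.eig, i.2])
  have t2 : ∀ i : {i // lam i = 2 * a}, ∀ j, A.br (Y' i) (Y' j) = 0 := fun i j =>
    br_top F' ha h2 (a1 j) (F'.eig j) (by rw [F'.eig, i.2])
  have t3 : ∀ i j, A.br (Y i) (Y' j) = ∑ k : {i // lam i = a}, M i k • A.br (Y' k) (Y' j) :=
    fun i j => by
      rw [← e1 i, sum_two ha h2]
      simp only [map_add, map_sum, map_smul, _root_.add_apply,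
        _root_.sum_apply, _root_.smul_apply, t2, smul_zero,
        Finset.sum_const_zero, add_zero]
  have p1 : ∀ i j, lam i = 2 * a → lam j = a → M i j = 0 := fun i j hi hj => by
    have k1 : (fun k : {i // lam i = a} => M i k) ᵥ* om A lam Y' a (ipL A lam θ' (Y' i)) = 0 := by
      funext l
      have k2 : A.br (Y i) (Y' l) = 0 := by
        rw [← e2 l]
        simp only [map_sum, map_smul, t1 ⟨i, hi⟩, smul_zero, Finset.sum_const_zero]
      have k3 := congrArg (ipL A lam θ' (Y' i)) ((t3 i l).symm.trans k2)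
      simp only [map_sum, map_smul, map_zero] at k3
      exact k3
    have k4 := congrFun (congrArg (· ᵥ* om A lam Y' a (ipL A lam θ' (Y' i))) k1) ⟨j, hj⟩
    have k5 : ∑ l : {i // lam i = 2 * a}, ipL A lam θ' (Y' i) (Y' l) ^ 2 = 1 := by
      rw [Finset.sum_eq_single ⟨i, hi⟩ (fun l _ hl => by
        rw [ip_on F', if_neg fun k => hl (Subtype.ext k.symm), sq, mul_zero]) (by simp), ip_on F',
        if_pos rfl, one_pow]
    simp only [vecMul_vecMul, om_sq F' ha h2, k5, vecMul_smul, vecMul_one, zero_vecMul,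
      Pi.smul_apply, Pi.zero_apply, smul_eq_mul] at k4
    exact (mul_eq_zero.1 k4).resolve_left (neg_ne_zero.2 (by positivity))
  refine ⟨p1, ?_⟩
  obtain ⟨P, hP⟩ : ∃ P : Matrix {i // lam i = a} {i // lam i = a} ℝ,
    P = Matrix.of fun i j : {i // lam i = a} => M i j := ⟨_, rfl⟩
  obtain ⟨N, hN⟩ : ∃ N : Matrix {i // lam i = 2 * a} {i // lam i = 2 * a} ℝ,
    N = Matrix.of fun i j : {i // lam i = 2 * a} => M i j := ⟨_, rfl⟩
  rw [← hP, ← hN]
  have q1 : ∀ φ, om A lam Y a φ = P * om A lam Y' a φ * Pᵀ := fun φ => by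
    ext i j
    have k1 : A.br (Y i) (Y j) = ∑ l : {i // lam i = a}, M j l • A.br (Y i) (Y' l) := by
      conv_lhs => rw [← e1 j, sum_two ha h2]
      have k2 : ∀ l : {i // lam i = 2 * a}, A.br (Y i) (Y' l) = 0 := fun l => by
        simp only [t3, A.anti _ (Y' l), t2, neg_zero, smul_zero, Finset.sum_const_zero]
      simp only [map_add, map_sum, map_smul, k2, smul_zero, Finset.sum_const_zero, add_zero]
    simp only [om, hP, Matrix.mul_apply, of_apply, transpose_apply, k1, t3, map_sum, map_smul,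
      smul_eq_mul, mul_comm]
  obtain ⟨m, hm⟩ : ∃ m, Fintype.card {i // lam i = a} = m := ⟨_, rfl⟩
  have q2 : ∀ w : {i // lam i = 2 * a} → ℝ,
      (∑ i, (N *ᵥ w) i ^ 2) ^ m = P.det ^ 4 * (∑ i, w i ^ 2) ^ m := fun w => by
    obtain ⟨φ, hφ⟩ : ∃ φ, φ = ipL A lam θ' (∑ i, w i • Y' i) := ⟨_, rfl⟩
    have k1 : ∀ i : {i // lam i = 2 * a}, φ (Y' i) = w i := fun i => hφ ▸ ip_sum F' w i
    have k2 : ∀ i : {i // lam i = 2 * a}, φ (Y i) = (N *ᵥ w) i := fun i => by
      rw [← e1 i, sum_two ha h2]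
      have k3 : ∀ j : {i // lam i = a}, M i j = 0 := fun j => p1 i j i.2 j.2
      simp only [k3, zero_smul, Finset.sum_const_zero, zero_add, map_sum, map_smul, k1, hN, mulVec,
        dotProduct, of_apply, smul_eq_mul]
    have k4 := congrArg det (om_sq F ha h2 φ)
    have k5 := congrArg det (om_sq F' ha h2 φ)
    simp only [det_mul, det_smul, det_one, mul_one, k1, k2, q1, det_transpose, hm] at k4 k5
    refine mul_left_cancel₀ (pow_ne_zero m (neg_ne_zero.2 (by positivity : 2 * a ^ 2 ≠ 0))) ?_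
    rw [mul_left_comm, ← mul_pow, ← mul_pow, neg_mul, neg_mul, ← k4, ← k5]
    ring
  rw [hm]
  rcases Nat.eq_zero_or_pos m with rfl | m0
  · have := Fintype.card_eq_zero_iff.1 hm
    simp
  obtain ⟨ρ, ρ0, hρ⟩ : ∃ ρ : ℝ, 0 ≤ ρ ∧ ρ ^ m = P.det ^ 4 :=
    ⟨(P.det ^ 4) ^ (m⁻¹ : ℝ), by positivity, Real.rpow_inv_natCast_pow (by positivity) m0.ne'⟩
  have q3 := conf (N := N) (ρ := ρ) fun w =>
    (pow_left_inj₀ (by positivity) (by positivity) m0.ne').1 (by rw [q2, mul_pow, hρ])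
  refine (pow_left_inj₀ (by positivity) (by positivity) two_ne_zero).1 ?_
  rw [← pow_mul, mul_comm m, pow_mul, sq_abs, q3, ← pow_mul, mul_comm _ m, pow_mul, hρ, ← pow_mul,
    ← pow_mul, mul_comm _ 2, ← mul_assoc, pow_mul |P.det|, pow_mul, Even.pow_abs (by decide)]
  rfl

end Vale.Agent.P207Z.SC
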