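import Vale.Agent.P207Z.Sm.Mass.Flow
import Vale.Agent.P207Z.Cen.End

/-!
# P207, the smooth case: the bound of the mass
-/

set_option linter.unusedSectionVars false

open Set Filter Topology Metric MeasureTheory
open scoped ContDiff

noncomputable section

namespace Vale.Agent.P207Z.SC

open Vale.Agent.P207.N4 Vale.Agent.P207.N3

variable [Dim]

variable {Γ X B : Type} [Group Γ] [MetricSpace X] [ProperSpace X] [MulAction Γ X]
  [IsIsometricSMul Γ X] [TopologicalSpace B] [CompactSpace B] [T2Space B] [MulAction Γ B]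
  [ContinuousConstSMul Γ B] [MeasurableSpace B] [BorelSpace B] {L : Leaf Γ X B} {S : Sm L}
  {G : Type} [NormedAddCommGroup G] [NormedSpace ℝ G] [FiniteDimensional ℝ G] {A : Alg S G}
  {lam : Fin Dim.m → ℝ} {θ : G ≃L[ℝ] G} {v : B → G} {al : B → ℝ}

namespace Ms

theorem det_gram (T : E2 →L[ℝ] E2 →L[ℝ] ℝ) (w u : Fin Dim.m → E2) :
    (Matrix.of fun j i => T (w j) (u i)).det = vdet w * mdet T * vdet u := by
  have hb : ∀ x : E2, x = ∑ k, x k • EuclideanSpace.single k (1 : ℝ) := fun x => by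
    simpa using ((EuclideanSpace.basisFun (Fin Dim.m) ℝ).sum_repr x).symm
  rw [vdet, mdet, vdet, ← Matrix.det_transpose (Matrix.of fun i j => u i j), ← Matrix.det_mul,
    ← Matrix.det_mul]
  congr 1
  ext j i
  simp only [Matrix.mul_apply, Matrix.of_apply, Matrix.transpose_apply]
  conv_lhs => rw [hb (w j), hb (u i)]
  simp only [map_sum, map_smul, sum_apply, smul_apply, smul_eq_mul]
  exact Finset.sum_congr rfl fun k _ => mul_comm _ _

theorem al_eq (h : Basic0 S) (hal : A.IsAl lam θ v al) {ξ : B}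
    {Y : Fin Dim.m → G} (F : A.Car lam θ ξ (v ξ) Y) :
    Real.exp (S.A.h * al ξ) * Real.sqrt (∏ i, lam i) = A.vol ξ fun i => θ (Y i) := by
  have := hal.eq Y (fr L ξ) 0 ball0 (by rwa [e_fr h])
  rwa [e_fr h] at this

/-- the opposite frame at the antipode -/
theorem car_flip {ξ η : B} {a : G} {Y Y' : Fin Dim.m → G} (F : A.Car lam θ ξ (-a) Y)
    (F' : A.Car lam θ η a Y') : A.Car lam θ ξ (-a) fun i => θ (Y' i) where
  toFrame := flip F'.toFrame
  stab Z := (F.stab Z).trans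
    ((stab_iff F.toFrame Z).trans (stab_iff (flip F'.toFrame) Z).symm)
  f_stab := F.f_stab

theorem mom_van (h : Basic0 S) {ξ η : B} {a : G} {Y : Fin Dim.m → G} (F : A.Car lam θ ξ a Y)
    {Z : G} (hZ : A.Van ξ Z) : A.mom ξ η Z = A.ip lam θ a Z := by
  rw [Alg.mom, hZ _ 0 ball0 (e_fr h ξ), map_zero, sub_zero, F.f_stab Z hZ]

theorem mom_eq (h : Basic0 S) (hm : A.MomEq) {ξ η : B} (hne : ξ ≠ η) {a : G}
    {Y : Fin Dim.m → G} (F : A.Car lam θ ξ (-a) fun i => θ (Y i)) (F' : A.Car lam θ η a Y)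
    (Z : G) : A.mom ξ η Z = -A.ip lam θ a Z := by
  obtain ⟨Z₀, s, t, h0, rfl⟩ := F'.dec Z
  have o1 := fun i => orth F'.toFrame (h0.trans (zero_smul ℝ _).symm) (eig_θ F'.toFrame i)
    (by linarith [F'.lam_pos i])
  have o2 := fun i j => orth F'.toFrame (F'.eig i) (eig_θ F'.toFrame j)
    (by linarith [F'.lam_pos i, F'.lam_pos j])
  have o3 := fun i j => (ip_comm F'.toFrame _ _).trans (o2 i j)
  have h1 : A.Van η (Z₀ + ∑ i, s i • Y i) := (F'.stab _).2 fun j => by
    simp [ip_eq, LinearMap.sum_apply, o1, o2]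
  have h2 : A.Van ξ (∑ i, t i • θ (Y i)) := (F.stab _).2 fun j => by
    simp [ip_eq, LinearMap.sum_apply, F.inv, o3]
  have h3 : ∀ Z W, A.mom ξ η (Z + W) = A.mom ξ η Z + A.mom ξ η W := fun Z W => by
    simp only [Alg.mom, map_add, Pi.add_apply]
    ring
  rw [h3, mom_van h F h2, hm.anti η ξ _ hne.symm, mom_van h F' h1]
  simp only [ip_eq, map_add, map_neg, LinearMap.neg_apply]
  ring

theorem antipode (h : Basic S) (hm : A.MomEq) (hv : A.Model lam θ v)
    (hal : A.IsAl lam θ v al) {ξ η : B} (he : v ξ = -v η) : S.A.D ξ η - al ξ - al η = 0 := by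
  have h0 := h.toBasic0
  obtain ⟨Y₀, F₀⟩ := hv.car ξ
  obtain ⟨Y, F'⟩ := hv.car η
  have hne : ξ ≠ η := by
    rintro rfl
    have h1 : ipl A.toLA lam θ (v ξ) (v ξ) = 1 := F'.unit
    have h2 := h1
    nth_rw 1 [he] at h2
    rw [map_neg, LinearMap.neg_apply, h1] at h2
    norm_num at h2
  rw [he] at F₀
  have F := car_flip F₀ F'
  have hz : ((0, 0) : E2 × E2) ∈ Od L (fr L ξ) (fr L η) :=
    ⟨ball0, ball0, by rwa [e_fr h0, e_fr h0]⟩
  have hO : Od L (fr L ξ) (fr L η) ∈ 𝓝 ((0, 0) : E2 × E2) :=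
    (isOpen_slice S.f_jc.isOpen (fr L ξ, fr L η)).mem_nhds hz
  have hM : ∀ j i, mix (FF L S.A.D (fr L ξ) (fr L η)) (0, 0) (A.c (θ (Y j)) (fr L η) 0)
      (A.c (Y i) (fr L ξ) 0) = if j = i then lam j else 0 := fun j i => by
    have h1 := hm.snd _ _ _ hz (Y i) (A.c (θ (Y j)) (fr L η) 0)
    have h2 := hm.br _ _ _ hz (θ (Y j)) (Y i)
    have h3 : A.Van ξ (θ (Y j)) := (F.stab _).2 fun k => by
      rw [F.inv]
      exact orth F'.toFrame (eig_θ F'.toFrame j) (F'.eig k)
        (by linarith [F'.lam_pos j, F'.lam_pos k])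
    have h4 := (((hm.smooth _ _ (Y i)).contDiffAt hO).differentiableAt (by simp)).hasFDerivAt
    have h5 := (h4.comp (0 : E2) (hasFDerivAt_prodMk_right (0 : E2) (0 : E2))).fderiv
    rw [h3 _ 0 ball0 (e_fr h0 ξ), Alg.mm, e_fr h0, e_fr h0, mom_eq h0 hm hne F F', ip_eq,
      ip_br' F'.toFrame, F'.eig, map_smul, LinearMap.smul_apply, ← ip_eq, F'.on] at h2
    have h6 : d2 (A.mm (fr L ξ) (fr L η) (Y i)) (0, 0) (A.c (θ (Y j)) (fr L η) 0) = _ :=
      congrArg (fun T : E2 →L[ℝ] ℝ => T (A.c (θ (Y j)) (fr L η) 0)) h5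
    simp only [ContinuousLinearMap.comp_apply, ContinuousLinearMap.inr_apply] at h6
    rw [h6, ← h2, neg_inj] at h1
    rw [← h1]
    simp
  have h1 := det_gram (mix (FF L S.A.D (fr L ξ) (fr L η)) (0, 0))
    (fun j => A.c (θ (Y j)) (fr L η) 0) fun i => A.c (Y i) (fr L ξ) 0
  have h2 : (Matrix.of fun j i => if j = i then lam j else 0) = Matrix.diagonal lam := rfl
  simp only [hM, h2, Matrix.det_diagonal] at h1
  have hP : 0 < ∏ i, lam i := Finset.prod_pos fun i _ => F'.lam_pos i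
  have h3 := congrArg abs h1
  rw [abs_mul, abs_mul, h.ma _ _ _ hz, abs_of_pos hP, FF, e_fr h0, e_fr h0] at h3
  have h4 := al_eq h0 hal (he ▸ F)
  have h5 := al_eq h0 hal F'
  simp only [Alg.vol, F.inv] at h4 h5
  have h6 : ∏ i, lam i = Real.exp (-S.A.h * S.A.D ξ η + S.A.h * al ξ + S.A.h * al η) *
      ∏ i, lam i := by
    rw [Real.exp_add, Real.exp_add]
    have := Real.mul_self_sqrt hP.le
    calc _ = Real.exp (-S.A.h * S.A.D ξ η) * ((Real.exp (S.A.h * al ξ) * √(∏ i, lam i)) *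
        (Real.exp (S.A.h * al η) * √(∏ i, lam i))) := by rw [h4, h5, h3]; ring
      _ = _ := by linear_combination (Real.exp (-S.A.h * S.A.D ξ η) * Real.exp (S.A.h * al ξ) *
        Real.exp (S.A.h * al η)) * this
  have h7 := Real.exp_eq_one_iff _ |>.1 ((mul_eq_right₀ hP.ne').1 h6.symm)
  refine mul_left_cancel₀ S.A.h_pos.ne' ?_
  linarith

variable {P : G} {g : ℝ → G ≃L[ℝ] G} {γ : ℝ → B}

theorem al_der (h : Basic0 S) (hal : A.IsAl lam θ v al) (hγ : Drv L (fun _ => A.c P) γ) (t : ℝ) :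
    HasDerivAt (fun s => al (γ s)) (A.f P (γ t) - A.ip lam θ (v (γ t)) P) t := by
  have := chain h hγ hal.smooth t
  rwa [hal.der _ _ _ ball0, e_fr h] at this

theorem al_flow (h : Basic0 S) (ht : A.Transport) (hg : Fl A.toLA P g)
    (hγ : Drv L (fun _ => A.c P) γ) (hv : A.Model lam θ v) (hal : A.IsAl lam θ v al) {t : ℝ}
    {v' : B → G} {al' : B → ℝ} (hal' : A.IsAl lam (((g t).symm.trans θ).trans (g t)) v' al')
    (he : v' (γ t) = g t (v (γ 0))) {β : ℝ → ℝ} (h0 : β 0 = 0)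
    (hβ : ∀ s, HasDerivAt β (-A.ip lam θ (v (γ s)) P) s) :
    al (γ t) = al' (γ t) + β t := by
  obtain ⟨Y, F⟩ := hv.car (γ 0)
  have h1 := al_eq h hal F
  have h2 := al_eq h hal' (he ▸ car_flow ht hg hγ F t)
  have hP : 0 < √(∏ i, lam i) := Real.sqrt_pos.2 (Finset.prod_pos fun i _ => F.lam_pos i)
  have hd : ∀ s, HasDerivAt (fun s => A.vol (γ s) (fun i => g s (θ (Y i))) *
      Real.exp (-S.A.h * (al (γ s) - β s))) 0 s := fun s =>
    ((ht.vol (fun _ => P) (fun s i => g s (θ (Y i))) γ continuous_const (fun i => hg.der _) hγ s).mul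
      (((al_der h hal hγ s).sub (hβ s)).const_mul (-S.A.h)).exp).congr_deriv (by
        simp only [Pi.sub_apply]; ring)
  have h3 := is_const_of_deriv_eq_zero (fun s => (hd s).differentiableAt)
    (fun s => (hd s).deriv) t 0
  simp only [ContinuousLinearEquiv.trans_apply, ContinuousLinearEquiv.symm_apply_apply] at h2
  simp only [hg.zero, h0] at h3
  rw [← h1, ← h2, mul_right_comm, mul_right_comm (Real.exp (S.A.h * al (γ 0))), ← Real.exp_add,
    ← Real.exp_add] at h3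
  have h4 := Real.exp_injective (mul_right_cancel₀ hP.ne' h3)
  refine mul_left_cancel₀ S.A.h_pos.ne' ?_
  linarith

end Ms

open Ms in
theorem massLe (h : Basic S) (A : Alg S G) (hm : A.MomEq) (_ : A.Trans) (hi : IC L)
    (ht : A.Transport) (hM : A.ToModel) (hA : A.ToAl) (hP : A.Polar) : A.MassLe := by
  intro lam θ v al a hv hal h2
  have h0 := h.toBasic0
  obtain ⟨⟨j, hj⟩, hw⟩ := hP lam θ v al hv hal
  obtain ⟨w, hw, hσ⟩ := hw j hj
  obtain ⟨κ, hκ⟩ : ∃ κ, κ = √(∏ i, 2 * lam i) := ⟨_, rfl⟩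
  have hκ0 : 0 ≤ κ := hκ ▸ Real.sqrt_nonneg _
  have hint : ∀ (α f : B → ℝ), Continuous α → ∫ ξ, f ξ ∂(S.A.ν.withDensity fun ξ =>
      ENNReal.ofReal (κ * Real.exp (-S.A.h * α ξ))) =
      ∫ ξ, κ * Real.exp (-S.A.h * α ξ) * f ξ ∂S.A.ν := fun α f hα => by
    rw [integral_withDensity_eq_integral_toReal_smul (by fun_prop)
      (Eventually.of_forall fun _ => ENNReal.ofReal_lt_top)]
    refine integral_congr_ae (Eventually.of_forall fun ξ => ?_)
    simp only [smul_eq_mul]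
    rw [ENNReal.toReal_ofReal (by positivity)]
  choose Y F using hv.car
  have hac := fn_cont h0 hal.smooth
  have hip : ∀ ξ η, inner ℝ (w η : E3) (w ξ : E3) = -A.ip lam θ (v ξ) (-v η) := fun ξ η => by
    rw [hw, hw, hj _ _ (F η).neg (F ξ).neg, ip_eq, ip_eq, map_neg, neg_neg, ip_comm (F η).toFrame]
  rw [← hκ] at hσ ⊢
  have key := Cen.mass_le (D := fun ξ η => S.A.D ξ η - al ξ - al η) (a := a) (h := S.A.h)
    (C := 2 * a) (α := al) w hσ h2.1 S.A.h_pos ?_ ?_ ?_ ?_ hac fun ξ η hne => by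
      linarith [S.nonpos ξ η hne]
  · rw [hint _ _ hac] at key
    simp only [mul_assoc, ← Real.exp_add, neg_mul, neg_add_cancel, Real.exp_zero, mul_one,
      integral_const, smul_eq_mul] at key
    exact key
  · rw [hal.sum, finrank_euclideanSpace_fin]
    calc _ ≤ ∑ _ : Fin Dim.m, 2 * a := Finset.sum_le_sum fun i _ => by
          rcases h2.2 i with h | h <;> linarith [h2.1]
      _ ≤ _ := by
          simp only [Finset.sum_const, Finset.card_univ, Fintype.card_fin, nsmul_eq_mul]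
          push_cast
          linarith [h2.1]
  · exact (h0.cont.sub (hac.comp continuous_fst).continuousOn).sub
      (hac.comp continuous_snd).continuousOn
  · refine fun ξ η he => antipode h hm hv hal (eq_of_ip (F ξ).toFrame ?_ ?_)
    · simpa [ip_eq] using (F η).unit
    · have := hip ξ η
      rw [he, inner_neg_right, real_inner_self_eq_norm_sq, norm_eq_of_mem_sphere, one_pow,
        neg_inj] at this
      exact this.symm
  intro η
  obtain ⟨g, hg⟩ := exists_fl A.toLA (-v η)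
  obtain ⟨φ, p0, hγ, padd, pc⟩ := exists_phi h0 hi ht hv hg
  refine ⟨φ, p0, padd, pc, fun ξ t => ?_, fun ξ ζ hne t => ?_, fun t f hf => ?_⟩
  · obtain ⟨k, k1, k2, k3, k4, k5⟩ := motion (F (φ t ξ)).toFrame h2.1 h2.2 (F η).neg (F η).unit
    have h3 := ((F (φ t ξ)).stab _).2 k2 _ 0 ball0 (e_fr h0 _)
    rw [map_sub, Pi.sub_apply, Pi.sub_apply, sub_eq_zero] at h3
    have h4 := chain h0 (hγ ξ) hv.smooth t
    rw [h3, hv.der k k1 _ _ ball0, e_fr h0] at h4
    have h5 := (hasDerivAt_const t (j (v η))).inner ℝ (j.hasFDerivAt.comp_hasDerivAt t h4)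
    refine ⟨_, by simpa only [hw, Function.comp_def] using h5, ?_⟩
    simp only [hw, inner_zero_left, add_zero, hj _ _ (F η).neg k3,
      hj _ _ (F η).neg (F (φ t ξ)).neg]
    exact ⟨k4, k5⟩
  · have h3 := (ht.two (fun _ => -v η) _ _ continuous_const (hγ ξ) (hγ ζ)
      (by rwa [p0, p0]) t).2.1
    refine ((h3.sub (al_der h0 hal (hγ ξ) t)).sub (al_der h0 hal (hγ ζ) t)).congr_deriv ?_
    simp only [hip]
    ring
  · have F' := fun ξ => car_flow ht hg (hγ ξ) (by rw [p0]; exact F ξ) t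
    obtain ⟨v', hv'⟩ := hM _ _ _ _ _ (F' η)
    obtain ⟨al', hal'⟩ := hA _ _ _ hv'
    have hac' := fn_cont h0 hal'.smooth
    have he : ∀ ξ, v' (φ t ξ) = g t (v ξ) := fun ξ => by
      obtain ⟨Y', F''⟩ := hv'.car (φ t ξ)
      exact car_uniq F'' (F' ξ).unit (van_v (F' ξ))
    obtain ⟨w', hw', hσ'⟩ := (hP _ _ _ _ hv' hal').2 (j.comp ((g t).symm : G →L[ℝ] G))
      fun Z Z' hZ hZ' => by
        obtain ⟨Z, rfl⟩ := (g t).surjective Z
        obtain ⟨Z', rfl⟩ := (g t).surjective Z'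
        rw [ip_map (hg.aut t), ← hj Z Z' ((g t).injective (by simpa using hZ))
          ((g t).injective (by simpa using hZ'))]
        simp
    rw [← hκ] at hσ'
    have hφ : ∀ ξ, w'.symm (w ξ) = φ t ξ := fun ξ =>
      w'.symm_apply_eq.2 (Subtype.ext (by simp [hw', hw, he]))
    have hwc : Continuous fun ξ => (w ξ : E3) := continuous_subtype_val.comp w.continuous
    have hal2 : ∀ ξ, al (φ t ξ) = al' (φ t ξ) +
        ∫ s in (0 : ℝ)..t, inner ℝ (w η : E3) (w (φ s ξ) : E3) := fun ξ =>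
      al_flow h0 ht hg (hγ ξ) hv hal hal' (by rw [he, p0])
        (β := fun t => ∫ s in (0 : ℝ)..t, inner ℝ (w η : E3) (w (φ s ξ) : E3))
        intervalIntegral.integral_same fun s => by
          rw [← hip]
          exact ((continuous_const.inner (hwc.comp (hγ ξ).1)).integral_hasStrictDerivAt
            0 s).hasDerivAt
    have e1 := hσ.integral_comp w.measurableEmbedding fun x =>
      f (w'.symm x) * Real.exp (-S.A.h * (al (w'.symm x) - al' (w'.symm x)))
    have e2 := hσ'.integral_comp w'.measurableEmbedding fun x =>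
      f (w'.symm x) * Real.exp (-S.A.h * (al (w'.symm x) - al' (w'.symm x)))
    simp only [hφ, hal2, add_sub_cancel_left] at e1
    simp only [w'.symm_apply_apply] at e2
    rw [e1, ← e2, hint _ _ hac, hint _ _ hac']
    refine integral_congr_ae (Eventually.of_forall fun ξ => ?_)
    have : Real.exp (-S.A.h * al ξ) =
        Real.exp (-S.A.h * al' ξ) * Real.exp (-S.A.h * (al ξ - al' ξ)) := by
      rw [← Real.exp_add]; congr 1; ring
    simp only [this]
    ring

end Vale.Agent.P207Z.SC
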