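import Vale.Agent.P207Z.Sm.Flow

/-!
# P207, the smooth case: the model, from one point to all points, and the function `α`
-/

open Set Filter Topology Metric MeasureTheory
open scoped ContDiff

noncomputable section

namespace Vale.Agent.P207Z.SC

open Vale.Agent.P207.N4 Vale.Agent.P207.N3

namespace Md

theorem isInv {E : Type} [NormedAddCommGroup E] [NormedSpace ℝ E] [FiniteDimensional ℝ E]
    {T : E →L[ℝ] E} (hT : ∀ z, T z = 0 → z = 0) : T.IsInvertible :=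
  ⟨(LinearEquiv.ofInjectiveEndo T.toLinearMap
    ((injective_iff_map_eq_zero _).2 hT)).toContinuousLinearEquiv, rfl⟩

theorem det_smooth {E : Type} [NormedAddCommGroup E] [NormedSpace ℝ E] {n : ℕ} {s : Set E}
    {N : E → Matrix (Fin n) (Fin n) ℝ} (h : ∀ i j, ContDiffOn ℝ ∞ (fun u => N u i j) s) :
    ContDiffOn ℝ ∞ (fun u => (N u).det) s := by
  simp only [Matrix.det_apply']
  exact ContDiffOn.sum fun σ _ => contDiffOn_const.mul (contDiffOn_prod fun i _ => h _ _)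

variable [Dim]

/-- linear combinations of `m` vectors -/
def cmb {G : Type} [NormedAddCommGroup G] [NormedSpace ℝ G] (W : Fin Dim.m → G) : E2 →L[ℝ] G :=
  ∑ i, (EuclideanSpace.proj i : E2 →L[ℝ] ℝ).smulRight (W i)

theorem cmb_apply {G : Type} [NormedAddCommGroup G] [NormedSpace ℝ G] (W : Fin Dim.m → G)
    (s : E2) : cmb W s = ∑ i, s i • W i := by
  simp [cmb]

variable {Γ X B : Type} [Group Γ] [MetricSpace X] [ProperSpace X] [MulAction Γ X]
  [IsIsometricSMul Γ X] [TopologicalSpace B] [CompactSpace B] [T2Space B] [MulAction Γ B]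
  [ContinuousConstSMul Γ B] [MeasurableSpace B] [BorelSpace B] {L : Leaf Γ X B}
  {S : Sm L} {G : Type} [NormedAddCommGroup G] [NormedSpace ℝ G] [FiniteDimensional ℝ G]
  {A : Alg S G} {lam : Fin Dim.m → ℝ} {θ : G ≃L[ℝ] G}

theorem ch_cont (h : Basic0 S) {x : X} {u : E2} (hu : u ∈ ball (0 : E2) 3) :
    ContinuousAt (ch L x) (L.e x u) := by
  rw [ContinuousAt, ← h.nhds x u hu, tendsto_map'_iff, Tr.ch_e hu]
  refine tendsto_id.congr' ?_
  filter_upwards [isOpen_ball.mem_nhds hu] with w hw using (Tr.ch_e hw).symm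

/-- the set of the points with a frame is open -/
theorem ev_car (h : Basic0 S) (htr : A.Trans) (ht : A.Transport) {ξ : B} {v : G}
    {Y : Fin Dim.m → G} (hc : A.Car lam θ ξ v Y) :
    ∀ᶠ η in 𝓝 ξ, ∃ v' Y', A.Car lam θ η v' Y' := by
  obtain ⟨x, hx⟩ : ∃ x, L.e x 0 = ξ := ⟨_, Tr.e_fr h ξ⟩
  obtain ⟨κ, hκ⟩ : ∃ κ : E2 →L[ℝ] G, ∀ s, κ s = ∑ i, s i • (Y i + θ (Y i)) := ⟨_, cmb_apply _⟩
  obtain ⟨M, hM⟩ : ∃ M : E2 → E2 →L[ℝ] E2, ∀ u, M u = A.cl x u ∘L κ := ⟨_, fun _ => rfl⟩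
  have hMc : ∀ u ∈ ball (0 : E2) 3, ContinuousAt M u := fun u hu => by
    rw [funext hM]
    exact ((A.cl_smooth x).continuousOn.continuousAt (isOpen_ball.mem_nhds hu)).clm_comp
      continuousAt_const
  have hM0 : (M 0).IsInvertible := isInv fun s hs => by
    obtain ⟨b, hb⟩ := hc.basis htr zero_mem3 hx
    rw [hM, ContinuousLinearMap.comp_apply, hκ, map_sum] at hs
    simp only [map_smul, Alg.cl_apply, hc.c_add zero_mem3 hx, ← hb] at hs
    ext i
    exact Fintype.linearIndependent_iff.1 b.linearIndependent _ hs i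
  have h1 : ∀ᶠ u in 𝓝 (0 : E2), u ∈ ball (0 : E2) 3 ∧ (M u).IsInvertible := by
    obtain ⟨e, he⟩ := hM0
    exact (isOpen_ball.eventually_mem zero_mem3).and
      ((hMc 0 zero_mem3).eventually_mem (he ▸ e.nhds))
  obtain ⟨ε, hε, h2⟩ := Metric.eventually_nhds_iff_ball.1 h1
  rw [← hx, ← h.nhds x 0 zero_mem3, eventually_map]
  filter_upwards [ball_mem_nhds (0 : E2) hε] with u hu
  have hp : ∀ t, Real.sin t • u ∈ ball (0 : E2) ε := fun t => by
    rw [mem_ball_zero_iff] at hu ⊢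
    rw [norm_smul]
    exact (mul_le_of_le_one_left (norm_nonneg _) (Real.abs_sin_le_one t)).trans_lt hu
  obtain ⟨k, hk⟩ : ∃ k : ℝ → G,
      ∀ t, k t = κ ((M (Real.sin t • u)).inverse (Real.cos t • u)) := ⟨_, fun _ => rfl⟩
  have hkc : Continuous k := by
    rw [funext hk]
    refine κ.continuous.comp (Continuous.clm_apply
      (continuous_iff_continuousAt.2 fun t => ?_) (by fun_prop))
    exact ((h2 _ (hp t)).2.contDiffAt_map_inverse (n := 0)).continuousAt.comp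
      (f := fun t => M (Real.sin t • u)) ((hMc _ (h2 _ (hp t)).1).comp
        (f := fun t => Real.sin t • u) (by fun_prop))
  have hper : Function.Periodic k (2 * Real.pi) := fun t => by
    rw [hk, hk, Real.sin_add_two_pi, Real.cos_add_two_pi]
  obtain ⟨C, hC⟩ := (hper.isBounded_of_continuous (by positivity) hkc).exists_norm_le
  obtain ⟨g, hg⟩ := A.exists_flow hkc fun t => hC _ ⟨t, rfl⟩
  have hγ : Drv L (fun t => A.c (k t)) fun t => L.e x (Real.sin t • u) :=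
    drv_of_param S (fun t => (A.kill _).1) (fun t => (h2 _ (hp t)).1) fun t => by
      rw [← A.cl_apply, hk, ← ContinuousLinearMap.comp_apply, ← hM,
        (h2 _ (hp t)).2.self_apply_inverse]
      exact (Real.hasDerivAt_sin t).smul_const u
  have h3 := hc.flow_k ht hkc (fun t => by
    rw [hk, hκ]
    simp only [map_sum, map_smul, hc.th_add]) hγ (by rw [Real.sin_zero, zero_smul, hx]) hg
    (Real.pi / 2)
  rw [Real.sin_pi_div_two, one_smul] at h3
  exact ⟨_, _, h3⟩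

/-- the set of all frames is closed -/
theorem closed_car (h : Basic0 S) (htr : A.Trans) {v₀ : G} {Y₀ : Fin Dim.m → G}
    (hF : A.Frame lam θ v₀ Y₀) :
    IsClosed {q : B × G × (Fin Dim.m → G) | A.Car lam θ q.1 q.2.1 q.2.2} := by
  refine isClosed_iff_frequently.2 fun q hq => ?_
  have key : ∀ {T : Type} [TopologicalSpace T] [T2Space T]
      {f g : B × G × (Fin Dim.m → G) → T}, Continuous f → Continuous g →
      (∀ p, A.Car lam θ p.1 p.2.1 p.2.2 → f p = g p) → f q = g q := fun hf hg hfg =>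
    tendsto_nhds_unique_of_frequently_eq hf.continuousAt hg.continuousAt (hq.mono hfg)
  have hpr : ∀ Z, Continuous fun p : B × G × (Fin Dim.m → G) => A.pr lam θ p.2.2 Z := fun Z => by
    simp only [Alg.pr, ← LA.ipC_apply]
    fun_prop
  obtain ⟨z, hz⟩ : ∃ z : (Fin Dim.m → G) → G → G, ∀ Y Z, z Y Z =
      Z - ∑ i, A.ip lam θ Z (Y i) • Y i - ∑ i, A.ip lam θ Z (θ (Y i)) • θ (Y i) :=
    ⟨_, fun _ _ => rfl⟩
  have hzc : ∀ Z, Continuous fun p : B × G × (Fin Dim.m → G) => z p.2.2 Z := fun Z => by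
    simp only [hz, ← LA.ipC_apply]
    fun_prop
  have ha : θ q.2.1 = -q.2.1 :=
    key (f := fun p => θ p.2.1) (g := fun p => -p.2.1) (by fun_prop) (by fun_prop)
      fun p hp => hp.neg
  have hb : A.ip lam θ q.2.1 q.2.1 = 1 :=
    key (f := fun p => A.ip lam θ p.2.1 p.2.1) (A.ip_cont lam θ (by fun_prop) (by fun_prop))
      continuous_const fun p hp => hp.unit
  have hc : ∀ i, A.br q.2.1 (q.2.2 i) = lam i • q.2.2 i := fun i =>
    key (f := fun p => A.br p.2.1 (p.2.2 i)) (g := fun p => lam i • p.2.2 i) (by fun_prop)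
      (by fun_prop) fun p hp => hp.eig i
  have hd : ∀ i j, A.ip lam θ (q.2.2 i) (q.2.2 j) = if i = j then 1 else 0 := fun i j =>
    key (f := fun p => A.ip lam θ (p.2.2 i) (p.2.2 j))
      (A.ip_cont lam θ (by fun_prop) (by fun_prop)) continuous_const fun p hp => hp.on i j
  have he : ∀ Z, A.br q.2.1 (z q.2.2 Z) = 0 := fun Z =>
    key (f := fun p => A.br p.2.1 (z p.2.2 Z))
      ((A.br.continuous.comp (by fun_prop)).clm_apply (hzc Z)) continuous_const
      fun p hp => by rw [hz]; exact hp.coef Z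
  have hf : ∀ Z, θ (z q.2.2 Z - A.ip lam θ q.2.1 (z q.2.2 Z) • q.2.1) =
      z q.2.2 Z - A.ip lam θ q.2.1 (z q.2.2 Z) • q.2.1 := fun Z => by
    have h1 : Continuous fun p : B × G × (Fin Dim.m → G) =>
        z p.2.2 Z - A.ip lam θ p.2.1 (z p.2.2 Z) • p.2.1 :=
      (hzc Z).sub ((A.ip_cont lam θ (by fun_prop) (hzc Z)).smul (by fun_prop))
    exact key (θ.continuous.comp h1) h1 fun p hp => hp.zero _ (by rw [hz]; exact hp.coef Z)
  have hq' : A.Frame lam θ q.2.1 q.2.2 := by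
    refine ⟨hF.aut, hF.inv, hF.pos, hF.lam_pos, ha, hb, hc, hd, fun Z => ⟨_,
      fun i => A.ip lam θ Z (q.2.2 i), fun i => A.ip lam θ Z (θ (q.2.2 i)), he Z, ?_⟩,
      fun Z hZ => ?_⟩
    · rw [hz]
      abel
    have h0 : A.br q.2.1 Z = (0 : ℝ) • Z := by rw [hZ, zero_smul]
    have h1 : ∀ i, A.ip lam θ Z (q.2.2 i) = 0 := fun i =>
      hF.orth ha h0 (hc i) (hF.lam_pos i).ne
    have h2 : ∀ i, A.ip lam θ Z (θ (q.2.2 i)) = 0 := fun i => by
      refine hF.orth ha h0 (s := -lam i) ?_ (by linarith [hF.lam_pos i])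
      have h3 := hF.aut q.2.1 (q.2.2 i)
      rw [hc, ha, map_smul, map_neg, neg_apply] at h3
      rw [neg_smul, h3, neg_neg]
    have h4 := hf Z
    rwa [show z q.2.2 Z = Z by simp [hz, h1, h2]] at h4
  refine Alg.car_of h htr hq' (fun Z => ?_) fun Z => ?_
  · obtain ⟨x, hx⟩ : ∃ x, L.e x 0 = q.1 := ⟨_, Tr.e_fr h q.1⟩
    have h0 : ch L x q.1 = 0 := by rw [← hx, Tr.ch_e zero_mem3]
    have h1 : ContinuousAt (fun p : B × G × (Fin Dim.m → G) => ch L x p.1) q :=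
      ContinuousAt.comp (f := Prod.fst) (hx ▸ ch_cont h zero_mem3) continuousAt_fst
    have h2 : ContinuousAt (fun p : B × G × (Fin Dim.m → G) =>
        A.cl x (ch L x p.1) (A.pr lam θ p.2.2 Z)) q :=
      (ContinuousAt.comp (f := fun p : B × G × (Fin Dim.m → G) => ch L x p.1)
        ((A.cl_smooth x).continuousOn.continuousAt (isOpen_ball.mem_nhds (h0 ▸ zero_mem3)))
        h1).clm_apply (hpr Z).continuousAt
    have h3 : ∀ᶠ p : B × G × (Fin Dim.m → G) in 𝓝 q, p.1 ∈ L.e x '' ball 0 3 :=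
      continuousAt_fst.eventually_mem ((Tr.isOpen_U x).mem_nhds ⟨0, zero_mem3, hx⟩)
    have h4 := tendsto_nhds_unique_of_frequently_eq h2 (tendsto_const_nhds (x := (0 : E2)))
      ((hq.and_eventually h3).mono fun p hp =>
        hp.1.van_pr Z x _ (Tr.ch_mem hp.2) (Tr.e_ch hp.2))
    rw [← hx, A.van_iff zero_mem3]
    simpa only [h0, Alg.cl_apply] using h4
  · exact key (f := fun p => A.fl p.1 (A.pr lam θ p.2.2 Z))
      (((A.fl_smooth.continuous h).comp continuous_fst).clm_apply (hpr Z))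
      (A.ip_cont lam θ (by fun_prop) (hpr Z)) fun p hp => hp.f_stab _ (hp.van_pr Z)

/-- there are frames at all points -/
theorem all_car (h : Basic0 S) (htr : A.Trans) (ht : A.Transport) {ξ : B} {v : G}
    {Y : Fin Dim.m → G} (hc : A.Car lam θ ξ v Y) (η : B) : ∃ v' Y', A.Car lam θ η v' Y' := by
  have ho : IsOpen {η | ∃ v' Y', A.Car lam θ η v' Y'} :=
    isOpen_iff_mem_nhds.2 fun η ⟨_, _, h'⟩ => ev_car h htr ht h'
  have hK := hc.isCompact_unit
  have hcl : IsClosed {η | ∃ v' Y', A.Car lam θ η v' Y'} := by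
    have h1 := ((isCompact_univ (X := B)).prod (hK.prod (isCompact_univ_pi
      fun _ : Fin Dim.m => hK))).of_isClosed_subset (closed_car h htr hc.toFrame)
      fun q hq => ⟨trivial, hq.unit, fun i _ => (hq.on i i).trans (if_pos rfl)⟩
    have h2 := (h1.image continuous_fst).isClosed
    rwa [show Prod.fst '' {q : B × G × (Fin Dim.m → G) | A.Car lam θ q.1 q.2.1 q.2.2} =
      {η | ∃ v' Y', A.Car lam θ η v' Y'} from Set.ext fun η =>
        ⟨fun ⟨q, hq, he⟩ => he ▸ ⟨_, _, hq⟩, fun ⟨v', Y', h'⟩ => ⟨(η, v', Y'), h', rfl⟩⟩] at h2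
  by_cases hη : η = ξ
  · exact ⟨v, Y, hη ▸ hc⟩
  refine (h.conn ξ).subset_isClopen ⟨hcl, ho⟩ ?_ hη
  obtain ⟨x, hx⟩ : ∃ x, L.e x 0 = ξ := ⟨_, Tr.e_fr h ξ⟩
  have h1 := ev_car h htr ht hc
  rw [← hx, ← h.nhds x 0 zero_mem3, eventually_map] at h1
  obtain ⟨u, ⟨h2, h3⟩, h4⟩ := (((h1.and (isOpen_ball.eventually_mem zero_mem3)).filter_mono
    (nhdsWithin_le_nhds (s := {0}ᶜ))).and self_mem_nhdsWithin).exists
  exact ⟨L.e x u, fun h5 => h4 (L.e_inj x (ball_subset_closedBall h3)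
    (ball_subset_closedBall zero_mem3) (h5.trans hx.symm)), h2⟩

theorem v_smooth {v : B → G} (hv : ∀ ξ, ∃ Y, A.Car lam θ ξ (v ξ) Y) : IsFn L v := by
  intro x
  obtain ⟨Y₀, h0⟩ := hv (L.e x 0)
  obtain ⟨j, hj⟩ : ∃ j : E2 × ℝ →L[ℝ] G,
      ∀ q, j q = q.2 • v (L.e x 0) + ∑ i, q.1 i • (Y₀ i - θ (Y₀ i)) :=
    ⟨(ContinuousLinearMap.snd ℝ E2 ℝ).smulRight (v (L.e x 0)) +
      cmb (fun i => Y₀ i - θ (Y₀ i)) ∘L ContinuousLinearMap.fst ℝ E2 ℝ,
      fun q => by simp [cmb_apply]⟩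
  have hjp : ∀ q, θ (j q) = -j q := fun q => by
    simp only [hj, map_add, map_sum, map_smul, h0.neg, h0.th_sub, smul_neg,
      Finset.sum_neg_distrib, neg_add]
  obtain ⟨T, hT⟩ : ∃ T : E2 → E2 × ℝ →L[ℝ] E2 × ℝ,
      ∀ u q, T u q = (A.c (j q) x u, A.f (j q) (L.e x u)) :=
    ⟨fun u => (A.cl x u).prod (A.fl (L.e x u)) ∘L j, fun _ _ => rfl⟩
  have hTs : ContDiffOn ℝ ∞ T (ball 0 3) := contDiffOn_clm_apply.2 fun q => by
    simp only [hT]
    exact (A.c_smooth _ x).prodMk (A.f_smooth _ x)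
  have hTi : ∀ u ∈ ball (0 : E2) 3, (T u).IsInvertible := fun u hu => isInv fun q hq => by
    obtain ⟨Y, hc⟩ := hv (L.e x u)
    rw [hT, Prod.mk_eq_zero] at hq
    have h1 := hc.p_van (hjp q) ((A.van_iff hu _).2 hq.1)
    rw [hq.2, zero_smul] at h1
    have h2 := congrArg (A.ip lam θ (v (L.e x 0))) h1
    have h3 := fun i => congrArg (fun Z => A.ip lam θ Z (Y₀ i)) h1
    simp only [hj, LA.ip_add_right, LA.ip_smul_right, LA.ip_sum_right, LA.ip_sub_right,
      h0.unit, h0.ip_v_Y, h0.ip_v_th, LA.ip_zero_right, LA.ip_add_left, LA.ip_smul_left,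
      LA.ip_sum_left, LA.ip_sub_left, h0.on, h0.ip_th_Y, LA.ip_zero_left] at h2 h3
    refine Prod.ext ?_ (by simpa using h2)
    ext i
    simpa using h3 i
  refine ContDiffOn.congr (f := fun u => j ((T u).inverse (0, 1))) (fun u hu => ?_) fun u hu => ?_
  · refine (j.contDiff.contDiffAt.comp u (ContDiffAt.clm_apply ?_ contDiffAt_const)
      ).contDiffWithinAt
    exact (hTi u hu).contDiffAt_map_inverse.comp u (hTs.contDiffAt (isOpen_ball.mem_nhds hu))
  · obtain ⟨Y, hc⟩ := hv (L.e x u)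
    have h1 : v (L.e x u) = j (WithLp.toLp 2 fun i => A.ip lam θ (v (L.e x u)) (Y₀ i),
        A.ip lam θ (v (L.e x 0)) (v (L.e x u))) := by
      rw [hj]
      exact h0.p_dec hc.neg
    refine h1.trans (congrArg j ((hTi u hu).inverse_apply_eq.2 ?_).symm)
    rw [hT, ← h1, hc.f_v, hc.van_v x u hu rfl]

theorem v_flow (ht : A.Transport) {v : B → G} (hv : ∀ ξ, ∃ Y, A.Car lam θ ξ (v ξ) Y) {k : G}
    (hk : θ k = k) {γ : ℝ → B} (hγ : Drv L (fun _ => A.c k) γ) {g : ℝ → G ≃L[ℝ] G}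
    (hg : A.IsFlow (fun _ => k) g) (t : ℝ) : v (γ t) = g t (v (γ 0)) := by
  obtain ⟨Y, hc⟩ := hv (γ 0)
  obtain ⟨Y', hc'⟩ := hv (γ t)
  exact (hc.flow_k ht continuous_const (fun _ => hk) hγ rfl hg t).uniq hc'

theorem v_der (hi : IC L) (ht : A.Transport) {v : B → G} (hv : ∀ ξ, ∃ Y, A.Car lam θ ξ (v ξ) Y)
    {k : G} (hk : θ k = k) (x : X) {u : E2} (hu : u ∈ ball (0 : E2) 3) :
    fderiv ℝ (fun w => v (L.e x w)) u (A.c k x u) = A.br (v (L.e x u)) k := by
  obtain ⟨γ, g, h0, hγ, hg⟩ := A.exists_curve hi k (L.e x u)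
  have h1 := drv_deriv (v_smooth hv) hγ hu h0
  rw [funext (v_flow ht hv hk hγ hg)] at h1
  rw [h1.unique (hg.der _ 0), hg.zero, h0, ← A.anti]

omit [FiniteDimensional ℝ G] in
theorem v_inj (h : Basic0 S) (hm : A.MomEq) {v : B → G} (hv : ∀ ξ, ∃ Y, A.Car lam θ ξ (v ξ) Y) :
    Function.Injective v := fun ξ η he => by
  by_contra hne
  have key : ∀ ξ η, A.mom ξ η (v ξ) = 1 := fun ξ η => by
    obtain ⟨Y, hc⟩ := hv ξ
    rw [Alg.mom, hc.f_v, hc.van_v _ _ zero_mem3 (Tr.e_fr h ξ), map_zero, sub_zero]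
  have h1 := hm.anti ξ η (v ξ) hne
  rw [key ξ η, he, key η ξ] at h1
  linarith

theorem v_surj (h : Basic0 S) (hm : A.MomEq) (hi : IC L) (ht : A.Transport) {v : B → G}
    (hv : ∀ ξ, ∃ Y, A.Car lam θ ξ (v ξ) Y) {P : G} (hP : θ P = -P) (h1 : A.ip lam θ P P = 1) :
    ∃ ξ, v ξ = P := by
  obtain ⟨x⟩ := L.nonempty
  have hc : Continuous fun ξ => A.ip lam θ (v ξ) P :=
    A.ip_cont lam θ ((v_smooth hv).continuous h) continuous_const
  obtain ⟨ξ, -, hmax⟩ := isCompact_univ.exists_isMaxOn ⟨L.em x, trivial⟩ hc.continuousOn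
  obtain ⟨Y, hξ⟩ := hv ξ
  have h2 : ∀ i, A.ip lam θ P (Y i) = 0 := fun i => by
    obtain ⟨γ, g, h0, hγ, hg⟩ := A.exists_curve hi (Y i + θ (Y i)) ξ
    have h3 : IsLocalMax (fun t => (A.ipC lam θ).flip P (g t (v ξ))) 0 :=
      Eventually.of_forall fun t => by
        simp only [ContinuousLinearMap.flip_apply, LA.ipC_apply, hg.zero]
        have h4 := v_flow ht hv (hξ.th_add _) hγ hg t
        rw [h0] at h4
        rw [← h4]
        exact hmax trivial
    have h5 := h3.hasDerivAt_eq_zero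
      (((A.ipC lam θ).flip P).hasFDerivAt.comp_hasDerivAt 0 (hg.der (v ξ) 0))
    rw [hg.zero, ← A.anti, hξ.br_v_add, ContinuousLinearMap.flip_apply, LA.ipC_apply,
      LA.ip_smul_left, hξ.ip_symm, LA.ip_sub_right, hξ.ip_p_th hP] at h5
    have h6 := (mul_eq_zero.1 h5).resolve_left (hξ.lam_pos i).ne'
    linarith
  have h3 := hξ.p_dec hP
  simp only [h2, zero_smul, Finset.sum_const_zero, add_zero] at h3
  have h4 : A.ip lam θ (v ξ) P * A.ip lam θ (v ξ) P = 1 := by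
    rw [← h1]
    nth_rewrite 3 [h3]
    rw [LA.ip_smul_left]
  rcases mul_self_eq_one_iff.1 h4 with h5 | h5
  · exact ⟨ξ, by rw [h3, h5, one_smul]⟩
  have h6 : ∀ η, v η = -P := fun η => by
    obtain ⟨Y', hη⟩ := hv η
    have h7 : A.ip lam θ (v η) P ≤ -1 := h5 ▸ hmax trivial
    refine eq_neg_of_add_eq_zero_left (hξ.eq_zero ?_)
    rw [LA.ip_add_left, LA.ip_add_right, LA.ip_add_right, hη.unit, h1, hξ.ip_symm P]
    linarith
  exact absurd (v_inj h hm hv ((h6 _).trans (h6 _).symm)) (L.em_ne_ep x)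

/-- the square of the determinant as a Gram determinant -/
theorem gram {v₀ : G} {Y₀ : Fin Dim.m → G} (hF : A.Frame lam θ v₀ Y₀) :
    ∃ N : X → E2 → ℝ, (∀ x, ContDiffOn ℝ ∞ (N x) (ball 0 3)) ∧
      ∀ x, ∀ u ∈ ball (0 : E2) 3, ∀ v Y, A.Car lam θ (L.e x u) v Y →
        N x u = vdet (fun i => A.c (θ (Y i)) x u) ^ 2 := by
  obtain ⟨n, b, w, hb⟩ := hF.parseval
  refine ⟨fun x u => (Matrix.of fun j l => ∑ a, w a * (A.c (b a) x u j * A.c (b a) x u l)).det,
    fun x => det_smooth fun j l => ?_, fun x u hu v Y hc => ?_⟩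
  · have h1 : ∀ a j, ContDiffOn ℝ ∞ (fun u => A.c (b a) x u j) (ball 0 3) := fun a j =>
      (EuclideanSpace.proj j : E2 →L[ℝ] ℝ).contDiff.comp_contDiffOn (A.c_smooth _ x)
    simp only [Matrix.of_apply]
    exact ContDiffOn.sum fun a _ => contDiffOn_const.mul ((h1 a j).mul (h1 a l))
  rw [vdet, sq]
  nth_rewrite 1 [← Matrix.det_transpose]
  rw [← Matrix.det_mul]
  refine congrArg Matrix.det (Matrix.ext fun j l => ?_)
  have h1 : ∀ a j, A.c (b a) x u j =
      ∑ i, A.ip lam θ (θ (Y i)) (b a) * A.c (θ (Y i)) x u j := fun a j => by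
    rw [hc.c_eq hu rfl (b a)]
    simp [hc.ip_symm (b a)]
  have h2 : ∀ i i', ∑ a, w a * (A.ip lam θ (θ (Y i)) (b a) * A.ip lam θ (θ (Y i')) (b a)) =
      if i = i' then 1 else 0 := fun i i' => by rw [← hb, hc.on_th]
  simp only [Matrix.of_apply, Matrix.mul_apply, Matrix.transpose_apply, h1]
  calc _ = ∑ i, ∑ i', (∑ a, w a * (A.ip lam θ (θ (Y i)) (b a) * A.ip lam θ (θ (Y i')) (b a))) *
        (A.c (θ (Y i')) x u j * A.c (θ (Y i)) x u l) := by
        simp only [Finset.sum_mul, Finset.mul_sum]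
        rw [Finset.sum_comm]
        refine Finset.sum_congr rfl fun i _ => ?_
        rw [Finset.sum_comm]
        exact Finset.sum_congr rfl fun i' _ => Finset.sum_congr rfl fun a _ => by ring
    _ = _ := by simp [h2]

theorem h_sum (h : Basic S) (htr : A.Trans) {ξ : B} {v : G} {Y : Fin Dim.m → G}
    (hc : A.Car lam θ ξ v Y) : S.A.h = ∑ i, lam i := by
  obtain ⟨x, hx⟩ : ∃ x, L.e x 0 = ξ := ⟨_, Tr.e_fr h.toBasic0 ξ⟩
  have h0 := hc.van_v x 0 zero_mem3 hx
  have h1 := h.div _ _ (A.kill v) x 0 zero_mem3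
  rw [h0, map_zero, zero_add, hx, hc.f_v, mul_one, mul_comm] at h1
  rw [← mul_right_cancel₀ (h.rho_pos x 0 zero_mem3).ne' h1]
  obtain ⟨b, hb⟩ := hc.basis htr zero_mem3 hx
  have h2 : ∀ i, fderiv ℝ (A.c v x) 0 (b i) = lam i • b i := fun i => by
    have h3 := A.c_br v (θ (Y i)) x 0 zero_mem3
    rw [hc.eig_th, VectorField.lieBracket, h0, map_zero, zero_sub, ← A.cl_apply, map_smul,
      A.cl_apply, neg_smul, ← hb] at h3
    exact (neg_injective h3).symm
  rw [LinearMap.trace_eq_matrix_trace ℝ b, Matrix.trace]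
  refine Finset.sum_congr rfl fun i _ => ?_
  simp [LinearMap.toMatrix_apply, h2]

end Md

variable [Dim]

variable {Γ X B : Type} [Group Γ] [MetricSpace X] [ProperSpace X] [MulAction Γ X]
  [IsIsometricSMul Γ X] [TopologicalSpace B] [CompactSpace B] [T2Space B] [MulAction Γ B]
  [ContinuousConstSMul Γ B] [MeasurableSpace B] [BorelSpace B] {L : Leaf Γ X B}
  {S : Sm L} {G : Type} [NormedAddCommGroup G] [NormedSpace ℝ G] [FiniteDimensional ℝ G]

/-- MODEL -/
theorem toModel (h : Basic S) (A : Alg S G) (hm : A.MomEq) (htr : A.Trans) (hi : IC L)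
    (ht : A.Transport) : A.ToModel := fun _ _ _ _ _ hc => by
  choose v hv using Md.all_car h.toBasic0 htr ht hc
  exact ⟨v, hv, Md.v_smooth hv, fun k hk x u hu => Md.v_der hi ht hv hk x hu,
    Md.v_inj h.toBasic0 hm hv, fun P hP h1 => Md.v_surj h.toBasic0 hm hi ht hv hP h1⟩

/-- ALPHA -/
theorem toAl (h : Basic S) (A : Alg S G) (_hm : A.MomEq) (htr : A.Trans) (hi : IC L)
    (ht : A.Transport) : A.ToAl := fun lam θ v hv => by
  obtain ⟨x₀⟩ := L.nonempty
  choose Y hY using hv.car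
  obtain ⟨N, hN, hNe⟩ := Md.gram (A := A) (hY (L.em x₀)).toFrame
  have hh := S.A.h_pos
  have hl : 0 < Real.sqrt (∏ i, lam i) :=
    Real.sqrt_pos.2 (Finset.prod_pos fun i _ => (hY (L.em x₀)).lam_pos i)
  have h1 : ∀ x, ∀ u ∈ ball (0 : E2) 3, ∀ v' Y', A.Car lam θ (L.e x u) v' Y' →
      |vdet fun i => A.c (θ (Y' i)) x u| = Real.sqrt (N x u) := fun x u hu v' Y' hc => by
    rw [hNe x u hu v' Y' hc, Real.sqrt_sq_eq_abs]
  have h2 : ∀ x, ∀ u ∈ ball (0 : E2) 3, 0 < N x u := fun x u hu => by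
    rw [hNe x u hu _ _ (hY _)]
    exact sq_pos_of_ne_zero ((hY _).vdet_ne htr hu rfl)
  obtain ⟨al, hal⟩ : ∃ al : B → ℝ, ∀ ξ, al ξ =
      S.A.h⁻¹ * Real.log ((A.vol ξ fun i => θ (Y ξ i)) / Real.sqrt (∏ i, lam i)) :=
    ⟨_, fun _ => rfl⟩
  have h3 : ∀ x, ∀ u ∈ ball (0 : E2) 3, al (L.e x u) =
      S.A.h⁻¹ * Real.log (S.rho x u * Real.sqrt (N x u) / Real.sqrt (∏ i, lam i)) :=
    fun x u hu => by rw [hal, ht.vol_eq _ x u hu, h1 x u hu _ _ (hY _)]
  have h4 : ∀ x, ∀ u ∈ ball (0 : E2) 3,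
      0 < S.rho x u * Real.sqrt (N x u) / Real.sqrt (∏ i, lam i) := fun x u hu =>
    div_pos (mul_pos (h.rho_pos x u hu) (Real.sqrt_pos.2 (h2 x u hu))) hl
  have heq : ∀ Y' x, ∀ u ∈ ball (0 : E2) 3, A.Car lam θ (L.e x u) (v (L.e x u)) Y' →
      Real.exp (S.A.h * al (L.e x u)) * Real.sqrt (∏ i, lam i) =
        S.rho x u * |vdet fun i => A.c (θ (Y' i)) x u| := fun Y' x u hu hc => by
    rw [h3 x u hu, mul_inv_cancel_left₀ hh.ne', Real.exp_log (h4 x u hu), h1 x u hu _ _ hc,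
      div_mul_cancel₀ _ hl.ne']
  have hs : IsFn L al := fun x => by
    refine ContDiffOn.congr (contDiffOn_const.mul (ContDiffOn.log (ContDiffOn.div_const
      (ContDiffOn.mul ?_ ((hN x).sqrt fun u hu => (h2 x u hu).ne')) _)
      fun u hu => (h4 x u hu).ne')) (h3 x)
    exact (h.rho_jc.smooth x).mono fun u hu => ⟨trivial, hu⟩
  refine ⟨al, heq, hs, fun Z x u hu => ?_, Md.h_sum h htr (hY (L.em x₀))⟩
  have hc := hY (L.e x u)
  obtain ⟨k, hk, hZ⟩ := hc.k_dec Z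
  obtain ⟨γ, g, h0, hγ, hg⟩ := A.exists_curve hi k (L.e x u)
  have h5 : ∀ t, Real.exp (S.A.h * al (γ t)) * Real.sqrt (∏ i, lam i) =
      A.vol (γ t) fun i => g t (θ (Y (L.e x u) i)) := fun t => by
    have h6 := hc.flow_k ht continuous_const (fun _ => hk) hγ h0 hg t
    rw [← h6.uniq (hY (γ t)), ← Tr.e_fr h.toBasic0 (γ t)] at h6
    have h7 := heq _ _ 0 zero_mem3 h6
    rw [Tr.e_fr h.toBasic0] at h7
    simp only [h7, Alg.vol, hg.comm continuous_const hc.aut fun _ => hk]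
  have h6 := ht.vol (fun _ => k) (fun t i => g t (θ (Y (L.e x u) i))) γ continuous_const
    (fun i t => hg.der _ t) hγ 0
  rw [← funext h5, ← h5] at h6
  have h7 := ((((drv_deriv hs hγ hu h0).const_mul S.A.h).exp).mul_const
    (Real.sqrt (∏ i, lam i))).unique h6
  have h8 : fderiv ℝ (fun w => al (L.e x w)) u (A.c k x u) = A.f k (L.e x u) := by
    have h9 := Real.exp_pos (S.A.h * al (γ 0))
    rw [← h0]
    refine mul_left_cancel₀ (mul_pos (mul_pos hh h9) hl).ne' ?_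
    linarith
  have h9 : A.c Z x u = A.c k x u := by
    have := hZ x u hu rfl
    rwa [← A.cl_apply, map_sub, sub_eq_zero] at this
  have h10 := hc.f_stab _ hZ
  rw [← A.fl_apply, map_sub, LA.ip_sub_right, hc.ip_pk hc.neg hk, A.fl_apply, A.fl_apply] at h10
  rw [h9, h8]
  linarith

end Vale.Agent.P207Z.SC
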