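import Vale.Agent.P207Z.Sm.Sk
import Vale.Agent.P207Z.Sm.Polar.Lie
import Vale.Agent.P207Z.Sm.Polar.Cone

/-!
# POLAR: the boundary measure and the round measure
-/

open Set Filter Topology Metric MeasureTheory
open scoped ContDiff ENNReal

set_option linter.unusedSectionVars false

noncomputable section

namespace Vale.Agent.P207Z.SC

open Vale.Agent.P207.N4 Vale.Agent.P207.N3

variable [Dim]

variable {Γ X B : Type} [Group Γ] [MetricSpace X] [ProperSpace X] [MulAction Γ X]
  [IsIsometricSMul Γ X] [TopologicalSpace B] [CompactSpace B] [T2Space B] [MulAction Γ B]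
  [ContinuousConstSMul Γ B] [MeasurableSpace B] [BorelSpace B] {L : Leaf Γ X B}

variable {S : Sm L} {G : Type} [NormedAddCommGroup G] [NormedSpace ℝ G] [FiniteDimensional ℝ G]

namespace Pol

theorem zero_mem : (0 : E2) ∈ ball (0 : E2) 3 := mem_ball_self (by norm_num)

/-- smooth functions are continuous -/
theorem isFn_cont (h : Basic0 S) {V : Type} [NormedAddCommGroup V] [NormedSpace ℝ V] {f : B → V}
    (hf : IsFn L f) : Continuous f := by
  rw [continuous_iff_continuousAt]
  intro ξ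
  have h1 : L.e (fr L ξ) 0 = ξ := by rw [L.e_zero, h.ep_fr]
  have h2 := (hf (fr L ξ)).continuousOn.continuousAt (isOpen_ball.mem_nhds zero_mem)
  rw [ContinuousAt, ← h1, ← h.nhds _ _ zero_mem, tendsto_map'_iff]
  exact h2

theorem e_contOn (x : X) : ContinuousOn (L.e x) (ball 0 3) :=
  L.e_cont.comp (f := fun u : E2 => (x, u)) (by fun_prop)
    fun _ hu => ⟨mem_univ _, ball_subset_closedBall hu⟩

theorem rho_contOn (h : Basic0 S) (x : X) : ContinuousOn (S.rho x) (ball 0 3) :=
  (h.rho_jc.smooth x).continuousOn.mono fun _ hu => ⟨mem_univ _, hu⟩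

theorem isOpen_disc (x : X) : IsOpen (L.e x '' ball 0 3) :=
  L.e_open.preimage (f := fun ξ : B => (x, ξ)) (by fun_prop)

/-- integrals in a chart -/
theorem lintegral_chart (h : Basic0 S) (x : X) {U : Set E2} (hU : MeasurableSet U)
    (hU' : U ⊆ ball 0 3) {f : B → ℝ≥0∞} (hf : Measurable f) :
    ∫⁻ ξ in L.e x '' U, f ξ ∂S.A.ν = ∫⁻ u in U, ENNReal.ofReal (S.rho x u) * f (L.e x u) := by
  classical
  set e' : E2 → B := (ball (0 : E2) 3).piecewise (L.e x) fun _ => L.e x 0 with he'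
  have hm : Measurable e' :=
    (e_contOn x).measurable_piecewise continuousOn_const measurableSet_ball
  have hee : ∀ u ∈ U, e' u = L.e x u := fun u hu => piecewise_eq_of_mem _ _ _ (hU' hu)
  have h1 : S.A.ν.restrict (L.e x '' U) =
      ((volume.restrict U).withDensity fun u => ENNReal.ofReal (S.rho x u)).map e' := by
    ext t ht
    rw [Measure.restrict_apply ht, Measure.map_apply hm ht, withDensity_apply _ (hm ht),
      Measure.restrict_restrict (hm ht), ← h.rho_nu x _ ((hm ht).inter hU)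
        (inter_subset_right.trans hU')]
    congr 1
    ext ξ
    constructor
    · rintro ⟨h1, u, hu, rfl⟩
      exact ⟨u, ⟨by rwa [mem_preimage, hee u hu], hu⟩, rfl⟩
    · rintro ⟨u, ⟨h1, hu⟩, rfl⟩
      exact ⟨by rwa [mem_preimage, hee u hu] at h1, u, hu, rfl⟩
  have h2 : AEMeasurable (fun u => ENNReal.ofReal (S.rho x u)) (volume.restrict U) :=
    (((rho_contOn h x).mono hU').aemeasurable hU).ennreal_ofReal
  rw [h1, lintegral_map hf hm,
    lintegral_withDensity_eq_lintegral_mul₀ (g := fun u => f (e' u)) h2 (hf.comp hm).aemeasurable]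
  refine setLIntegral_congr_fun hU fun u hu => ?_
  simp only [Pi.mul_apply, hee u hu]

/-- measures which agree in all charts are equal -/
theorem ext_chart (h : Basic0 S) {μ μ' : Measure B}
    (he : ∀ x (U : Set E2), MeasurableSet U → U ⊆ ball 0 3 → MeasurableSet (L.e x '' U) →
      μ (L.e x '' U) = μ' (L.e x '' U)) : μ = μ' := by
  classical
  obtain ⟨T, hT⟩ := isCompact_univ.elim_finite_subcover (fun x : X => L.e x '' ball 0 3)
    isOpen_disc fun ξ _ => mem_iUnion.2 ⟨fr L ξ, 0, zero_mem, by rw [L.e_zero, h.ep_fr]⟩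
  refine Measure.ext_of_biUnion_eq_univ (S := (T : Set X)) (s := fun x : X => L.e x '' ball 0 3)
    T.countable_toSet (univ_subset_iff.1 hT) fun x _ => ?_
  ext t ht
  set e' : E2 → B := (ball (0 : E2) 3).piecewise (L.e x) fun _ => L.e x 0 with he'
  have hm : Measurable e' :=
    (e_contOn x).measurable_piecewise continuousOn_const measurableSet_ball
  have hee : ∀ u ∈ ball (0 : E2) 3, e' u = L.e x u := fun u hu => piecewise_eq_of_mem _ _ _ hu
  have h1 : t ∩ L.e x '' ball 0 3 = L.e x '' (e' ⁻¹' t ∩ ball 0 3) := by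
    ext ξ
    constructor
    · rintro ⟨h1, u, hu, rfl⟩
      exact ⟨u, ⟨by rwa [mem_preimage, hee u hu], hu⟩, rfl⟩
    · rintro ⟨u, ⟨h1, hu⟩, rfl⟩
      exact ⟨by rwa [mem_preimage, hee u hu] at h1, u, hu, rfl⟩
  have h2 := ht.inter (isOpen_disc (L := L) x).measurableSet
  rw [Measure.restrict_apply ht, Measure.restrict_apply ht]
  rw [h1] at h2 ⊢
  exact he x _ ((hm ht).inter measurableSet_ball) inter_subset_right h2

theorem prod_sqrt {n : ℕ} {lam : Fin n → ℝ} (h : ∀ i, 0 < lam i) :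
    ∏ i, Real.sqrt 2 * lam i = Real.sqrt (∏ i, 2 * lam i) * Real.sqrt (∏ i, lam i) := by
  have h1 : 0 ≤ ∏ i, 2 * lam i := Finset.prod_nonneg fun i _ => by have := h i; positivity
  have h2 : 0 ≤ ∏ i, Real.sqrt 2 * lam i :=
    Finset.prod_nonneg fun i _ => by have := h i; positivity
  rw [← Real.sqrt_mul h1, ← Finset.prod_mul_distrib, ← Real.sqrt_sq h2, ← Finset.prod_pow]
  congr 1
  refine Finset.prod_congr rfl fun i _ => ?_
  rw [mul_pow, Real.sq_sqrt (by norm_num)]
  ring

/-- the Jacobian -/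
theorem jac (h : Basic0 S) {A : Alg S G} {lam : Fin Dim.m → ℝ} {θ : G ≃L[ℝ] G} {v : B → G}
    {al : B → ℝ} (hM : A.Model lam θ v) (hal : A.IsAl lam θ v al) {j : G →L[ℝ] E3}
    (hj : ∀ Z Z', θ Z = -Z → θ Z' = -Z' → inner ℝ (j Z) (j Z') = A.ip lam θ Z Z')
    (x : X) {u : E2} (hu : u ∈ ball (0 : E2) 3) :
    |(cj (j (v (L.e x u))) (j ∘L fderiv ℝ (fun w => v (L.e x w)) u)).det| =
      S.rho x u * (Real.sqrt (∏ i, 2 * lam i) * Real.exp (-S.A.h * al (L.e x u))) := by
  obtain ⟨Y, hY⟩ := hM.car (L.e x u)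
  have hF := hY.toFrame
  obtain ⟨b, hb⟩ := exists_onb hF hj
  have h2 : Real.sqrt 2 ≠ 0 := by positivity
  have h1 : ∀ i, (j ∘L fderiv ℝ (fun w => v (L.e x w)) u) (A.c (θ (Y i)) x u) =
      (Real.sqrt 2 * lam i) • b i.succ := by
    intro i
    have a1 : A.c (Y i) x u = 0 :=
      (hY.stab (Y i)).2 (fun i' => ip_Y_theta hF i i') x u hu rfl
    have a2 := hM.der (Y i + θ (Y i)) (by rw [map_add, hF.inv, add_comm]) x u hu
    rw [map_add, Pi.add_apply, Pi.add_apply, a1, zero_add, map_add, hF.eig, eig_theta hF] at a2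
    rw [ContinuousLinearMap.comp_apply, a2, hb, ← map_smul j]
    refine congrArg j ?_
    simp only [pb, Fin.cons_succ, smul_smul]
    rw [mul_comm (Real.sqrt 2), mul_assoc, mul_inv_cancel₀ h2]
    module
  have h3 := det_cj (j (v (L.e x u))) (j ∘L fderiv ℝ (fun w => v (L.e x w)) u)
    fun i => A.c (θ (Y i)) x u
  have h4 : j (v (L.e x u)) = b 0 := (hb 0).symm
  have h5 : |(eb (Dim.m + 1)).det b| = 1 :=
    (EuclideanSpace.basisFun (Fin (Dim.m + 1)) ℝ).det_to_matrix_orthonormalBasis b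
  have h6 : 0 ≤ ∏ i, Real.sqrt 2 * lam i :=
    Finset.prod_nonneg fun i _ => by have := hF.lam_pos i; positivity
  simp only [h1] at h3
  rw [h4, det_scale, ← h4] at h3
  have h7 := congrArg abs h3
  rw [abs_mul, abs_mul, h5, mul_one, abs_of_nonneg h6, prod_sqrt hF.lam_pos] at h7
  have h8 := hal.eq Y x u hu hY
  have h9 : 0 < Real.sqrt (∏ i, lam i) :=
    Real.sqrt_pos.2 (Finset.prod_pos fun i _ => hF.lam_pos i)
  have h10 := h.rho_pos x u hu
  have h11 : Real.exp (-S.A.h * al (L.e x u)) * Real.exp (S.A.h * al (L.e x u)) = 1 := by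
    rw [← Real.exp_add]
    simp
  have h12 : 0 < |vdet fun i => A.c (θ (Y i)) x u| := by
    have : 0 < S.rho x u * |vdet fun i => A.c (θ (Y i)) x u| := by
      rw [← h8]
      positivity
    exact pos_of_mul_pos_left (by rwa [mul_comm] at this) h10.le
  refine mul_right_cancel₀ h12.ne' ?_
  refine h7.trans ?_
  linear_combination (Real.sqrt (∏ i, 2 * lam i) * Real.exp (-S.A.h * al (L.e x u))) * h8 -
    Real.sqrt (∏ i, 2 * lam i) * Real.sqrt (∏ i, lam i) * h11

end Pol

open Pol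

set_option linter.unusedVariables false in
theorem polar (h : Basic S) (A : Alg S G) (htr : A.Trans) : A.Polar := by
  intro lam θ v al hM hal
  obtain ⟨x₀⟩ := L.nonempty
  obtain ⟨Y₀, hY₀⟩ := hM.car (L.ep x₀)
  have hF := hY₀.toFrame
  refine ⟨exists_j hF, fun j hj => ?_⟩
  have hneg : ∀ ξ, θ (v ξ) = -v ξ := fun ξ => (hM.car ξ).choose_spec.neg
  have hnorm : ∀ ξ, ‖j (v ξ)‖ = 1 := fun ξ => by
    have := hj _ _ (hneg ξ) (hneg ξ)
    rw [(hM.car ξ).choose_spec.unit, real_inner_self_eq_norm_sq] at this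
    exact (sq_eq_sq₀ (norm_nonneg _) zero_le_one).1 (by rw [this, one_pow])
  have hinj : Function.Injective fun ξ => j (v ξ) := by
    intro ξ η e
    refine hM.inj (sub_eq_zero.1 (j_inj hF hj ?_ ?_))
    · rw [map_sub, hneg, hneg]
      abel
    · rw [map_sub]
      exact sub_eq_zero.2 e
  let w₀ : B → sphere (0 : E3) 1 := fun ξ => ⟨j (v ξ), mem_sphere_zero_iff_norm.2 (hnorm ξ)⟩
  have hbij : Function.Bijective w₀ := by
    refine ⟨fun ξ η e => hinj (congrArg Subtype.val e), fun y => ?_⟩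
    obtain ⟨Z, hZ, e⟩ := j_surj hF hj y.1
    obtain ⟨ξ, rfl⟩ := hM.surj Z hZ (by
      rw [← hj _ _ hZ hZ, e, real_inner_self_eq_norm_sq, mem_sphere_zero_iff_norm.1 y.2, one_pow])
    exact ⟨ξ, Subtype.ext e⟩
  have hc : Continuous (Equiv.ofBijective w₀ hbij) :=
    (j.continuous.comp (isFn_cont h.toBasic0 hM.smooth)).subtype_mk _
  let w : B ≃ₜ sphere (0 : E3) 1 := hc.homeoOfEquivCompactToT2
  have hw : ∀ ξ, (w ξ : E3) = j (v ξ) := fun _ => rfl
  refine ⟨w, hw, ?_⟩
  have hf : Measurable fun ξ =>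
      ENNReal.ofReal (Real.sqrt (∏ i, 2 * lam i) * Real.exp (-S.A.h * al ξ)) := by
    have := isFn_cont h.toBasic0 hal.smooth
    exact Measurable.ennreal_ofReal (Continuous.measurable (by fun_prop))
  refine MeasurePreserving.symm w.symm.toMeasurableEquiv ⟨w.symm.measurable, ?_⟩
  refine ext_chart h.toBasic0 fun x U hU hU' hm => ?_
  have hv : ∀ u ∈ U, HasFDerivAt (fun w => j (v (L.e x w)))
      (j ∘L fderiv ℝ (fun w => v (L.e x w)) u) u := fun u hu =>
    j.hasFDerivAt.comp u (((hM.smooth x).contDiffAt (isOpen_ball.mem_nhds (hU' hu))).differentiableAt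
      (by simp)).hasFDerivAt
  have hJ : AEMeasurable (fun u => ENNReal.ofReal (S.rho x u) *
      ENNReal.ofReal (Real.sqrt (∏ i, 2 * lam i) * Real.exp (-S.A.h * al (L.e x u))))
      (volume.restrict U) :=
    (((rho_contOn h.toBasic0 x).mono hU').aemeasurable hU).ennreal_ofReal.mul
      (hf.comp_aemeasurable (((e_contOn x).mono hU').aemeasurable hU))
  rw [withDensity_apply _ hm, lintegral_chart h.toBasic0 x hU hU' hf,
    Measure.map_apply w.symm.toMeasurableEquiv.measurable hm]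
  refine cone hU hv (fun u hu u' hu' e => L.e_inj x (ball_subset_closedBall (hU' hu))
    (ball_subset_closedBall (hU' hu')) (hinj e)) (fun u _ => hnorm _) hJ (fun u hu => ?_)
    (w.symm.toMeasurableEquiv.measurable hm) ?_
  · rw [jac h.toBasic0 hM hal hj x (hU' hu), ENNReal.ofReal_mul (h.rho_pos x u (hU' hu)).le]
  · ext y
    constructor
    · rintro ⟨y, ⟨u, hu, e⟩, rfl⟩
      refine ⟨u, hu, ?_⟩
      change j (v (L.e x u)) = y
      rw [← hw, e]
      exact congrArg Subtype.val (w.apply_symm_apply y)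
    · rintro ⟨u, hu, rfl⟩
      exact ⟨w (L.e x u), ⟨u, hu, (w.symm_apply_apply _).symm⟩, rfl⟩

end Vale.Agent.P207Z.SC
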