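import Vale.Agent.P207Z.Sm.Trans.IC
import Vale.Agent.P207Z.Sm.Trans.Cal

/-!
# P207, the smooth case: transport along driven curves
-/

open Set Filter Topology Metric MeasureTheory
open scoped ContDiff NNReal

noncomputable section

namespace Vale.Agent.P207Z.SC

open Vale.Agent.P207.N4 Vale.Agent.P207.N3

variable [Dim]

variable {Γ X B : Type} [Group Γ] [MetricSpace X] [ProperSpace X] [MulAction Γ X]
  [IsIsometricSMul Γ X] [TopologicalSpace B] [CompactSpace B] [T2Space B] [MulAction Γ B]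
  [ContinuousConstSMul Γ B] [MeasurableSpace B] [BorelSpace B] {L : Leaf Γ X B} {S : Sm L}
  {G : Type} [NormedAddCommGroup G] [NormedSpace ℝ G]

namespace Tr

/-- the fields in one chart -/
def Tc (A : Alg S G) (x : X) : G →ₗ[ℝ] E2 → E2 := (LinearMap.proj x).comp A.c

/-- the functions in one chart -/
def Tf (A : Alg S G) (x : X) : G →ₗ[ℝ] E2 → ℝ := (LinearMap.funLeft ℝ ℝ (L.e x)).comp A.f

/-- the moment map in two charts -/
def Tm (A : Alg S G) (x y : X) : G →ₗ[ℝ] E2 × E2 → ℝ where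
  toFun := A.mm x y
  map_add' a b := by
    funext z
    simp only [Alg.mm, Alg.mom, map_add, Pi.add_apply]
    ring
  map_smul' r a := by
    funext z
    simp only [Alg.mm, Alg.mom, map_smul, Pi.smul_apply, smul_eq_mul, RingHom.id_apply]
    ring

theorem c_smooth (A : Alg S G) (a : G) (x : X) {u : E2} (hu : u ∈ ball (0 : E2) 3) :
    ContDiffAt ℝ ∞ (A.c a x) u := ((A.kill a).1.1 x).contDiffAt (isOpen_ball.mem_nhds hu)

theorem f_smooth (A : Alg S G) (a : G) (x : X) {u : E2} (hu : u ∈ ball (0 : E2) 3) :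
    ContDiffAt ℝ ∞ (fun w => A.f a (L.e x w)) u :=
  ((A.kill a).2.1 x).contDiffAt (isOpen_ball.mem_nhds hu)

theorem van_iff (A : Alg S G) {ξ : B} {x : X} (hx : ξ ∈ L.e x '' ball 0 3) (Z : G) :
    A.Van ξ Z ↔ A.c Z x (ch L x ξ) = 0 :=
  ⟨fun h => h x _ (ch_mem hx) (e_ch hx), zero_of_chart (A.kill Z).1 hx⟩

theorem isOpen_Od (S : Sm L) (x y : X) : IsOpen (Od L x y) := isOpen_slice S.f_jc.isOpen (x, y)

omit [MeasurableSpace B] [BorelSpace B] in
theorem mem_Od {x y : X} {ξ η : B} (hx : ξ ∈ L.e x '' ball 0 3) (hy : η ∈ L.e y '' ball 0 3)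
    (h : ξ ≠ η) : (ch L x ξ, ch L y η) ∈ Od L x y :=
  ⟨ch_mem hx, ch_mem hy, by rwa [e_ch hx, e_ch hy]⟩

theorem vol_eq (h : Basic0 S) (A : Alg S G) (W : Fin Dim.m → G) (x : X) {u : E2}
    (hu : u ∈ ball (0 : E2) 3) :
    A.vol (L.e x u) W = S.rho x u * |vdet fun i => A.c (W i) x u| := by
  have h1 : u ∈ L.dm x (fr L (L.e x u)) := ⟨hu, mem_fr h _⟩
  have h2 : L.τ x (fr L (L.e x u)) u = 0 := ch_fr h _
  have h3 : (fun i => A.c (W i) (fr L (L.e x u)) 0) =
      fun i => fderiv ℝ (L.τ x (fr L (L.e x u))) u (A.c (W i) x u) :=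
    funext fun i => by rw [← (A.kill (W i)).1.2 x _ u h1, h2]
  rw [Alg.vol, h3, vdet_comp, h.rho_trans x _ u h1, h2, abs_mul]
  ring

theorem D_deriv (A : Alg S G) {k : G} {γ γ' : ℝ → B} {t : ℝ} (h : Basic0 S)
    (h1 : DrvAt L (A.c k) γ t) (h2 : DrvAt L (A.c k) γ' t) (hne : γ t ≠ γ' t) :
    HasDerivAt (fun s => S.A.D (γ s) (γ' s)) (A.f k (γ t) + A.f k (γ' t)) t := by
  have hx := mem_fr h (γ t)
  have hy := mem_fr h (γ' t)
  have hz := mem_Od hx hy hne
  have hF := S.f_jc.differentiableAt (p := ((fr L (γ t), fr L (γ' t)), _)) hz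
  have h3 := hF.hasFDerivAt.comp_hasDerivAt t ((h1.2 _ hx).prodMk (h2.2 _ hy))
  have h4 := (A.kill k).2.2 _ _ _ hz
  rw [fderiv_prod hF] at h3
  simp only [err, e_ch hx, e_ch hy] at h4
  refine (h3.congr_deriv (by linarith)).congr_of_eventuallyEq ?_
  filter_upwards [h1.ev_mem hx, h2.ev_mem hy] with s a b
  simp only [Function.comp, FF, e_ch a, e_ch b]

variable [FiniteDimensional ℝ G]

theorem c_deriv (A : Alg S G) {k : G} {Y : ℝ → G} {γ : ℝ → B} {t : ℝ} {x : X}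
    (h : DrvAt L (A.c k) γ t) (hx : γ t ∈ L.e x '' ball 0 3)
    (hY : HasDerivAt Y (-A.br k (Y t)) t) :
    HasDerivAt (fun s => A.c (Y s) x (ch L x (γ s)))
      (fderiv ℝ (A.c k x) (ch L x (γ t)) (A.c (Y t) x (ch L x (γ t)))) t := by
  refine (lin_deriv (Tc A x) (p := fun s => ch L x (γ s))
    (fun a => (c_smooth A a x (ch_mem hx)).differentiableAt (by simp)) hY (h.2 x hx)).congr_deriv ?_
  change A.c (-A.br k (Y t)) x _ + fderiv ℝ (A.c (Y t) x) _ _ = _
  rw [map_neg, Pi.neg_apply, Pi.neg_apply, A.c_br k (Y t) x _ (ch_mem hx), VectorField.lieBracket]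
  abel

theorem f_deriv (A : Alg S G) {k : G} {Y : ℝ → G} {γ : ℝ → B} {t : ℝ} {x : X}
    (h : DrvAt L (A.c k) γ t) (hx : γ t ∈ L.e x '' ball 0 3)
    (hY : HasDerivAt Y (-A.br k (Y t)) t) :
    HasDerivAt (fun s => A.f (Y s) (γ s))
      (fderiv ℝ (fun w => A.f k (L.e x w)) (ch L x (γ t)) (A.c (Y t) x (ch L x (γ t)))) t := by
  refine ((lin_deriv (Tf A x) (p := fun s => ch L x (γ s))
    (fun a => (f_smooth A a x (ch_mem hx)).differentiableAt (by simp)) hY
    (h.2 x hx)).congr_deriv ?_).congr_of_eventuallyEq ((h.ev_mem hx).mono fun s hs => ?_)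
  · change A.f (-A.br k (Y t)) (L.e x _) + fderiv ℝ (fun w => A.f (Y t) (L.e x w)) _ _ = _
    rw [map_neg, Pi.neg_apply, A.f_br k (Y t) x _ (ch_mem hx)]
    abel
  · change A.f (Y s) (γ s) = A.f (Y s) (L.e x (ch L x (γ s)))
    rw [e_ch hs]

theorem mom_deriv (A : Alg S G) (hm : A.MomEq) {k : G} {Y : ℝ → G} {γ γ' : ℝ → B} {t : ℝ}
    (h : Basic0 S) (h1 : DrvAt L (A.c k) γ t) (h2 : DrvAt L (A.c k) γ' t) (hne : γ t ≠ γ' t)
    (hY : HasDerivAt Y (-A.br k (Y t)) t) :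
    HasDerivAt (fun s => A.mom (γ s) (γ' s) (Y s)) 0 t := by
  have hx := mem_fr h (γ t)
  have hy := mem_fr h (γ' t)
  have hz := mem_Od hx hy hne
  refine ((lin_deriv (Tm A (fr L (γ t)) (fr L (γ' t)))
    (p := fun s => (ch L (fr L (γ t)) (γ s), ch L (fr L (γ' t)) (γ' s)))
    (fun a => ((hm.smooth _ _ a).contDiffAt ((isOpen_Od S _ _).mem_nhds hz)).differentiableAt
      (by simp)) hY ((h1.2 _ hx).prodMk (h2.2 _ hy))).congr_deriv ?_).congr_of_eventuallyEq ?_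
  · rw [map_neg, Pi.neg_apply, neg_add_eq_zero]
    exact hm.br _ _ _ hz k (Y t)
  · filter_upwards [h1.ev_mem hx, h2.ev_mem hy] with s a b
    change _ = A.mom (L.e _ (ch L _ (γ s))) (L.e _ (ch L _ (γ' s))) (Y s)
    rw [e_ch a, e_ch b]

theorem c_lip (A : Alg S G) {k : ℝ → G} {t : ℝ} (hk : ContinuousAt k t) (x : X) {u : E2}
    (hu : u ∈ ball (0 : E2) 3) :
    ∃ K : ℝ≥0, ∃ W ∈ 𝓝 u, ∀ᶠ s in 𝓝 t, LipschitzOnWith K (A.c (k s) x) W := by
  obtain ⟨K, W, hW, hK⟩ := lin_lip (Tc A x)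
    (fun a => (c_smooth A a x hu).of_le (by exact_mod_cast le_top)) (k t)
  exact ⟨K, W, hW, hk.eventually hK⟩

theorem van_loc (h : Basic0 S) (A : Alg S G) {k Y : ℝ → G} {γ : ℝ → B} (hk : Continuous k)
    (hY : ∀ t, HasDerivAt Y (-A.br (k t) (Y t)) t) (hγ : Drv L (fun t => A.c (k t)) γ) (t : ℝ) :
    ∀ᶠ s in 𝓝 t, (A.Van (γ s) (Y s) ↔ A.Van (γ t) (Y t)) := by
  have hx := mem_fr h (γ t)
  have hd := drv_iff.1 hγ
  obtain ⟨K, W, hW, hK⟩ := c_lip A (hk.continuousAt (x := t)) (fr L (γ t)) (ch_mem hx)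
  have h1 := ((hd t).2 _ hx).continuousAt.eventually (eventually_eventually_nhds.2 hW)
  have h2 := lin_zero (W := fun s => A.c (Y s) (fr L (γ t)) (ch L (fr L (γ t)) (γ s)))
    (N := fun s => fderiv ℝ (A.c (k s) (fr L (γ t))) (ch L (fr L (γ t)) (γ s))) (t := t) (K := K)
    (by
      filter_upwards [hK, h1, (hd t).ev_mem hx] with s a b c using
        ⟨c_deriv A (hd s) c (hY s), norm_fderiv_le_of_lipschitzOn ℝ b a⟩)
  filter_upwards [h2, (hd t).ev_mem hx] with s a b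
  rw [van_iff A b, van_iff A hx]
  exact a

end Tr

variable [FiniteDimensional ℝ G]

/-- uniqueness of driven curves -/
theorem drv_unique (h : Basic0 S) (A : Alg S G) {k : ℝ → G} {γ γ' : ℝ → B} (hk : Continuous k)
    (h1 : Drv L (fun t => A.c (k t)) γ) (h2 : Drv L (fun t => A.c (k t)) γ') {t₀ : ℝ}
    (he : γ t₀ = γ' t₀) : γ = γ' := by
  funext t
  refine Tr.all_of_loc (P := fun t => γ t = γ' t) isPreconnected_univ (fun s _ e => ?_)
    (fun s _ e => tendsto_nhds_unique_of_frequently_eq h1.1.continuousAt h2.1.continuousAt e)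
    (mem_univ t₀) he t trivial
  have hx := Tr.mem_fr h (γ s)
  obtain ⟨K, W, hW, hK⟩ := Tr.c_lip A (hk.continuousAt (x := s)) (fr L (γ s)) (Tr.ch_mem hx)
  exact Tr.ev_eq (Eventually.of_forall (Tr.drv_iff.1 h1)) (Eventually.of_forall (Tr.drv_iff.1 h2))
    hx e hW hK

theorem transport (h : Basic S) (A : Alg S G) (hm : A.MomEq) : A.Transport := by
  have h0 := h.toBasic0
  refine ⟨fun k Y γ hk hY hγ hV => ?_, fun k γ γ' hk h1 h2 hne => ?_,
    fun W x u hu => Tr.vol_eq h0 A W x hu, fun k W γ _ hW hγ t => ?_⟩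
  · have key : ∀ t, A.Van (γ t) (Y t) := fun t =>
      Tr.all_of_loc (P := fun t => A.Van (γ t) (Y t)) isPreconnected_univ
        (fun s _ e => (Tr.van_loc h0 A hk hY hγ s).mono fun r hr => hr.2 e)
        (fun s _ e => by
          obtain ⟨r, a, b⟩ := (e.and_eventually (Tr.van_loc h0 A hk hY hγ s)).exists
          exact b.1 a) (mem_univ 0) hV t trivial
    have hd : ∀ t, HasDerivAt (fun s => A.f (Y s) (γ s)) 0 t := fun t => by
      have hx := Tr.mem_fr h0 (γ t)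
      have := Tr.f_deriv A (Tr.drv_iff.1 hγ t) hx (hY t)
      rwa [(Tr.van_iff A hx _).1 (key t), map_zero] at this
    exact fun t => ⟨key t, is_const_of_deriv_eq_zero (fun s => (hd s).differentiableAt)
      (fun s => (hd s).deriv) t 0⟩
  · have key : ∀ t, γ t ≠ γ' t := fun t e => hne (congrFun (drv_unique h0 A hk h1 h2 e) 0)
    refine fun t => ⟨key t, Tr.D_deriv A h0 (Tr.drv_iff.1 h1 t) (Tr.drv_iff.1 h2 t) (key t),
      fun Y hY => ?_⟩
    have hd := fun s =>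
      Tr.mom_deriv A hm h0 (Tr.drv_iff.1 h1 s) (Tr.drv_iff.1 h2 s) (key s) (hY s)
    exact is_const_of_deriv_eq_zero (fun s => (hd s).differentiableAt) (fun s => (hd s).deriv) t 0
  · have hx := Tr.mem_fr h0 (γ t)
    have hd := Tr.drv_iff.1 hγ t
    generalize fr L (γ t) = x at hx
    have hu := Tr.ch_mem hx
    have h1 := Tr.hasDerivAt_vdet (w := fun s i => A.c (W s i) x (ch L x (γ s)))
      fun i => Tr.c_deriv A (Y := fun s => W s i) hd hx (hW i t)
    have h2 := (h.rho_jc.hasFDerivAt (p := (x, ch L x (γ t))) ⟨trivial, hu⟩).comp_hasDerivAt t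
      (hd.2 x hx)
    have h3 := h.div _ _ (A.kill (k t)) x _ hu
    rw [Tr.e_ch hx] at h3
    have h4 : HasDerivAt
        (fun s => S.rho x (ch L x (γ s)) * vdet fun i => A.c (W s i) x (ch L x (γ s)))
        (S.A.h * A.f (k t) (γ t) *
          (S.rho x (ch L x (γ t)) * vdet fun i => A.c (W t i) x (ch L x (γ t)))) t := by
      refine (h2.mul h1).congr_deriv ?_
      rw [← mul_assoc (S.A.h * A.f (k t) (γ t)), ← h3]
      simp only [Function.comp]
      ring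
    have h5 : ∀ s, γ s ∈ L.e x '' ball 0 3 → A.vol (γ s) (W s) =
        |S.rho x (ch L x (γ s)) * vdet fun i => A.c (W s i) x (ch L x (γ s))| := fun s hs => by
      have := Tr.vol_eq h0 A (W s) x (Tr.ch_mem hs)
      rw [Tr.e_ch hs] at this
      rw [this, abs_mul, abs_of_pos (h.rho_pos x _ (Tr.ch_mem hs))]
    rw [h5 t hx]
    exact (Tr.hasDerivAt_abs_mul h4).congr_of_eventuallyEq ((hd.ev_mem hx).mono h5)

end Vale.Agent.P207Z.SC
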