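import Vale.Agent.P207Z.Sm.Basic0
import Vale.Agent.P207Z.Sm.Basic1
import Vale.Agent.P207Z.Sm.Alg
import Vale.Agent.P207Z.Sm.Trans
import Vale.Agent.P207Z.Sm.Levi
import Vale.Agent.P207Z.Sm.Cartan
import Vale.Agent.P207Z.Sm.Car0
import Vale.Agent.P207Z.Sm.Model
import Vale.Agent.P207Z.Sm.Polar
import Vale.Agent.P207Z.Sm.Mass
import Vale.Agent.P207Z.Sm.Expo

/-!
# P207, the smooth case, up to the existence of Killing fields
-/

open Set Filter Topology Metric MeasureTheory

noncomputable section

namespace Vale.Agent.P207Z.SC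

open Vale.Agent.P207.N4 Vale.Agent.P207.N3

variable [Dim]

variable {Γ X B : Type} [Group Γ] [MetricSpace X] [ProperSpace X] [MulAction Γ X]
  [IsIsometricSMul Γ X] [TopologicalSpace B] [CompactSpace B] [T2Space B] [MulAction Γ B]
  [ContinuousConstSMul Γ B] [MeasurableSpace B] [BorelSpace B] {L : Leaf Γ X B}

/-- the smooth case from the block KILL -/
theorem smOut_of_kill (S : Sm L)
    (hK : ∀ (n : ℕ) (A : Alg S (EuclideanSpace ℝ (Fin n))), Basic S → A.MomEq → A.Ad → IC L →
      A.Transport → A.Kill) : SmOut S := by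
  have h0 := basic0 S
  have h := basic S h0
  obtain ⟨n, ⟨A⟩⟩ := exists_alg h0
  have hm := momEq h0 A
  have had := alg_ad h0 A
  have hi := ic S h0
  have ht := transport h A hm
  have hk := hK n A h hm had hi ht
  have hM := toModel h A hm hk.1 hi ht
  have hA := toAl h A hm hk.1 hi ht
  exact smOut_of A (car0 h A hm hk (alg_diag h0 A hm) hi ht cartan skew) hM hA
    (massLe h A hm hk.1 hi ht hM hA (polar h A hk.1)) (expo h A hk.1 had levi)

end Vale.Agent.P207Z.SC
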