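import Vale.Agent.P207.N4.Top.Defs
import Vale.Agent.P207.N3.H862.JC

/-!
# P207, the smooth case: definitions

`Sm L`: the smooth boundary. `IsKill`: Killing pairs (vector field, function) of `D`.
`Alg`: the algebra of all Killing pairs. `Car`, `Model`, `IsAl`: the rank one model.
-/

open Set Filter Topology Metric MeasureTheory
open scoped ContDiff

noncomputable section

namespace Vale.Agent.P207Z.SC

open Vale.Agent.P207.N4 Vale.Agent.P207.N3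

/-! ### Local objects -/

section Loc

variable {W V : Type} [NormedAddCommGroup W] [NormedSpace ℝ W] [NormedAddCommGroup V]
  [NormedSpace ℝ V]

/-- smooth on an open neighbourhood -/
def SmAt (s : W → V) (z : W) : Prop := ∃ U, IsOpen U ∧ z ∈ U ∧ ContDiffOn ℝ ∞ s U

/-- all derivatives vanish at `z` -/
def Flat (G : W → V) (z : W) : Prop := ∀ k : ℕ, iteratedFDeriv ℝ k G z = 0

/-- derivative in the first slot -/
def d1 (F : W × W → ℝ) (z : W × W) : W →L[ℝ] ℝ := fderiv ℝ (fun a => F (a, z.2)) z.1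

/-- derivative in the second slot -/
def d2 (F : W × W → ℝ) (z : W × W) : W →L[ℝ] ℝ := fderiv ℝ (fun b => F (z.1, b)) z.2

/-- the mixed derivative: `mix F z w v`, `w` in the second slot, `v` in the first slot -/
def mix (F : W × W → ℝ) (z : W × W) : W →L[ℝ] W →L[ℝ] ℝ :=
  fderiv ℝ (fun b => fderiv ℝ (fun a => F (a, b)) z.1) z.2

/-- the error of the Killing equation -/
def err (F : W × W → ℝ) (c₁ : W → W) (f₁ : W → ℝ) (c₂ : W → W) (f₂ : W → ℝ) (z : W × W) : ℝ :=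
  d1 F z (c₁ z.1) + d2 F z (c₂ z.2) - f₁ z.1 - f₂ z.2

end Loc

/-! ### Lie algebras on normed spaces -/

/-- a Lie bracket -/
structure LA (G : Type) [NormedAddCommGroup G] [NormedSpace ℝ G] where
  br : G →L[ℝ] G →L[ℝ] G
  anti : ∀ a b, br a b = -br b a
  jac : ∀ a b c, br a (br b c) = br (br a b) c + br b (br a c)

namespace LA

variable {G : Type} [NormedAddCommGroup G] [NormedSpace ℝ G] (A : LA G)

/-- the Killing form -/
def kil (a b : G) : ℝ := LinearMap.trace ℝ G ((A.br a ∘L A.br b : G →L[ℝ] G) : G →ₗ[ℝ] G)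

/-- automorphisms -/
def IsAut (g : G ≃L[ℝ] G) : Prop := ∀ a b, g (A.br a b) = A.br (g a) (g b)

/-- the scalar product of an involution -/
def ip {n : ℕ} (lam : Fin n → ℝ) (θ : G ≃L[ℝ] G) (a b : G) : ℝ :=
  -A.kil a (θ b) / (2 * ∑ i, lam i ^ 2)

/-- a rank one frame: `θ` is a Cartan involution, `v` spans the split torus, `Y i` is an
orthonormal basis of the sum of the positive root spaces -/
structure Frame {n : ℕ} (lam : Fin n → ℝ) (θ : G ≃L[ℝ] G) (v : G) (Y : Fin n → G) : Prop where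
  aut : A.IsAut θ
  inv : ∀ Z, θ (θ Z) = Z
  pos : ∀ Z, Z ≠ 0 → 0 < A.ip lam θ Z Z
  lam_pos : ∀ i, 0 < lam i
  neg : θ v = -v
  unit : A.ip lam θ v v = 1
  eig : ∀ i, A.br v (Y i) = lam i • Y i
  on : ∀ i j, A.ip lam θ (Y i) (Y j) = if i = j then 1 else 0
  dec : ∀ Z, ∃ (Z₀ : G) (s t : Fin n → ℝ), A.br v Z₀ = 0 ∧
    Z = Z₀ + ∑ i, s i • Y i + ∑ i, t i • θ (Y i)
  zero : ∀ Z, A.br v Z = 0 → θ (Z - A.ip lam θ v Z • v) = Z - A.ip lam θ v Z • v

end LA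

/-! ### The smooth boundary -/

variable [Dim]

variable {Γ X B : Type} [Group Γ] [MetricSpace X] [ProperSpace X] [MulAction Γ X]
  [IsIsometricSMul Γ X] [TopologicalSpace B] [CompactSpace B] [T2Space B] [MulAction Γ B]
  [ContinuousConstSMul Γ B]

/-- `D` in two charts -/
def FF (L : Leaf Γ X B) (D : B → B → ℝ) (x y : X) (z : E2 × E2) : ℝ :=
  D (L.e x z.1) (L.e y z.2)

/-- pairs of different points in two charts -/
def Od (L : Leaf Γ X B) (x y : X) : Set (E2 × E2) :=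
  {z | z.1 ∈ ball (0 : E2) 3 ∧ z.2 ∈ ball (0 : E2) 3 ∧ L.e x z.1 ≠ L.e y z.2}

/-- determinant of a bilinear form -/
def mdet (T : E2 →L[ℝ] E2 →L[ℝ] ℝ) : ℝ :=
  (Matrix.of fun i j => T (EuclideanSpace.single i 1) (EuclideanSpace.single j 1)).det

/-- determinant of `m` vectors -/
def vdet (w : Fin Dim.m → E2) : ℝ := (Matrix.of fun i j => w i j).det

/-- the coordinate in the chart `e x` -/
def ch (L : Leaf Γ X B) (x : X) (ξ : B) : E2 :=
  Function.invFunOn (L.e x) (closedBall (0 : E2) 3) ξ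

/-- a frame which ends at `ξ` -/
def fr (L : Leaf Γ X B) (ξ : B) : X :=
  @Classical.epsilon X L.nonempty fun x => L.ep x = ξ

/-- smooth functions on the boundary -/
def IsFn (L : Leaf Γ X B) {V : Type} [NormedAddCommGroup V] [NormedSpace ℝ V] (f : B → V) :
    Prop := ∀ x, ContDiffOn ℝ ∞ (fun u => f (L.e x u)) (ball 0 3)

/-- smooth vector fields on the boundary, by their components in all charts -/
def IsVF (L : Leaf Γ X B) (c : X → E2 → E2) : Prop :=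
  (∀ x, ContDiffOn ℝ ∞ (c x) (ball 0 3)) ∧
    ∀ x y, ∀ u ∈ L.dm x y, c y (L.τ x y u) = fderiv ℝ (L.τ x y) u (c x u)

/-- the curve `γ` is driven by the fields `c t` -/
def Drv (L : Leaf Γ X B) (c : ℝ → X → E2 → E2) (γ : ℝ → B) : Prop :=
  Continuous γ ∧ ∀ t x, γ t ∈ L.e x '' ball 0 3 →
    HasDerivAt (fun s => ch L x (γ s)) (c t x (ch L x (γ t))) t

variable [MeasurableSpace B] [BorelSpace B]

/-- **the smooth boundary** -/
structure Sm (L : Leaf Γ X B) where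
  A : Area L
  tau_jc : JC (fun p : X × X => L.τ p.1 p.2) {q : (X × X) × E2 | q.2 ∈ L.dm q.1.1 q.1.2}
  f_jc : JC (fun p : X × X => FF L A.D p.1 p.2) {q : (X × X) × (E2 × E2) | q.2 ∈ Od L q.1.1 q.1.2}
  nd : ∀ x y, ∀ z ∈ Od L x y, Function.Injective (mix (FF L A.D x y) z)
  nonpos : ∀ ξ η, ξ ≠ η → A.D ξ η ≤ 0
  cal : ∃ x, |mdet (mix (FF L A.D (L.flip x) x) (0, 0))| = A.s x 0 * A.s (L.flip x) 0

variable {L : Leaf Γ X B}

/-- the density of `ν` in the chart `e x` -/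
def Sm.rho (S : Sm L) (x : X) (u : E2) : ℝ :=
  Real.exp (S.A.h * (S.A.D (L.em x) (L.e x u) - L.lv x)) * S.A.s x u

/-- Killing pairs -/
def IsKill (S : Sm L) (c : X → E2 → E2) (f : B → ℝ) : Prop :=
  IsVF L c ∧ IsFn L f ∧ ∀ x y, ∀ z ∈ Od L x y,
    err (FF L S.A.D x y) (c x) (fun u => f (L.e x u)) (c y) (fun u => f (L.e y u)) z = 0

/-- the algebra of all Killing pairs -/
structure Alg (S : Sm L) (G : Type) [NormedAddCommGroup G] [NormedSpace ℝ G] extends LA G where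
  c : G →ₗ[ℝ] X → E2 → E2
  f : G →ₗ[ℝ] B → ℝ
  kill : ∀ a, IsKill S (c a) (f a)
  c_br : ∀ a b x, ∀ u ∈ ball (0 : E2) 3,
    c (br a b) x u = VectorField.lieBracket ℝ (c a x) (c b x) u
  f_br : ∀ a b x, ∀ u ∈ ball (0 : E2) 3, f (br a b) (L.e x u) =
    fderiv ℝ (fun w => f b (L.e x w)) u (c a x u) - fderiv ℝ (fun w => f a (L.e x w)) u (c b x u)
  faith : ∀ a, (∀ x, ∀ u ∈ ball (0 : E2) 3, c a x u = 0) → a = 0
  full : ∀ c' f', IsKill S c' f' →
    ∃ a, (∀ x, ∀ u ∈ ball (0 : E2) 3, c a x u = c' x u) ∧ f a = f'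

namespace Alg

variable {S : Sm L} {G : Type} [NormedAddCommGroup G] [NormedSpace ℝ G] (A : Alg S G)

/-- the field `Z` vanishes at `ξ` -/
def Van (ξ : B) (Z : G) : Prop := ∀ x, ∀ u ∈ ball (0 : E2) 3, L.e x u = ξ → A.c Z x u = 0

/-- the moment map -/
def mom (ξ η : B) (Z : G) : ℝ :=
  A.f Z ξ - fderiv ℝ (fun a => S.A.D (L.e (fr L ξ) a) η) 0 (A.c Z (fr L ξ) 0)

/-- the algebra is transitive -/
def Trans : Prop := ∀ x, ∀ u ∈ ball (0 : E2) 3, Function.Surjective fun a => A.c a x u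

/-- the group acts on the algebra -/
def Ad : Prop := ∀ g : Γ, ∃ k : G ≃L[ℝ] G, A.IsAut k ∧
  ∀ a x, ∀ u ∈ ball (0 : E2) 3, A.c (k a) (g • x) u = A.c a x u

/-- a hyperbolic element with the fixed points `em x` (repelling) and `ep x` -/
def Hyp (x : X) (H : G) : Prop :=
  A.Van (L.em x) H ∧ A.Van (L.ep x) H ∧
    ∃ (b : Module.Basis (Fin Dim.m) ℝ E2) (r : Fin Dim.m → ℝ), (∀ i, 0 < r i) ∧
      ∀ i, fderiv ℝ (A.c H (L.flip x)) 0 (b i) = r i • b i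

/-- a rank one frame at the point `ξ` of the boundary -/
structure Car (lam : Fin Dim.m → ℝ) (θ : G ≃L[ℝ] G) (ξ : B) (v : G) (Y : Fin Dim.m → G) : Prop
    extends A.Frame lam θ v Y where
  stab : ∀ Z, A.Van ξ Z ↔ ∀ i, A.ip lam θ Z (θ (Y i)) = 0
  f_stab : ∀ Z, A.Van ξ Z → A.f Z ξ = A.ip lam θ v Z

/-- the model: frames at all points, `v` is a smooth bijection onto the unit sphere of `𝔭` -/
structure Model (lam : Fin Dim.m → ℝ) (θ : G ≃L[ℝ] G) (v : B → G) : Prop where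
  car : ∀ ξ, ∃ Y, A.Car lam θ ξ (v ξ) Y
  smooth : IsFn L v
  der : ∀ k, θ k = k → ∀ x, ∀ u ∈ ball (0 : E2) 3,
    fderiv ℝ (fun w => v (L.e x w)) u (A.c k x u) = A.br (v (L.e x u)) k
  inj : Function.Injective v
  surj : ∀ Z, θ Z = -Z → A.ip lam θ Z Z = 1 → ∃ ξ, v ξ = Z

/-- the function `α`: `ν = e^{h α} σ₀` -/
structure IsAl (lam : Fin Dim.m → ℝ) (θ : G ≃L[ℝ] G) (v : B → G) (al : B → ℝ) : Prop where
  eq : ∀ Y x, ∀ u ∈ ball (0 : E2) 3, A.Car lam θ (L.e x u) (v (L.e x u)) Y →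
    Real.exp (S.A.h * al (L.e x u)) * Real.sqrt (∏ i, lam i) =
      S.rho x u * |vdet fun i => A.c (θ (Y i)) x u|
  smooth : IsFn L al
  der : ∀ Z x, ∀ u ∈ ball (0 : E2) 3, fderiv ℝ (fun w => al (L.e x w)) u (A.c Z x u) =
    A.f Z (L.e x u) - A.ip lam θ (v (L.e x u)) Z
  sum : S.A.h = ∑ i, lam i

end Alg

/-- the basic facts about the smooth boundary, first part -/
structure Basic0 (S : Sm L) : Prop where
  symm : ∀ ξ η, ξ ≠ η → S.A.D ξ η = S.A.D η ξ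
  ep_fr : ∀ ξ, L.ep (fr L ξ) = ξ
  cocycle : ∀ g : Γ, ∃ c : B → ℝ, IsFn L c ∧
    ∀ ξ η, ξ ≠ η → S.A.D (g • ξ) (g • η) = S.A.D ξ η + c ξ + c η
  cont : ContinuousOn (fun p : B × B => S.A.D p.1 p.2) {p | p.1 ≠ p.2}
  proper : ∀ c : ℝ, IsCompact {p : B × B | p.1 ≠ p.2 ∧ c ≤ S.A.D p.1 p.2}
  conn : ∀ ξ : B, IsPreconnected ({ξ}ᶜ : Set B)
  nhds : ∀ x, ∀ u ∈ ball (0 : E2) 3, map (L.e x) (𝓝 u) = 𝓝 (L.e x u)
  rho_pos : ∀ x, ∀ u ∈ ball (0 : E2) 3, 0 < S.rho x u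
  rho_jc : JC S.rho (univ ×ˢ ball 0 3)
  rho_nu : ∀ x (U : Set E2), MeasurableSet U → U ⊆ ball 0 3 →
    S.A.ν (L.e x '' U) = ∫⁻ u in U, ENNReal.ofReal (S.rho x u)
  rho_trans : ∀ x y, ∀ u ∈ L.dm x y,
    S.rho x u = |(fderiv ℝ (L.τ x y) u).det| * S.rho y (L.τ x y u)

/-- the basic facts about the smooth boundary -/
structure Basic (S : Sm L) : Prop extends Basic0 S where
  /-- the Monge-Ampère equation -/
  ma : ∀ x y, ∀ z ∈ Od L x y, |mdet (mix (FF L S.A.D x y) z)| =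
    Real.exp (-S.A.h * FF L S.A.D x y z) * S.rho x z.1 * S.rho y z.2
  /-- the divergence of a Killing field -/
  div : ∀ c f, IsKill S c f → ∀ x, ∀ u ∈ ball (0 : E2) 3,
    fderiv ℝ (S.rho x) u (c x u) +
      S.rho x u * LinearMap.trace ℝ E2 (fderiv ℝ (c x) u : E2 →ₗ[ℝ] E2) =
      S.A.h * f (L.e x u) * S.rho x u

/-- the volume, for the measure `ν`, of `m` fields at the point `ξ` -/
def Alg.vol {S : Sm L} {G : Type} [NormedAddCommGroup G] [NormedSpace ℝ G] (A : Alg S G) (ξ : B)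
    (W : Fin Dim.m → G) : ℝ := S.rho (fr L ξ) 0 * |vdet fun i => A.c (W i) (fr L ξ) 0|

/-- transport along driven curves -/
structure Alg.Transport {S : Sm L} {G : Type} [NormedAddCommGroup G] [NormedSpace ℝ G]
    (A : Alg S G) : Prop where
  van : ∀ (k Y : ℝ → G) (γ : ℝ → B), Continuous k → (∀ t, HasDerivAt Y (-A.br (k t) (Y t)) t) →
    Drv L (fun t => A.c (k t)) γ → A.Van (γ 0) (Y 0) →
    ∀ t, A.Van (γ t) (Y t) ∧ A.f (Y t) (γ t) = A.f (Y 0) (γ 0)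
  two : ∀ (k : ℝ → G) (γ γ' : ℝ → B), Continuous k → Drv L (fun t => A.c (k t)) γ →
    Drv L (fun t => A.c (k t)) γ' → γ 0 ≠ γ' 0 → ∀ t, γ t ≠ γ' t ∧
      HasDerivAt (fun s => S.A.D (γ s) (γ' s)) (A.f (k t) (γ t) + A.f (k t) (γ' t)) t ∧
      ∀ Y : ℝ → G, (∀ t, HasDerivAt Y (-A.br (k t) (Y t)) t) →
        A.mom (γ t) (γ' t) (Y t) = A.mom (γ 0) (γ' 0) (Y 0)
  vol_eq : ∀ W x, ∀ u ∈ ball (0 : E2) 3,
    A.vol (L.e x u) W = S.rho x u * |vdet fun i => A.c (W i) x u|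
  vol : ∀ (k : ℝ → G) (W : ℝ → Fin Dim.m → G) (γ : ℝ → B), Continuous k →
    (∀ i t, HasDerivAt (fun s => W s i) (-A.br (k t) (W t i)) t) →
    Drv L (fun t => A.c (k t)) γ → ∀ t, HasDerivAt (fun s => A.vol (γ s) (W s))
      (S.A.h * A.f (k t) (γ t) * A.vol (γ t) (W t)) t

/-- growth of `k`-volumes at the rate `2 a k` -/
def Grow (L : Leaf Γ X B) (a : ℝ) (k : ℕ) : Prop :=
  ∃ c : ℝ, 0 < c ∧ ∀ x, ∀ t ≥ L.t1, ∃ w w' : Fin k → E2, Orthonormal ℝ w ∧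
    (∀ i, fderiv ℝ (L.τ (L.φ t x) x) 0 (w' i) = w i) ∧
    c * Real.exp (4 * a * k * t) ≤ (Matrix.of fun i j => inner ℝ (w' i) (w' j)).det

/-- **the output of the smooth case** -/
def SmOut (S : Sm L) : Prop := ∃ (a : ℝ) (k : ℕ), 0 < a ∧ k ≤ Dim.m ∧
  S.A.h = a * (Dim.m + k) ∧ Grow L a k ∧
  S.A.ν univ ≤ ENNReal.ofReal ((volume : Measure E3).toSphere.real univ /
    Real.sqrt ((2 * a) ^ (Dim.m - k) * (4 * a) ^ k))

end Vale.Agent.P207Z.SC
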