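import Vale.Agent.P207Z.Sm.Defs

/-!
# P207, the smooth case: local calculus for Killing pairs
-/

open Set Filter Topology Metric
open scoped ContDiff

noncomputable section

namespace Vale.Agent.P207Z.SC.AL

section Loc

variable {W V U : Type} [NormedAddCommGroup W] [NormedSpace ℝ W] [NormedAddCommGroup V]
  [NormedSpace ℝ V] [NormedAddCommGroup U] [NormedSpace ℝ U]

theorem ev_at {f : V → U} {z : V} {n : ℕ} (h : ContDiffAt ℝ n f z) :
    ∀ᶠ y in 𝓝 z, ContDiffAt ℝ n f y := h.eventually (by simp)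

theorem at_nat {f : V → U} {z : V} (h : ContDiffAt ℝ ∞ f z) (n : ℕ) : ContDiffAt ℝ n f z :=
  h.of_le (by exact_mod_cast le_top)

theorem diff_of {f : V → U} {z : V} {n : ℕ} (h : ContDiffAt ℝ (n + 1 : ℕ) f z) :
    DifferentiableAt ℝ f z := h.differentiableAt (by simp)

theorem at_fderiv {f : V → U} {z : V} {n : ℕ} (h : ContDiffAt ℝ (n + 1 : ℕ) f z) :
    ContDiffAt ℝ n (fderiv ℝ f) z := h.fderiv_right (by exact_mod_cast le_rfl)

theorem diff_fderiv {f : V → U} {z : V} (h : ContDiffAt ℝ (2 : ℕ) f z) :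
    DifferentiableAt ℝ (fderiv ℝ f) z := diff_of (n := 0) (at_fderiv h)

theorem symm2 {f : V → U} {z : V} (h : ContDiffAt ℝ (2 : ℕ) f z) (a b : V) :
    fderiv ℝ (fderiv ℝ f) z a b = fderiv ℝ (fderiv ℝ f) z b a :=
  (h.isSymmSndFDerivAt (by simp)).eq a b

/-- the derivative of the derivative of `m` along a field -/
theorem fderiv_lie {m : V → U} {X : V → V} {z : V} (hm : ContDiffAt ℝ (2 : ℕ) m z)
    (hX : DifferentiableAt ℝ X z) (a : V) :
    fderiv ℝ (fun y => fderiv ℝ m y (X y)) z a =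
      fderiv ℝ (fderiv ℝ m) z a (X z) + fderiv ℝ m z (fderiv ℝ X z a) := by
  rw [fderiv_clm_apply (diff_fderiv hm) hX]
  simp [add_comm]

theorem fderiv_eval {m : V → U} {z : V} (hm : ContDiffAt ℝ (2 : ℕ) m z) (a b : V) :
    fderiv ℝ (fun y => fderiv ℝ m y b) z a = fderiv ℝ (fderiv ℝ m) z a b := by
  rw [fderiv_lie hm (differentiableAt_const b)]
  simp

/-- related fields have related brackets -/
theorem lieBracket_rel {t : V → W} {X Y : V → V} {X' Y' : W → W} {u : V}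
    (ht : ContDiffAt ℝ (2 : ℕ) t u) (hX : DifferentiableAt ℝ X u) (hY : DifferentiableAt ℝ Y u)
    (hX' : DifferentiableAt ℝ X' (t u)) (hY' : DifferentiableAt ℝ Y' (t u))
    (eX : ∀ᶠ y in 𝓝 u, X' (t y) = fderiv ℝ t y (X y))
    (eY : ∀ᶠ y in 𝓝 u, Y' (t y) = fderiv ℝ t y (Y y)) :
    VectorField.lieBracket ℝ X' Y' (t u) = fderiv ℝ t u (VectorField.lieBracket ℝ X Y u) := by
  have hd : DifferentiableAt ℝ t u := diff_of (n := 1) ht
  have key : ∀ {Z : V → V} {Z' : W → W}, DifferentiableAt ℝ Z' (t u) →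
      (∀ᶠ y in 𝓝 u, Z' (t y) = fderiv ℝ t y (Z y)) → ∀ a,
      fderiv ℝ Z' (t u) (fderiv ℝ t u a) = fderiv ℝ (fun y => fderiv ℝ t y (Z y)) u a := by
    intro Z Z' h e a
    rw [← Filter.EventuallyEq.fderiv_eq (f₁ := fun y => Z' (t y)) e, fderiv_fun_comp u h hd]
    rfl
  rw [VectorField.fderiv_apply_lieBracket ht (by simp) hY hX, ← key hY' eY, ← key hX' eX,
    ← eX.self_of_nhds, ← eY.self_of_nhds]
  rfl

theorem d1_eq {F : W × W → ℝ} {z : W × W} (hF : DifferentiableAt ℝ F z) (v : W) :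
    d1 F z v = fderiv ℝ F z (v, 0) := by
  have h : HasFDerivAt (fun a => F (a, z.2)) _ z.1 :=
    HasFDerivAt.comp (g := F) z.1 hF.hasFDerivAt (hasFDerivAt_prodMk_left z.1 z.2)
  rw [d1, h.fderiv]
  rfl

theorem d2_eq {F : W × W → ℝ} {z : W × W} (hF : DifferentiableAt ℝ F z) (w : W) :
    d2 F z w = fderiv ℝ F z (0, w) := by
  have h : HasFDerivAt (fun b => F (z.1, b)) _ z.2 :=
    HasFDerivAt.comp (g := F) z.2 hF.hasFDerivAt (hasFDerivAt_prodMk_right z.1 z.2)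
  rw [d2, h.fderiv]
  rfl

theorem mix_eq {F : W × W → ℝ} {z : W × W} (hF : ContDiffAt ℝ (2 : ℕ) F z) (w v : W) :
    mix F z w v = fderiv ℝ (fderiv ℝ F) z (0, w) (v, 0) := by
  have hc : Tendsto (fun b : W => (z.1, b)) (𝓝 z.2) (𝓝 z) :=
    (by fun_prop : Continuous fun b : W => (z.1, b)).continuousAt.tendsto
  have e : (fun b => fderiv ℝ (fun a => F (a, b)) z.1) =ᶠ[𝓝 z.2]
      fun b => (fderiv ℝ F (z.1, b)).comp (ContinuousLinearMap.inl ℝ W W) := by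
    filter_upwards [hc.eventually (ev_at hF)] with b hb
    ext a
    exact d1_eq (z := (z.1, b)) (diff_of (n := 1) hb) a
  have h1 : HasFDerivAt (fun b => fderiv ℝ F (z.1, b)) _ z.2 :=
    HasFDerivAt.comp (g := fderiv ℝ F) z.2 (diff_fderiv hF).hasFDerivAt
      (hasFDerivAt_prodMk_right z.1 z.2)
  have h2 := h1.clm_comp (hasFDerivAt_const (ContinuousLinearMap.inl ℝ W W) z.2)
  rw [mix, e.fderiv_eq, h2.fderiv]
  simp

theorem mix_eq' {F : W × W → ℝ} {z : W × W} (hF : ContDiffAt ℝ (2 : ℕ) F z) (w v : W) :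
    mix F z w v = fderiv ℝ (fderiv ℝ F) z (v, 0) (0, w) := by
  rw [mix_eq hF, symm2 hF]

theorem mix_congr {F F' : W × W → ℝ} {z : W × W} (hF : ContDiffAt ℝ (2 : ℕ) F z)
    (e : F' =ᶠ[𝓝 z] F) : mix F' z = mix F z := by
  ext w v
  rw [mix_eq hF, mix_eq (hF.congr_of_eventuallyEq e), e.fderiv.fderiv_eq]

theorem mix_add {F F' : W × W → ℝ} {z : W × W} (hF : ContDiffAt ℝ (2 : ℕ) F z)
    (hF' : ContDiffAt ℝ (2 : ℕ) F' z) (w v : W) :
    mix (F + F') z w v = mix F z w v + mix F' z w v := by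
  have e : fderiv ℝ (F + F') =ᶠ[𝓝 z] fderiv ℝ F + fderiv ℝ F' := by
    filter_upwards [ev_at hF, ev_at hF'] with y h h'
    exact fderiv_add (diff_of (n := 1) h) (diff_of (n := 1) h')
  rw [mix_eq hF, mix_eq hF', mix_eq (F := F + F') (hF.add hF'), e.fderiv_eq,
    fderiv_add (diff_fderiv hF) (diff_fderiv hF')]
  rfl

theorem mix_smul {F : W × W → ℝ} {z : W × W} (hF : ContDiffAt ℝ (2 : ℕ) F z) (r : ℝ) (w v : W) :
    mix (r • F) z w v = r * mix F z w v := by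
  have e : fderiv ℝ (r • F) =ᶠ[𝓝 z] r • fderiv ℝ F := by
    filter_upwards [ev_at hF] with y h
    exact fderiv_const_smul (diff_of (n := 1) h) r
  rw [mix_eq hF, mix_eq (F := r • F) (hF.const_smul r), e.fderiv_eq,
    fderiv_const_smul (diff_fderiv hF)]
  rfl

/-- the product of two fields -/
def pv (c₁ c₂ : W → W) (z : W × W) : W × W := (c₁ z.1, c₂ z.2)

theorem hasFDerivAt_pv {c₁ c₂ : W → W} {z : W × W} (h₁ : DifferentiableAt ℝ c₁ z.1)
    (h₂ : DifferentiableAt ℝ c₂ z.2) :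
    HasFDerivAt (pv c₁ c₂) ((fderiv ℝ c₁ z.1).prodMap (fderiv ℝ c₂ z.2)) z :=
  HasFDerivAt.prodMap z h₁.hasFDerivAt h₂.hasFDerivAt

theorem fderiv_pv {m : W × W → ℝ} {c₁ c₂ : W → W} {z : W × W} (hm : ContDiffAt ℝ (2 : ℕ) m z)
    (h₁ : DifferentiableAt ℝ c₁ z.1) (h₂ : DifferentiableAt ℝ c₂ z.2) (v w : W) :
    fderiv ℝ (fun y => fderiv ℝ m y (c₁ y.1, c₂ y.2)) z (v, w) =
      fderiv ℝ (fderiv ℝ m) z (v, w) (c₁ z.1, c₂ z.2) +
        fderiv ℝ m z (fderiv ℝ c₁ z.1 v, fderiv ℝ c₂ z.2 w) := by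
  have h := fderiv_lie hm (hasFDerivAt_pv h₁ h₂).differentiableAt (v, w)
  rw [(hasFDerivAt_pv h₁ h₂).fderiv] at h
  exact h

theorem split (T : (W × W) →L[ℝ] ℝ) (v w : W) : T (v, w) = T (v, 0) + T (0, w) := by
  rw [← map_add]
  simp

theorem err_eq {F : W × W → ℝ} {z : W × W} (hF : DifferentiableAt ℝ F z) (c₁ : W → W)
    (f₁ : W → ℝ) (c₂ : W → W) (f₂ : W → ℝ) :
    err F c₁ f₁ c₂ f₂ z = fderiv ℝ F z (c₁ z.1, c₂ z.2) - (f₁ z.1 + f₂ z.2) := by
  rw [err, d1_eq hF, d2_eq hF, split _ (c₁ z.1) (c₂ z.2)]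
  ring

theorem hasFDerivAt_sum2 {f₁ f₂ : W → ℝ} {z : W × W} (g₁ : DifferentiableAt ℝ f₁ z.1)
    (g₂ : DifferentiableAt ℝ f₂ z.2) : HasFDerivAt (fun y : W × W => f₁ y.1 + f₂ y.2)
      ((fderiv ℝ f₁ z.1).comp (ContinuousLinearMap.fst ℝ W W) +
        (fderiv ℝ f₂ z.2).comp (ContinuousLinearMap.snd ℝ W W)) z :=
  (g₁.hasFDerivAt.comp z hasFDerivAt_fst).add (g₂.hasFDerivAt.comp z hasFDerivAt_snd)

theorem err_ev {F : W × W → ℝ} {c₁ c₂ : W → W} {f₁ f₂ : W → ℝ} {z : W × W}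
    (hF : ContDiffAt ℝ (2 : ℕ) F z) (he : ∀ᶠ y in 𝓝 z, err F c₁ f₁ c₂ f₂ y = 0) :
    (fun y : W × W => f₁ y.1 + f₂ y.2) =ᶠ[𝓝 z] fun y => fderiv ℝ F y (c₁ y.1, c₂ y.2) := by
  filter_upwards [he, ev_at hF] with y h h'
  rw [err_eq (diff_of (n := 1) h')] at h
  exact (sub_eq_zero.1 h).symm

/-- the derivative of the Killing equation -/
theorem err_deriv {F : W × W → ℝ} {c₁ c₂ : W → W} {f₁ f₂ : W → ℝ} {z : W × W}
    (hF : ContDiffAt ℝ (2 : ℕ) F z) (h₁ : DifferentiableAt ℝ c₁ z.1)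
    (h₂ : DifferentiableAt ℝ c₂ z.2) (g₁ : DifferentiableAt ℝ f₁ z.1)
    (g₂ : DifferentiableAt ℝ f₂ z.2) (he : ∀ᶠ y in 𝓝 z, err F c₁ f₁ c₂ f₂ y = 0) (v w : W) :
    fderiv ℝ (fderiv ℝ F) z (v, w) (c₁ z.1, c₂ z.2) +
        fderiv ℝ F z (fderiv ℝ c₁ z.1 v, fderiv ℝ c₂ z.2 w) =
      fderiv ℝ f₁ z.1 v + fderiv ℝ f₂ z.2 w := by
  rw [← fderiv_pv hF h₁ h₂, ← (err_ev hF he).fderiv_eq, (hasFDerivAt_sum2 g₁ g₂).fderiv]
  rfl

/-- the mixed derivative of the derivative along a product field which vanishes at `z` -/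
theorem mix_lie {m g : W × W → ℝ} {c₁ c₂ : W → W} {z : W × W} (hm : ContDiffAt ℝ (3 : ℕ) m z)
    (h₁ : ContDiffAt ℝ (2 : ℕ) c₁ z.1) (h₂ : ContDiffAt ℝ (2 : ℕ) c₂ z.2) (z₁ : c₁ z.1 = 0)
    (z₂ : c₂ z.2 = 0) (e : g =ᶠ[𝓝 z] fun y => fderiv ℝ m y (c₁ y.1, c₂ y.2)) (w v : W) :
    mix g z w v = mix m z w (fderiv ℝ c₁ z.1 v) + mix m z (fderiv ℝ c₂ z.2 w) v := by
  have hm2 : ContDiffAt ℝ (2 : ℕ) m z := hm.of_le (by norm_num)
  have k₁ : ContDiffAt ℝ (2 : ℕ) (fun y : W × W => c₁ y.1) z := h₁.comp z contDiffAt_fst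
  have k₂ : ContDiffAt ℝ (2 : ℕ) (fun y : W × W => c₂ y.2) z := h₂.comp z contDiffAt_snd
  have hg : ContDiffAt ℝ (2 : ℕ) (fun y : W × W => fderiv ℝ m y (c₁ y.1, c₂ y.2)) z :=
    (at_fderiv hm).clm_apply (k₁.prodMk k₂)
  have e1 : (fun y => fderiv ℝ (fun y : W × W => fderiv ℝ m y (c₁ y.1, c₂ y.2)) y (v, 0)) =ᶠ[𝓝 z]
      fun y => fderiv ℝ (fun y => fderiv ℝ m y (v, 0)) y (c₁ y.1, c₂ y.2) +
        fderiv ℝ m y (fderiv ℝ c₁ y.1 v, (fun _ => 0 : W → W) y.2) := by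
    filter_upwards [ev_at hm2, continuous_fst.continuousAt.eventually (ev_at h₁),
      continuous_snd.continuousAt.eventually (ev_at h₂)] with y p p₁ p₂
    rw [fderiv_pv p (diff_of (n := 1) p₁) (diff_of (n := 1) p₂), fderiv_eval p, symm2 p, map_zero]
  have hv : ContDiffAt ℝ (2 : ℕ) (fun y => fderiv ℝ m y (v, 0)) z :=
    (at_fderiv hm).clm_apply contDiffAt_const
  have d₁ : DifferentiableAt ℝ (fun a => fderiv ℝ c₁ a v) z.1 :=
    (diff_fderiv h₁).clm_apply (differentiableAt_const v)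
  have a1 := (diff_fderiv hv).clm_apply
    (hasFDerivAt_pv (diff_of (n := 1) h₁) (diff_of (n := 1) h₂)).differentiableAt
  have a2 := (diff_fderiv hm2).clm_apply
    (hasFDerivAt_pv (c₂ := fun _ => 0) d₁ (differentiableAt_const _)).differentiableAt
  rw [mix_congr hg e, mix_eq hg, ← fderiv_eval hg, e1.fderiv_eq]
  refine (congrArg (fun T : (W × W) →L[ℝ] ℝ => T (0, w)) (fderiv_fun_add a1 a2)).trans ?_
  have b1 := fderiv_pv hv (diff_of (n := 1) h₁) (diff_of (n := 1) h₂) 0 w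
  have b2 := fderiv_pv (c₂ := fun _ => 0) hm2 d₁ (differentiableAt_const _) 0 w
  rw [z₁, z₂, Prod.mk_zero_zero, map_zero, zero_add, map_zero, fderiv_eval hm2, ← mix_eq hm2] at b1
  rw [map_zero, fderiv_fun_const, ← mix_eq hm2] at b2
  simp only [Pi.zero_apply, zero_apply, Prod.mk_zero_zero, map_zero, add_zero] at b2
  exact (congrArg₂ (· + ·) b1 b2).trans (add_comm _ _)

theorem mix_sum2 (f₁ f₂ : W → ℝ) (z : W × W) (w v : W) :
    mix (fun y : W × W => f₁ y.1 + f₂ y.2) z w v = 0 := by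
  have e : (fun b => fderiv ℝ (fun a => f₁ a + f₂ b) z.1) = fun _ => fderiv ℝ f₁ z.1 :=
    funext fun b => fderiv_add_const _
  rw [mix]
  simp only [e, fderiv_fun_const, Pi.zero_apply, zero_apply]

/-- an injective map to the dual is onto -/
theorem surj_of_inj [FiniteDimensional ℝ W] {T : W →L[ℝ] W →L[ℝ] ℝ} (h : Function.Injective T) :
    Function.Surjective T := by
  have e : Module.finrank ℝ W = Module.finrank ℝ (W →L[ℝ] ℝ) := by
    rw [← (LinearMap.toContinuousLinearMap (𝕜 := ℝ) (E := W) (F' := ℝ)).finrank_eq]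
    exact Subspace.dual_finrank_eq.symm
  exact (LinearMap.injective_iff_surjective_of_finrank_eq_finrank (f := (T : W →ₗ[ℝ] W →L[ℝ] ℝ))
    e).1 h

theorem eq_zero_of_right [FiniteDimensional ℝ W] {T : W →L[ℝ] W →L[ℝ] ℝ}
    (h : Function.Injective T) {v : W} (hv : ∀ w, T w v = 0) : v = 0 := by
  refine SeparatingDual.eq_zero_of_forall_dual_eq_zero (R := ℝ) fun l => ?_
  obtain ⟨w, rfl⟩ := surj_of_inj h l
  exact hv w

end Loc

/-- a map with a separating finite family of eigenfunctionals is diagonalisable -/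
theorem diag_of_functionals {G ι : Type} [AddCommGroup G] [Module ℝ G] [Fintype ι]
    (T : G →ₗ[ℝ] G) (φ : ι → G →ₗ[ℝ] ℝ) (s : ι → ℝ) (hs : ∀ i Z, φ i (T Z) = s i * φ i Z)
    (hφ : ∀ Z, (∀ i, φ i Z = 0) → Z = 0) : (⨆ r : ℝ, Module.End.eigenspace T r) = ⊤ := by
  classical
  have hp : ∀ (p : Polynomial ℝ) i Z, φ i (Polynomial.aeval T p Z) = p.eval (s i) * φ i Z := by
    intro p i
    induction p using Polynomial.induction_on with
    | C a => intro Z; simp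
    | add p q hp hq => intro Z; simp [hp, hq, add_mul]
    | monomial n a h =>
      intro Z
      rw [pow_succ, ← mul_assoc, map_mul, Module.End.mul_apply, h, Polynomial.aeval_X, hs,
        Polynomial.eval_mul (q := Polynomial.X), Polynomial.eval_X, mul_assoc]
  set R : Finset ℝ := Finset.univ.image s with hR
  have hm : ∀ i, s i ∈ R := fun i => Finset.mem_image_of_mem _ (Finset.mem_univ i)
  refine eq_top_iff.2 fun Z _ => ?_
  have e : Z = ∑ r ∈ R, Polynomial.aeval T (Lagrange.basis R id r) Z := by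
    refine sub_eq_zero.1 (hφ _ fun i => ?_)
    rw [map_sub, map_sum]
    simp only [hp]
    rw [← Finset.sum_mul, ← Polynomial.eval_finsetSum,
      Lagrange.sum_basis (Set.injOn_id _) ⟨_, hm i⟩, Polynomial.eval_one, one_mul, sub_self]
  rw [e]
  refine Submodule.sum_mem _ fun r _ => Submodule.mem_iSup_of_mem r ?_
  rw [Module.End.mem_eigenspace_iff]
  refine sub_eq_zero.1 (hφ _ fun i => ?_)
  rw [map_sub, hs, map_smul, hp, smul_eq_mul, ← sub_mul]
  rcases eq_or_ne r (s i) with h | h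
  · rw [h, sub_self, zero_mul]
  · have := Lagrange.eval_basis_of_ne (v := id) h (hm i)
    rw [id] at this
    rw [this, zero_mul, mul_zero]

end Vale.Agent.P207Z.SC.AL
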