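import Vale.Agent.P207Z.Sm.Sk
import Vale.Agent.P207Z.Sm.AlgLoc

/-!
# P207, the smooth case: Killing pairs in charts
-/

set_option linter.unusedSectionVars false

open Set Filter Topology Metric MeasureTheory
open scoped ContDiff

noncomputable section

namespace Vale.Agent.P207Z.SC.AL

open Vale.Agent.P207.N4 Vale.Agent.P207.N3

variable [Dim]

variable {Γ X B : Type} [Group Γ] [MetricSpace X] [ProperSpace X] [MulAction Γ X]
  [IsIsometricSMul Γ X] [TopologicalSpace B] [CompactSpace B] [T2Space B] [MulAction Γ B]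
  [ContinuousConstSMul Γ B] [MeasurableSpace B] [BorelSpace B] {L : Leaf Γ X B}

theorem zero_mem : (0 : E2) ∈ ball (0 : E2) 3 := mem_ball_self (by norm_num)

theorem ball_nhds {u : E2} (hu : u ∈ ball (0 : E2) 3) : ball (0 : E2) 3 ∈ 𝓝 u :=
  isOpen_ball.mem_nhds hu

theorem tau_eq {x y : X} {u u' : E2} (hu' : u' ∈ ball (0 : E2) 3) (h : L.e x u = L.e y u') :
    L.τ x y u = u' := by
  show Function.invFunOn (L.e y) (closedBall (0 : E2) 3) (L.e x u) = u'
  rw [h]
  exact (L.e_inj y).leftInvOn_invFunOn (ball_subset_closedBall hu')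

theorem mem_dm {x y : X} {u u' : E2} (hu : u ∈ ball (0 : E2) 3) (hu' : u' ∈ ball (0 : E2) 3)
    (h : L.e x u = L.e y u') : u ∈ L.dm x y := ⟨hu, u', hu', h.symm⟩

theorem tau_mem {x y : X} {u : E2} (hu : u ∈ L.dm x y) : L.τ x y u ∈ ball (0 : E2) 3 := by
  obtain ⟨_, u', hu', h⟩ := hu
  rwa [tau_eq hu' h.symm]

theorem e_tau {x y : X} {u : E2} (hu : u ∈ L.dm x y) : L.e y (L.τ x y u) = L.e x u := by
  obtain ⟨_, u', hu', h⟩ := hu
  rw [tau_eq hu' h.symm, h]

theorem dm_nhds (S : Sm L) {x y : X} {u : E2} (hu : u ∈ L.dm x y) : L.dm x y ∈ 𝓝 u :=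
  (isOpen_slice S.tau_jc.isOpen (x, y)).mem_nhds hu

theorem tau_at (S : Sm L) {x y : X} {u : E2} (hu : u ∈ L.dm x y) (n : ℕ) :
    ContDiffAt ℝ n (L.τ x y) u := at_nat (S.tau_jc.contDiffAt (p := ((x, y), u)) hu) n

theorem isOpen_Od (S : Sm L) (x y : X) : IsOpen (Od L x y) := isOpen_slice S.f_jc.isOpen (x, y)

theorem FF_inf (S : Sm L) {x y : X} {z : E2 × E2} (hz : z ∈ Od L x y) :
    ContDiffAt ℝ ∞ (FF L S.A.D x y) z := S.f_jc.contDiffAt (p := ((x, y), z)) hz

theorem FF_at (S : Sm L) {x y : X} {z : E2 × E2} (hz : z ∈ Od L x y) (n : ℕ) :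
    ContDiffAt ℝ n (FF L S.A.D x y) z := at_nat (FF_inf S hz) n

theorem FF_diff (S : Sm L) {x y : X} {z : E2 × E2} (hz : z ∈ Od L x y) :
    DifferentiableAt ℝ (FF L S.A.D x y) z := diff_of (FF_at S hz 1)

theorem FF_left (S : Sm L) {x y : X} {z : E2 × E2} (hz : z ∈ Od L x y) :
    DifferentiableAt ℝ (fun a => S.A.D (L.e x a) (L.e y z.2)) z.1 :=
  DifferentiableAt.comp (g := FF L S.A.D x y) (f := fun a => (a, z.2)) z.1 (FF_diff S hz)
    (by fun_prop)

section VF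

variable {V : Type} [NormedAddCommGroup V] [NormedSpace ℝ V] {c : X → E2 → E2}

theorem vf_inf (h : IsVF L c) (x : X) {u : E2} (hu : u ∈ ball (0 : E2) 3) :
    ContDiffAt ℝ ∞ (c x) u := (h.1 x).contDiffAt (ball_nhds hu)

theorem vf_at (h : IsVF L c) (x : X) {u : E2} (hu : u ∈ ball (0 : E2) 3) (n : ℕ) :
    ContDiffAt ℝ n (c x) u := at_nat (vf_inf h x hu) n

theorem vf_diff (h : IsVF L c) (x : X) {u : E2} (hu : u ∈ ball (0 : E2) 3) :
    DifferentiableAt ℝ (c x) u := diff_of (vf_at h x hu 1)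

theorem fn_inf {g : B → V} (h : IsFn L g) (x : X) {u : E2} (hu : u ∈ ball (0 : E2) 3) :
    ContDiffAt ℝ ∞ (fun w => g (L.e x w)) u := (h x).contDiffAt (ball_nhds hu)

theorem fn_diff {g : B → V} (h : IsFn L g) (x : X) {u : E2} (hu : u ∈ ball (0 : E2) 3) :
    DifferentiableAt ℝ (fun w => g (L.e x w)) u := diff_of (at_nat (fn_inf h x hu) 1)

theorem vf_zero (h : IsVF L c) {x y : X} {u u' : E2} (hu : u ∈ ball (0 : E2) 3)
    (hu' : u' ∈ ball (0 : E2) 3) (he : L.e x u = L.e y u') (h0 : c x u = 0) : c y u' = 0 := by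
  have := h.2 x y u (mem_dm hu hu' he)
  rwa [tau_eq hu' he, h0, map_zero] at this

/-- the derivative along a field does not depend on the chart -/
theorem chart_deriv (S : Sm L) (h : IsVF L c) {g : B → V} {x y : X} {u u' : E2}
    (hu : u ∈ ball (0 : E2) 3) (hu' : u' ∈ ball (0 : E2) 3) (he : L.e x u = L.e y u')
    (hg : DifferentiableAt ℝ (fun w => g (L.e y w)) u') :
    fderiv ℝ (fun w => g (L.e x w)) u (c x u) = fderiv ℝ (fun w => g (L.e y w)) u' (c y u') := by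
  have hd := mem_dm hu hu' he
  have e : (fun w => g (L.e x w)) =ᶠ[𝓝 u] fun w => (fun w => g (L.e y w)) (L.τ x y w) := by
    filter_upwards [dm_nhds S hd] with w hw
    rw [e_tau hw]
  have h1 := h.2 x y u hd
  rw [← tau_eq hu' he] at hg ⊢
  rw [e.fderiv_eq, fderiv_fun_comp u hg (diff_of (tau_at S hd 1)), h1]
  rfl

/-- the derivative of a function along a field -/
def dv (L : Leaf Γ X B) (c : X → E2 → E2) (g : B → V) (ξ : B) : V :=
  fderiv ℝ (fun w => g (L.e (fr L ξ) w)) 0 (c (fr L ξ) 0)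

theorem e_fr {S : Sm L} (hb : Basic0 S) (ξ : B) : L.e (fr L ξ) 0 = ξ :=
  (L.e_zero _).trans (hb.ep_fr ξ)

theorem dv_eq {S : Sm L} (hb : Basic0 S) (h : IsVF L c) {g : B → V} {x : X} {u : E2}
    (hu : u ∈ ball (0 : E2) 3) (hg : DifferentiableAt ℝ (fun w => g (L.e x w)) u) :
    dv L c g (L.e x u) = fderiv ℝ (fun w => g (L.e x w)) u (c x u) :=
  chart_deriv S h zero_mem hu (e_fr hb _) hg

theorem isFn_dv {S : Sm L} (hb : Basic0 S) (h : IsVF L c) {g : B → V} (hg : IsFn L g) :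
    IsFn L (dv L c g) := fun x =>
  ContDiffOn.congr (f := fun u => fderiv ℝ (fun w => g (L.e x w)) u (c x u))
    (fun _ hu => (((fn_inf hg x hu).fderiv_right (m := ∞) (by simp)).clm_apply
      (vf_inf h x hu)).contDiffWithinAt)
    fun _ hu => dv_eq hb h hu (fn_diff hg x hu)

theorem isVF_congr {c' : X → E2 → E2} (h : IsVF L c)
    (e : ∀ x, ∀ u ∈ ball (0 : E2) 3, c' x u = c x u) : IsVF L c' :=
  ⟨fun x => (h.1 x).congr (e x), fun x y u hu => by
    rw [e y _ (tau_mem hu), e x u hu.1]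
    exact h.2 x y u hu⟩

theorem isVF_lie (S : Sm L) {c' : X → E2 → E2} (h : IsVF L c) (h' : IsVF L c') :
    IsVF L fun x => VectorField.lieBracket ℝ (c x) (c' x) :=
  ⟨fun x _ hu => ((vf_inf h x hu).lieBracket_vectorField (m := ∞) (vf_inf h' x hu)
    (by simp)).contDiffWithinAt, fun x y u hu =>
    lieBracket_rel (tau_at S hu 2) (vf_diff h x hu.1) (vf_diff h' x hu.1)
      (vf_diff h y (tau_mem hu)) (vf_diff h' y (tau_mem hu))
      (by filter_upwards [dm_nhds S hu] with w hw using h.2 x y w hw)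
      (by filter_upwards [dm_nhds S hu] with w hw using h'.2 x y w hw)⟩

end VF

section Kill

variable {S : Sm L} {c c' : X → E2 → E2} {f f' : B → ℝ}

theorem kill_eq (h : IsKill S c f) {x y : X} {z : E2 × E2} (hz : z ∈ Od L x y) :
    fderiv ℝ (FF L S.A.D x y) z (c x z.1, c y z.2) = f (L.e x z.1) + f (L.e y z.2) := by
  have := h.2.2 x y z hz
  rwa [err_eq (FF_diff S hz), sub_eq_zero] at this

theorem kill_of (h1 : IsVF L c) (h2 : IsFn L f) (h3 : ∀ x y, ∀ z ∈ Od L x y,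
    fderiv ℝ (FF L S.A.D x y) z (c x z.1, c y z.2) = f (L.e x z.1) + f (L.e y z.2)) :
    IsKill S c f :=
  ⟨h1, h2, fun x y z hz => by rw [err_eq (FF_diff S hz), h3 x y z hz, sub_self]⟩

theorem kill_ev (h : IsKill S c f) {x y : X} {z : E2 × E2} (hz : z ∈ Od L x y) :
    ∀ᶠ w in 𝓝 z, err (FF L S.A.D x y) (c x) (fun u => f (L.e x u)) (c y)
      (fun u => f (L.e y u)) w = 0 := by
  filter_upwards [(isOpen_Od S x y).mem_nhds hz] with w hw using h.2.2 x y w hw

theorem kill_deriv (h : IsKill S c f) {x y : X} {z : E2 × E2} (hz : z ∈ Od L x y) (v w : E2) :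
    fderiv ℝ (fderiv ℝ (FF L S.A.D x y)) z (v, w) (c x z.1, c y z.2) +
        fderiv ℝ (FF L S.A.D x y) z (fderiv ℝ (c x) z.1 v, fderiv ℝ (c y) z.2 w) =
      fderiv ℝ (fun u => f (L.e x u)) z.1 v + fderiv ℝ (fun u => f (L.e y u)) z.2 w :=
  err_deriv (FF_at S hz 2) (vf_diff h.1 x hz.1) (vf_diff h.1 y hz.2.1) (fn_diff h.2.1 x hz.1)
    (fn_diff h.2.1 y hz.2.1) (kill_ev h hz) v w

/-- for a Killing field which vanishes at two points, the two linear parts are opposite -/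
theorem kill_mix (h : IsKill S c f) {x y : X} {z : E2 × E2} (hz : z ∈ Od L x y)
    (h1 : c x z.1 = 0) (h2 : c y z.2 = 0) (w v : E2) :
    mix (FF L S.A.D x y) z w (fderiv ℝ (c x) z.1 v) +
      mix (FF L S.A.D x y) z (fderiv ℝ (c y) z.2 w) v = 0 := by
  rw [← mix_lie (FF_at S hz 3) (vf_at h.1 x hz.1 2) (vf_at h.1 y hz.2.1 2) h1 h2
    (err_ev (FF_at S hz 2) (kill_ev h hz)), mix_sum2 (fun u => f (L.e x u)) fun u => f (L.e y u)]

/-- JET : a Killing pair is determined by its jet at one point -/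
theorem kill_jet (h : IsKill S c f) {x : X} {u : E2} (hu : u ∈ ball (0 : E2) 3) (h0 : c x u = 0)
    (h1 : fderiv ℝ (c x) u = 0) (h2 : fderiv ℝ (fun w => f (L.e x w)) u = 0) (y : X) :
    ∀ b ∈ ball (0 : E2) 3, c y b = 0 := by
  intro b hb
  by_cases he : L.e x u = L.e y b
  · exact vf_zero h.1 hu hb he h0
  have hz : (u, b) ∈ Od L x y := ⟨hu, hb, he⟩
  refine (injective_iff_map_eq_zero _).1 (S.nd x y _ hz) _ (ContinuousLinearMap.ext fun v => ?_)
  have := kill_deriv h hz v 0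
  dsimp only at this
  rw [h0, h1, h2, ← mix_eq' (FF_at S hz 2)] at this
  simpa [Prod.mk_zero_zero] using this

theorem kill_f_zero (hb : Basic0 S) (h : IsKill S c f) (h0 : ∀ x, ∀ u ∈ ball (0 : E2) 3, c x u = 0) :
    f = 0 := by
  have two : ∀ ξ η, ξ ≠ η → f ξ + f η = 0 := by
    intro ξ η hne
    have hz : ((0 : E2), (0 : E2)) ∈ Od L (fr L ξ) (fr L η) :=
      ⟨zero_mem, zero_mem, by rwa [e_fr hb, e_fr hb]⟩
    have := kill_eq h hz
    rw [h0 _ _ zero_mem, h0 _ _ zero_mem, e_fr hb, e_fr hb, Prod.mk_zero_zero, map_zero] at this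
    exact this.symm
  funext ξ
  set x := fr L ξ with hx
  set u : E2 := EuclideanSpace.single 0 1 with hu
  have n1 : ‖u‖ = 1 := by simp [hu]
  have m1 : u ∈ closedBall (0 : E2) 3 := mem_closedBall_zero_iff.2 (by rw [n1]; norm_num)
  have m0 : (0 : E2) ∈ closedBall (0 : E2) 3 := ball_subset_closedBall zero_mem
  have a1 := two _ _ (L.e_ne x 0 m0)
  have a2 := two _ _ (L.e_ne x u m1)
  have a3 := two (L.e x 0) (L.e x u) fun he => by
    have := L.e_inj x m0 m1 he
    rw [← this, norm_zero] at n1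
    exact zero_ne_one n1
  rw [e_fr hb] at a1 a3
  show f ξ = 0
  linarith

theorem kill_congr (h : IsKill S c f) (e : ∀ x, ∀ u ∈ ball (0 : E2) 3, c' x u = c x u) :
    IsKill S c' f :=
  kill_of (isVF_congr h.1 e) h.2.1 fun x y z hz => by
    rw [e x _ hz.1, e y _ hz.2.1]
    exact kill_eq h hz

theorem kill_zero : IsKill S (0 : X → E2 → E2) (0 : B → ℝ) :=
  kill_of ⟨fun _ => contDiffOn_const, fun _ _ _ _ => (map_zero _).symm⟩
    (fun _ => contDiffOn_const) fun x y z _ => by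
      simp only [Pi.zero_apply, Prod.mk_zero_zero, map_zero, add_zero]

theorem kill_add (h : IsKill S c f) (h' : IsKill S c' f') : IsKill S (c + c') (f + f') :=
  kill_of ⟨fun x => (h.1.1 x).add (h'.1.1 x), fun x y u hu => by
      simp only [Pi.add_apply, map_add, h.1.2 x y u hu, h'.1.2 x y u hu]⟩
    (fun x => (h.2.1 x).add (h'.2.1 x)) fun x y z hz => by
      simp only [Pi.add_apply]
      rw [← Prod.mk_add_mk, map_add, kill_eq h hz, kill_eq h' hz]
      ring

theorem kill_smul (r : ℝ) (h : IsKill S c f) : IsKill S (r • c) (r • f) :=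
  kill_of ⟨fun x => (h.1.1 x).const_smul r, fun x y u hu => by
      simp only [Pi.smul_apply, map_smul, h.1.2 x y u hu]⟩
    (fun x => (h.2.1 x).const_smul r) fun x y z hz => by
      simp only [Pi.smul_apply]
      rw [← Prod.smul_mk, map_smul, kill_eq h hz, smul_add]

theorem kill_lie (hb : Basic0 S) (h : IsKill S c f) (h' : IsKill S c' f') :
    IsKill S (fun x => VectorField.lieBracket ℝ (c x) (c' x)) (dv L c f' - dv L c' f) :=
  kill_of (isVF_lie S h.1 h'.1)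
    (fun x => (isFn_dv hb h.1 h'.2.1 x).sub (isFn_dv hb h'.1 h.2.1 x)) fun x y z hz => by
      have a1 := kill_deriv h hz (c' x z.1) (c' y z.2)
      have a2 := kill_deriv h' hz (c x z.1) (c y z.2)
      rw [symm2 (FF_at S hz 2)] at a1
      simp only [Pi.sub_apply, VectorField.lieBracket]
      rw [dv_eq hb h.1 hz.1 (fn_diff h'.2.1 x hz.1), dv_eq hb h'.1 hz.1 (fn_diff h.2.1 x hz.1),
        dv_eq hb h.1 hz.2.1 (fn_diff h'.2.1 y hz.2.1), dv_eq hb h'.1 hz.2.1 (fn_diff h.2.1 y hz.2.1),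
        ← Prod.mk_sub_mk, map_sub]
      linarith

theorem e_smul' (g : Γ) (x : X) {u : E2} (hu : u ∈ ball (0 : E2) 3) :
    L.e (g • x) u = g • L.e x u := L.e_smul g x u (ball_subset_closedBall hu)

theorem dm_smul (g : Γ) {x y : X} {u : E2} (hu : u ∈ L.dm x y) :
    u ∈ L.dm (g • x) (g • y) ∧ L.τ (g • x) (g • y) u = L.τ x y u := by
  have e : L.e (g • x) u = L.e (g • y) (L.τ x y u) := by
    rw [e_smul' g x hu.1, e_smul' g y (tau_mem hu), e_tau hu]
  exact ⟨mem_dm hu.1 (tau_mem hu) e, tau_eq (tau_mem hu) e⟩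

/-- the group acts on Killing pairs -/
theorem kill_act (hb : Basic0 S) (g : Γ) (h : IsKill S c f) :
    ∃ f', IsKill S (fun x => c (g • x)) f' := by
  obtain ⟨κ, hκ, hD⟩ := hb.cocycle g
  have hV : IsVF L fun x => c (g • x) := ⟨fun x => h.1.1 _, fun x y u hu => by
    have e : L.τ (g • x) (g • y) =ᶠ[𝓝 u] L.τ x y := by
      filter_upwards [dm_nhds S hu] with w hw using (dm_smul g hw).2
    rw [← e.fderiv_eq, ← e.eq_of_nhds]
    exact h.1.2 _ _ u (dm_smul g hu).1⟩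
  have hf : IsFn L fun ξ => f (g • ξ) := fun x =>
    (h.2.1 (g • x)).congr fun u hu => by rw [e_smul' g x hu]
  refine ⟨fun ξ => f (g • ξ) - dv L (fun x => c (g • x)) κ ξ,
    kill_of hV (fun x => (hf x).sub (isFn_dv hb hV hκ x)) fun x y z hz => ?_⟩
  have hz' : z ∈ Od L (g • x) (g • y) := ⟨hz.1, hz.2.1, by
    rw [e_smul' g x hz.1, e_smul' g y hz.2.1]
    exact fun he => hz.2.2 (MulAction.injective g he)⟩
  have e : FF L S.A.D (g • x) (g • y) =ᶠ[𝓝 z]
      fun w => FF L S.A.D x y w + (κ (L.e x w.1) + κ (L.e y w.2)) := by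
    filter_upwards [(isOpen_Od S x y).mem_nhds hz] with w hw
    unfold FF
    rw [e_smul' g x hw.1, e_smul' g y hw.2.1, hD _ _ hw.2.2, add_assoc]
  have a1 := kill_eq h hz'
  have a2 := hasFDerivAt_sum2 (z := z) (fn_diff hκ x hz.1) (fn_diff hκ y hz.2.1)
  rw [e.fderiv_eq, ((FF_diff S hz).hasFDerivAt.fun_add a2).fderiv, e_smul' g x hz.1,
    e_smul' g y hz.2.1] at a1
  rw [dv_eq hb hV hz.1 (fn_diff hκ x hz.1), dv_eq hb hV hz.2.1 (fn_diff hκ y hz.2.1)]
  simp only [add_apply, ContinuousLinearMap.comp_apply, ContinuousLinearMap.coe_fst',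
    ContinuousLinearMap.coe_snd'] at a1
  linarith

end Kill

end Vale.Agent.P207Z.SC.AL
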