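import Vale.Agent.P207Z.Sm.Sk
import Vale.Agent.P207.N4.H662.Bas
import Vale.Agent.P207.N4.H824.Top

/-!
# P207, the smooth case: the first basic facts about the boundary
-/

set_option linter.unusedSectionVars false

open Set Filter Topology Metric MeasureTheory
open scoped ContDiff

noncomputable section

namespace Vale.Agent.P207Z.SC

open Vale.Agent.P207.N4 Vale.Agent.P207.N3

namespace B0

/-- integrals over the image of a measurable embedding -/
theorem lint_img {α β : Type} [MeasurableSpace α] [MeasurableSpace β] {f : α → β}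
    (hf : MeasurableEmbedding f) (μ : Measure β) (A : Set α) (φ : β → ENNReal) :
    ∫⁻ b in f '' A, φ b ∂μ = ∫⁻ a in A, φ (f a) ∂(μ.comap f) := by
  rw [← hf.lintegral_map, hf.restrict_comap, hf.map_comap,
    Measure.restrict_restrict hf.measurableSet_range, inter_eq_right.2 (image_subset_range _ _)]

variable [Dim]

variable {Γ X B : Type} [Group Γ] [MetricSpace X] [ProperSpace X] [MulAction Γ X]
  [IsIsometricSMul Γ X] [TopologicalSpace B] [CompactSpace B] [T2Space B] [MulAction Γ B]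
  [ContinuousConstSMul Γ B]

section Top

variable (L : Leaf Γ X B)

theorem z3 : (0 : E2) ∈ ball (0 : E2) 3 := mem_ball_self (by norm_num)

theorem e_flip (x : X) : L.e (L.flip x) 0 = L.em x := by rw [L.e_zero, L.ep_of_flip]

theorem e_contAt (x : X) {u : E2} (hu : u ∈ ball (0 : E2) 3) : ContinuousAt (L.e x) u :=
  (L.e_cont_x x).continuousAt (mem_of_superset (isOpen_ball.mem_nhds hu) ball_subset_closedBall)

theorem map_nhds (x : X) {u : E2} (hu : u ∈ ball (0 : E2) 3) :
    map (L.e x) (𝓝 u) = 𝓝 (L.e x u) := by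
  refine le_antisymm (e_contAt L x hu) fun s hs => ?_
  have h := L.inv_tendsto (l := 𝓝 (L.e x u)) (x := fun _ => x) (b := fun b => b)
    tendsto_const_nhds tendsto_id hu
  filter_upwards [h.1, h.2 hs] with b h1 h2
  rw [← L.e_inv (image_mono ball_subset_closedBall h1)]
  exact h2

theorem exists_em (ξ : B) : ∃ x, L.em x = ξ := by
  obtain ⟨x, hx⟩ := H824.exists_ep L ξ
  exact ⟨L.flip x, by rw [← L.ep_flip, hx]⟩

include L in
theorem conn (ξ : B) : IsPreconnected ({ξ}ᶜ : Set B) := by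
  obtain ⟨x, rfl⟩ := exists_em L ξ
  refine isPreconnected_of_forall (L.ep x) fun η hη => ?_
  obtain ⟨c, hc⟩ := H662.exhaust L (x := x) (η := η) hη
  have h13 : ball (0 : E2) 1 ⊆ closedBall 0 3 :=
    ball_subset_closedBall.trans (closedBall_subset_closedBall (by norm_num))
  refine ⟨L.e (L.φ (-c) x) '' ball 0 1, ?_, ?_, hc c le_rfl, ?_⟩
  · rintro _ ⟨u, hu, rfl⟩
    have := L.e_ne (L.φ (-c) x) u (h13 hu)
    rwa [L.em_φ] at this
  · exact ⟨0, mem_ball_self one_pos, by rw [L.e_zero, L.ep_φ]⟩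
  · exact (convex_ball (0 : E2) 1).isPreconnected.image _ ((L.e_cont_x _).mono h13)

/-- frames whose ends tend to different points and whose level is bounded stay in a compact set -/
theorem ev_compact {ι : Type} {l : Filter ι} {z : ι → X} {a b : B} (hab : a ≠ b) {M : ℝ}
    (ha : Tendsto (fun i => L.em (z i)) l (𝓝 a)) (hb : Tendsto (fun i => L.ep (z i)) l (𝓝 b))
    (hM : ∀ᶠ i in l, |L.lv (z i)| ≤ M) : ∃ K, IsCompact K ∧ ∀ᶠ i in l, z i ∈ K := by
  obtain ⟨U, V, hU, hV, haU, hbV, hUV⟩ := t2_separation hab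
  obtain ⟨N, hN, hNU, hNc⟩ := local_compact_nhds (hU.mem_nhds haU)
  obtain ⟨N', hN', hNV, hNc'⟩ := local_compact_nhds (hV.mem_nhds hbV)
  refine ⟨_, L.hopf_proper (N ×ˢ N') (hNc.prod hNc') (fun p hp h => ?_) M, ?_⟩
  · exact disjoint_left.1 hUV (hNU hp.1) (by rw [h]; exact hNV hp.2)
  · filter_upwards [ha hN, hb hN', hM] with i h1 h2 h3 using ⟨⟨h1, h2⟩, h3⟩

/-- the elements which bring back frames of bounded level are finitely many -/
theorem ev_const {ι : Type} (U : Ultrafilter ι) {x : ι → X} {g : ι → Γ} {w : X} {ζ ζ' β : B}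
    {M : ℝ} (hw : Tendsto (fun i => g i • x i) U (𝓝 w)) (hM : ∀ᶠ i in U, |L.lv (x i)| ≤ M)
    (hζ : Tendsto (fun i => L.em (x i)) U (𝓝 ζ)) (hne : ζ ≠ ζ')
    (hβ : Tendsto (fun i => g i • ζ') U (𝓝 β)) (hne' : L.em w ≠ β) :
    ∃ g₀ : Γ, ∀ᶠ i in U, g i = g₀ := by
  have h0 : ∀ i, ∃ y : X, L.em (x i) ≠ ζ' →
      L.em y = L.em (x i) ∧ L.ep y = ζ' ∧ L.lv y = L.lv (x i) := fun i => by
    by_cases h : L.em (x i) = ζ'
    · exact ⟨x i, fun h' => absurd h h'⟩
    · obtain ⟨y, hy⟩ := L.exists_frame _ _ h (L.lv (x i))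
      exact ⟨y, fun _ => hy⟩
  choose y hy using h0
  have h1 : ∀ᶠ i in U, L.em (y i) = L.em (x i) ∧ L.ep (y i) = ζ' ∧ L.lv (y i) = L.lv (x i) :=
    (hζ.eventually_ne hne).mono hy
  obtain ⟨K₁, hK₁, h₁⟩ := ev_compact L (l := (U : Filter ι)) (z := y) hne (M := M)
    (hζ.congr' (h1.mono fun i hi => hi.1.symm))
    (tendsto_const_nhds.congr' (h1.mono fun i hi => hi.2.1.symm))
    (by filter_upwards [h1, hM] with i hi hi' using by rwa [hi.2.2])
  have hlv : ∀ᶠ i in U, |L.lv (g i • x i)| ≤ |L.lv w| + 1 :=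
    ((L.lv_cont.abs.tendsto w).comp hw).eventually (eventually_le_nhds (lt_add_one _))
  obtain ⟨K₂, hK₂, h₂⟩ := ev_compact L (l := (U : Filter ι)) (z := fun i => g i • y i) hne'
    (M := |L.lv w| + 1)
    (((L.em_cont.tendsto w).comp hw).congr' (h1.mono fun i hi => by
      simp only [Function.comp_apply, L.em_smul, hi.1]))
    (hβ.congr' (h1.mono fun i hi => by simp only [L.ep_smul, hi.2.1]))
    (by
      filter_upwards [h1, hlv] with i hi hi'
      have := L.lv_smul (g i) (y i) (x i) hi.1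
      rwa [show L.lv (g i • y i) = L.lv (g i • x i) by linarith [hi.2.2]])
  have hfin := L.proper (K₁ ∪ K₂) (hK₁.union hK₂)
  have hmem : {g : Γ | ∃ x ∈ K₁ ∪ K₂, g • x ∈ K₁ ∪ K₂} ∈ U.map g := by
    rw [Ultrafilter.mem_map]
    filter_upwards [h₁, h₂] with i hi hi' using ⟨y i, Or.inl hi, Or.inr hi'⟩
  obtain ⟨g₀, -, h⟩ := Ultrafilter.eq_pure_of_finite_mem hfin hmem
  refine ⟨g₀, ?_⟩
  have : ({g₀} : Set Γ) ∈ U.map g := by
    rw [h]
    exact Ultrafilter.mem_pure.2 rfl
  exact this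

end Top

variable [MeasurableSpace B] [BorelSpace B] {L : Leaf Γ X B}

section Area

variable (A : Area L)

theorem D_eq (x : X) : A.D (L.em x) (L.ep x) = L.lv x + L.lv (L.flip x) := A.D_eq x

theorem D_symm {ξ η : B} (h : ξ ≠ η) : A.D ξ η = A.D η ξ := by
  obtain ⟨x, rfl, rfl, -⟩ := L.exists_frame ξ η h 0
  have e2 := D_eq A (L.flip x)
  rw [← L.ep_flip, L.ep_of_flip, L.flip_flip] at e2
  rw [D_eq, e2, add_comm]

theorem D_cont : ContinuousOn (fun p : B × B => A.D p.1 p.2) {p | p.1 ≠ p.2} := by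
  refine (H824.D_cont L).congr fun p hp => ?_
  obtain ⟨x, h1, h2, -⟩ := L.exists_frame p.1 p.2 hp 0
  show A.D p.1 p.2 = H824.D L p.1 p.2
  rw [← h1, ← h2, A.D_eq, H824.D_eq]

theorem D_smul (g : Γ) : ∃ c : B → ℝ,
    ∀ ξ η, ξ ≠ η → A.D (g • ξ) (g • η) = A.D ξ η + c ξ + c η := by
  choose y hy using exists_em L
  refine ⟨fun ξ => L.lv (g • y ξ) - L.lv (y ξ), fun ξ η h => ?_⟩
  obtain ⟨x, rfl, rfl, -⟩ := L.exists_frame ξ η h 0
  have h1 := L.lv_smul g (y (L.em x)) x (hy _)
  have h2 := L.lv_smul g (y (L.ep x)) (L.flip x) (by rw [hy, L.ep_flip])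
  have h3 := D_eq A (g • x)
  rw [L.em_smul, L.ep_smul, L.flip_smul] at h3
  rw [h3, D_eq]
  beta_reduce
  linarith

theorem D_proper (hn : ∀ ξ η, ξ ≠ η → A.D ξ η ≤ 0) (c : ℝ) :
    IsCompact {p : B × B | p.1 ≠ p.2 ∧ c ≤ A.D p.1 p.2} := by
  rw [isCompact_iff_ultrafilter_le_nhds]
  intro U hU
  have hU' : ∀ᶠ p : B × B in U, p.1 ≠ p.2 ∧ c ≤ A.D p.1 p.2 := le_principal_iff.1 hU
  obtain ⟨p, -, hp⟩ := isCompact_univ.ultrafilter_le_nhds U (by simp)
  refine ⟨p, ?_, hp⟩
  have hne : p.1 ≠ p.2 := by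
    intro he
    have h0 : ∀ q : B × B, ∃ x : X, q.1 ≠ q.2 → L.em x = q.1 ∧ L.ep x = q.2 ∧ L.lv x = 0 := by
      intro q
      by_cases h : q.1 = q.2
      · exact ⟨L.nonempty.some, fun h' => absurd h h'⟩
      · obtain ⟨x, hx⟩ := L.exists_frame _ _ h 0
        exact ⟨x, fun _ => hx⟩
    choose x hx using h0
    have h1 : ∀ᶠ q in U, L.em (x q) = q.1 ∧ L.ep (x q) = q.2 ∧ L.lv (x q) = 0 :=
      hU'.mono fun q hq => hx q hq.1
    obtain ⟨K, hK, hcov⟩ := L.cocompact
    choose g hg using fun q => hcov (x q)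
    obtain ⟨w, -, hw⟩ := hK.ultrafilter_le_nhds (U.map fun q => g q • x q)
      (le_principal_iff.2 (Eventually.of_forall hg : ∀ᶠ q in U, g q • x q ∈ K))
    have hw : Tendsto (fun q => g q • x q) U (𝓝 w) := hw
    have hem : Tendsto (fun q => L.em (x q)) U (𝓝 p.1) :=
      ((continuous_fst.tendsto p).mono_left hp).congr' (h1.mono fun q hq => hq.1.symm)
    have hep : Tendsto (fun q => L.ep (x q)) U (𝓝 p.1) := by
      rw [he]
      exact ((continuous_snd.tendsto p).mono_left hp).congr' (h1.mono fun q hq => hq.2.1.symm)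
    obtain ⟨ζ', hζ'⟩ : ∃ ζ', p.1 ≠ ζ' := by
      by_cases h : p.1 = L.em w
      · exact ⟨L.ep w, by rw [h]; exact L.em_ne_ep w⟩
      · exact ⟨_, h⟩
    obtain ⟨β, -, hβ⟩ := isCompact_univ.ultrafilter_le_nhds (U.map fun q => g q • ζ') (by simp)
    have hβ : Tendsto (fun q => g q • ζ') U (𝓝 β) := hβ
    obtain ⟨g₀, hg₀⟩ : ∃ g₀ : Γ, ∀ᶠ q in U, g q = g₀ := by
      by_cases h : L.em w = β
      · refine ev_const L U (x := fun q => L.flip (x q)) (w := L.flip w) (M := |c|) ?_ ?_ ?_ hζ' hβ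
          ?_
        · simpa only [Function.comp_def, L.flip_smul] using (L.flip_cont.tendsto w).comp hw
        · filter_upwards [h1, hU'] with q hq hq'
          have h2 := D_eq A (x q)
          rw [hq.1, hq.2.1, hq.2.2, zero_add] at h2
          have h3 := hn _ _ hq'.1
          rw [← h2, abs_of_nonpos h3]
          linarith [neg_abs_le c, hq'.2]
        · simpa only [L.ep_flip] using hep
        · rw [← L.ep_flip, ← h]
          exact (L.em_ne_ep w).symm
      · exact ev_const L U (M := 0) hw (h1.mono fun q hq => by rw [hq.2.2, abs_zero]) hem hζ' hβ h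
    have hx' : Tendsto x U (𝓝 (g₀⁻¹ • w)) := by
      refine (((isometry_smul X g₀⁻¹).continuous.tendsto w).comp hw).congr' ?_
      filter_upwards [hg₀] with q hq
      simp only [Function.comp_apply, hq, inv_smul_smul]
    exact L.em_ne_ep (g₀⁻¹ • w)
      ((tendsto_nhds_unique ((L.em_cont.tendsto _).comp hx') hem).trans
        (tendsto_nhds_unique ((L.ep_cont.tendsto _).comp hx') hep).symm)
  refine ⟨hne, ?_⟩
  have hc : ContinuousAt (fun p : B × B => A.D p.1 p.2) p :=
    (D_cont A).continuousAt ((isOpen_ne_fun continuous_fst continuous_snd).mem_nhds hne)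
  exact ge_of_tendsto (hc.tendsto.mono_left hp) (hU'.mono fun q hq => hq.2)

theorem s_jc : JC A.s (univ ×ˢ ball 0 3) :=
  ⟨isOpen_univ.prod isOpen_ball, fun x => (A.s_smooth x).mono fun _ hu => hu.2, A.s_cont⟩

theorem nu_chart (x : X) (U : Set E2) (hU : MeasurableSet U) (hU3 : U ⊆ ball 0 3) :
    A.ν (L.e x '' U) =
      ∫⁻ u in U, ENNReal.ofReal (Real.exp (A.h * (A.D (L.em x) (L.e x u) - L.lv x)) * A.s x u) := by
  set j : ball (0 : E2) 3 → E2 := Subtype.val with hj
  have hjm : MeasurableEmbedding j := MeasurableEmbedding.subtype_coe measurableSet_ball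
  set f : ball (0 : E2) 3 → B := fun u => L.e x u.1 with hf
  have hfc : Continuous f := H824.e_cont' L continuous_const continuous_subtype_val
    fun u => ball_subset_closedBall u.2
  have hfo : IsOpenEmbedding f := by
    refine .of_continuous_injective_isOpenMap hfc (fun u v h => Subtype.ext
      (L.e_inj x (ball_subset_closedBall u.2) (ball_subset_closedBall v.2) h)) ?_
    rw [isOpenMap_iff_nhds_le]
    intro u
    have h1 : map j (𝓝 u) = 𝓝 u.1 := isOpen_ball.isOpenEmbedding_subtypeVal.map_nhds_eq u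
    rw [show f = L.e x ∘ j from rfl, ← map_map, h1, map_nhds L x u.2]
    rfl
  have hfm := hfo.measurableEmbedding
  have hD : Continuous fun u => A.D (L.em x) (f u) :=
    (D_cont A).comp_continuous (f := fun u => (L.em x, f u)) (by fun_prop)
      fun u => (L.e_ne x u.1 (ball_subset_closedBall u.2)).symm
  have hs : Continuous fun u => A.s x (j u) :=
    (A.s_smooth x).continuousOn.comp_continuous continuous_subtype_val fun u => u.2
  set a : ball (0 : E2) 3 → ENNReal :=
    fun u => ENNReal.ofReal (Real.exp (-A.h * L.lv x) * A.s x (j u)) with ha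
  set b : ball (0 : E2) 3 → ENNReal :=
    fun u => ENNReal.ofReal (Real.exp (-A.h * A.D (L.em x) (f u))) with hb
  set b' : ball (0 : E2) 3 → ENNReal :=
    fun u => ENNReal.ofReal (Real.exp (A.h * A.D (L.em x) (f u))) with hb'
  have ham : Measurable a := (ENNReal.continuous_ofReal.comp (by fun_prop)).measurable
  have hbm : Measurable b := (ENNReal.continuous_ofReal.comp (by fun_prop)).measurable
  have hbm' : Measurable b' := (ENNReal.continuous_ofReal.comp (by fun_prop)).measurable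
  have h1 : (volume.comap j).withDensity a = (A.ν.comap f).withDensity b := by
    ext V hV
    rw [withDensity_apply _ hV, withDensity_apply _ hV]
    have h2 := A.ν_chart x (j '' V) (hjm.measurableSet_image.2 hV)
      (by rintro _ ⟨u, -, rfl⟩; exact u.2)
    rw [image_image, lint_img hjm, lint_img hfm] at h2
    exact h2
  have h2 : A.ν.comap f = (volume.comap j).withDensity (a * b') := by
    rw [withDensity_mul _ ham hbm', h1, ← withDensity_mul _ hbm hbm']
    have : b * b' = 1 := by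
      funext u
      simp only [hb, hb', Pi.mul_apply, Pi.one_apply]
      rw [← ENNReal.ofReal_mul (Real.exp_pos _).le, ← Real.exp_add]
      simp
    rw [this, withDensity_one]
  have hUj : U = j '' (j ⁻¹' U) := by
    rw [image_preimage_eq_of_subset]
    intro u hu
    exact ⟨⟨u, hU3 hu⟩, rfl⟩
  have hV : MeasurableSet (j ⁻¹' U) := hjm.measurable hU
  rw [hUj, lint_img hjm, image_image, ← hfm.comap_apply, h2, withDensity_apply _ hV]
  refine lintegral_congr fun u => ?_
  simp only [ha, hb', Pi.mul_apply]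
  rw [← ENNReal.ofReal_mul (mul_pos (Real.exp_pos _) (A.s_pos x _ u.2)).le]
  congr 1
  rw [mul_right_comm, ← Real.exp_add]
  congr 2
  ring

end Area

variable (S : Sm L)

/-- `D` is smooth in one variable -/
theorem D_fst (x y : X) {v : E2} (hv : v ∈ ball (0 : E2) 3) :
    ContDiffOn ℝ ∞ (fun u => S.A.D (L.e x u) (L.e y v))
      {u | u ∈ ball (0 : E2) 3 ∧ L.e x u ≠ L.e y v} :=
  (S.f_jc.smooth (x, y)).comp (f := fun u : E2 => (u, v)) (by fun_prop)
    fun u hu => ⟨hu.1, hv, hu.2⟩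

theorem cocycle (g : Γ) : ∃ c : B → ℝ, IsFn L c ∧
    ∀ ξ η, ξ ≠ η → S.A.D (g • ξ) (g • η) = S.A.D ξ η + c ξ + c η := by
  obtain ⟨c, hc⟩ := D_smul S.A g
  refine ⟨c, fun x => ?_, hc⟩
  have hne : ∀ x : X, ∀ u ∈ ball (0 : E2) 3, L.e x u ≠ L.e (L.flip x) 0 := fun x u hu => by
    rw [e_flip]
    exact L.e_ne x u (ball_subset_closedBall hu)
  have h1 : ∀ x : X, ContDiffOn ℝ ∞ (fun u => S.A.D (L.e x u) (L.em x)) (ball 0 3) := fun x => by
    rw [← e_flip L x]
    exact (D_fst S x (L.flip x) z3).mono fun u hu => ⟨hu, hne x u hu⟩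
  refine (((h1 (g • x)).sub (h1 x)).sub (contDiffOn_const (c := c (L.em x)))).congr fun u hu => ?_
  have h2 := hc _ _ (L.e_ne x u (ball_subset_closedBall hu))
  rw [L.e_smul g x u (ball_subset_closedBall hu), L.em_smul, h2]
  ring

theorem rho_jc : JC S.rho (univ ×ˢ ball 0 3) := by
  have ho : IsOpen ((univ : Set X) ×ˢ ball (0 : E2) 3) := isOpen_univ.prod isOpen_ball
  have h1 := S.f_jc.pullback (c := fun x : X => (L.flip x, x)) (L.flip_cont.prodMk continuous_id)
  have h2 : JC (fun (_ : X) (u : E2) => (((0 : E2), u) : E2 × E2)) (univ ×ˢ ball 0 3) :=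
    (JC.const ho 0).prodMk (JC.id ho)
  have h3 := h1.comp' h2 fun p hp => ⟨z3, hp.2, by
    show L.e (L.flip p.1) 0 ≠ L.e p.1 p.2
    rw [e_flip]
    exact (L.e_ne p.1 p.2 (ball_subset_closedBall hp.2)).symm⟩
  have h4 : JC (fun (x : X) (u : E2) => S.A.D (L.em x) (L.e x u)) (univ ×ˢ ball 0 3) :=
    h3.congr fun p _ => by
      show _ = S.A.D (L.e (L.flip p.1) 0) (L.e p.1 p.2)
      rw [e_flip]
  exact (((JC.const ho S.A.h).mul (h4.sub (JC.param' ho L.lv_cont))).exp).mul (s_jc S.A)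

theorem rho_pos (x : X) {u : E2} (hu : u ∈ ball (0 : E2) 3) : 0 < S.rho x u :=
  mul_pos (Real.exp_pos _) (S.A.s_pos x u hu)

theorem rho_trans (x y : X) : ∀ u ∈ L.dm x y,
    S.rho x u = |(fderiv ℝ (L.τ x y) u).det| * S.rho y (L.τ x y u) := by
  have hW := H662.dm_open L x y
  have hsm : ContDiffOn ℝ ∞ (L.τ x y) (L.dm x y) := S.tau_jc.smooth (x, y)
  have hrho : ∀ x, ContinuousOn (S.rho x) (ball 0 3) := fun x =>
    ((rho_jc S).smooth x).continuousOn.mono fun u hu => ⟨mem_univ _, hu⟩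
  have hc1 : ContinuousOn (fun u => ENNReal.ofReal (S.rho x u)) (L.dm x y) :=
    ENNReal.continuous_ofReal.comp_continuousOn ((hrho x).mono fun u hu => hu.1)
  have hc2 : ContinuousOn (fun u =>
      ENNReal.ofReal (|(fderiv ℝ (L.τ x y) u).det| * S.rho y (L.τ x y u))) (L.dm x y) := by
    refine ENNReal.continuous_ofReal.comp_continuousOn (ContinuousOn.mul ?_ ?_)
    · exact (ContinuousLinearMap.continuous_det.comp_continuousOn
        (hsm.continuousOn_fderiv_of_isOpen hW (by simp))).abs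
    · exact (hrho y).comp hsm.continuousOn fun u hu => H662.tau_mem L hu
  have hae : (fun u => ENNReal.ofReal (S.rho x u)) =ᵐ[volume.restrict (L.dm x y)] fun u =>
      ENNReal.ofReal (|(fderiv ℝ (L.τ x y) u).det| * S.rho y (L.τ x y u)) := by
    refine ae_eq_of_forall_setLIntegral_eq_of_sigmaFinite₀
      (hc1.aemeasurable hW.measurableSet) (hc2.aemeasurable hW.measurableSet) fun V hV _ => ?_
    rw [Measure.restrict_restrict hV]
    have hU : MeasurableSet (V ∩ L.dm x y) := hV.inter hW.measurableSet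
    have hd : ∀ u ∈ V ∩ L.dm x y,
        HasFDerivWithinAt (L.τ x y) (fderiv ℝ (L.τ x y) u) (V ∩ L.dm x y) u := fun u hu =>
      ((hsm.contDiffAt (hW.mem_nhds hu.2)).differentiableAt
        (by simp)).hasFDerivAt.hasFDerivWithinAt
    have hinj : InjOn (L.τ x y) (V ∩ L.dm x y) := fun u hu v hv h =>
      L.e_inj x (ball_subset_closedBall hu.2.1) (ball_subset_closedBall hv.2.1) (by
        rw [← H662.e_tau L hu.2, ← H662.e_tau L hv.2, h])
    have h1 := nu_chart S.A x _ hU fun u hu => hu.2.1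
    have h2 := nu_chart S.A y _ (measurable_image_of_fderivWithin hU hd hinj) (by
      rintro _ ⟨u, hu, rfl⟩
      exact H662.tau_mem L hu.2)
    rw [image_image, image_congr (fun u hu => H662.e_tau L hu.2), h1,
      lintegral_image_eq_lintegral_abs_det_fderiv_mul volume hU hd hinj] at h2
    refine h2.trans (lintegral_congr fun u => ?_)
    rw [ENNReal.ofReal_mul (abs_nonneg _)]
    rfl
  intro u hu
  have h := Measure.eqOn_open_of_ae_eq hae hW hc1 hc2 hu
  exact (ENNReal.ofReal_eq_ofReal_iff (rho_pos S x hu.1).le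
    (mul_nonneg (abs_nonneg _) (rho_pos S y (H662.tau_mem L hu)).le)).1 h

end B0

variable [Dim]

variable {Γ X B : Type} [Group Γ] [MetricSpace X] [ProperSpace X] [MulAction Γ X]
  [IsIsometricSMul Γ X] [TopologicalSpace B] [CompactSpace B] [T2Space B] [MulAction Γ B]
  [ContinuousConstSMul Γ B] [MeasurableSpace B] [BorelSpace B] {L : Leaf Γ X B}

/-- **BASIC0** -/
theorem basic0 (S : Sm L) : Basic0 S where
  symm := fun _ _ h => B0.D_symm S.A h
  ep_fr := fun ξ => @Classical.epsilon_spec X (fun x => L.ep x = ξ) (H824.exists_ep L ξ)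
  cocycle := B0.cocycle S
  cont := B0.D_cont S.A
  proper := B0.D_proper S.A S.nonpos
  conn := B0.conn L
  nhds := fun x _ hu => B0.map_nhds L x hu
  rho_pos := fun x _ hu => B0.rho_pos S x hu
  rho_jc := B0.rho_jc S
  rho_nu := B0.nu_chart S.A
  rho_trans := B0.rho_trans S

end Vale.Agent.P207Z.SC
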