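import Vale.Agent.P207Z.Sm.Sk

/-!
# P207, the smooth case, block EXPO: linear algebra
-/

open Set Matrix

noncomputable section

namespace Vale.Agent.P207Z.SC.Expo

open Vale.Agent.P207.N4

section Gen
variable {ι κ : Type} [Fintype ι] [DecidableEq ι] [Fintype κ] [DecidableEq κ]
  {E : Type} [NormedAddCommGroup E] [InnerProductSpace ℝ E]

theorem one_le_det {R : Matrix ι ι ℝ} (h : R.PosSemidef) : 1 ≤ (1 + R).det := by
  have h1 := congrArg (Polynomial.eval (-1 : ℝ)) h.1.charpoly_eq
  rw [Matrix.eval_charpoly, Polynomial.eval_prod] at h1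
  have h2 : (Matrix.scalar ι) (-1 : ℝ) - R = -(1 + R) := by
    rw [map_neg, map_one]
    abel
  have h3 : ∀ i, Polynomial.eval (-1 : ℝ) (Polynomial.X - Polynomial.C
      ((RCLike.ofReal (h.1.eigenvalues i) : ℝ))) = (-1) * (1 + h.1.eigenvalues i) := fun i => by
    simp only [Polynomial.eval_sub, Polynomial.eval_X, Polynomial.eval_C, RCLike.ofReal_real_eq_id,
      id]
    ring
  rw [h2, Matrix.det_neg, Finset.prod_congr rfl fun i _ => h3 i, Finset.prod_mul_distrib,
    Finset.prod_const, Finset.card_univ] at h1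
  rw [mul_left_cancel₀ (pow_ne_zero _ (by norm_num)) h1]
  exact Finset.one_le_prod fun i _ => le_add_of_nonneg_right (h.eigenvalues_nonneg i)

open scoped MatrixOrder in
theorem det_le_add {S Q : Matrix ι ι ℝ} (hS : S.PosSemidef) (hQ : Q.PosSemidef) :
    S.det ≤ (S + Q).det := by
  by_cases h0 : S.det = 0
  · rw [h0]
    exact (hS.add hQ).det_nonneg
  obtain ⟨R, hR⟩ := CStarAlgebra.nonneg_iff_eq_star_mul_self.1 (Matrix.nonneg_iff_posSemidef.2 hS)
  have hd : S.det = (star R).det * R.det := by rw [hR, Matrix.det_mul]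
  have hR0 : IsUnit R.det := isUnit_iff_ne_zero.2 fun h => h0 (by rw [hd, h, mul_zero])
  have h1 : R⁻¹ * R = 1 := Matrix.nonsing_inv_mul R hR0
  have h2 : star R * (R⁻¹)ᴴ = 1 := by
    rw [Matrix.star_eq_conjTranspose, ← Matrix.conjTranspose_mul, h1, Matrix.conjTranspose_one]
  have h3 : S + Q = star R * (1 + (R⁻¹)ᴴ * Q * R⁻¹) * R := by
    rw [mul_add, add_mul, mul_one, ← hR, ← mul_assoc, ← mul_assoc, h2, one_mul, mul_assoc, h1,
      mul_one]
  have h4 := one_le_det (hQ.conjTranspose_mul_mul_same R⁻¹)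
  rw [h3, Matrix.det_mul, Matrix.det_mul, mul_right_comm, ← hd]
  exact le_mul_of_one_le_right hS.det_nonneg h4

theorem gram_sum_elim (w : ι → E) (d : κ → E) : gram ℝ (Sum.elim w d) =
    fromBlocks (gram ℝ w) (of fun i j => inner ℝ (w i) (d j))
      (of fun i j => inner ℝ (w i) (d j))ᴴ (gram ℝ d) := by
  ext (i | i) (j | j) <;> simp [gram, real_inner_comm]

/-- Fischer's inequality -/
theorem fischer (w : ι → E) (d : κ → E) :
    (gram ℝ (Sum.elim w d)).det ≤ (gram ℝ w).det * (gram ℝ d).det := by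
  by_cases h0 : (gram ℝ (Sum.elim w d)).det = 0
  · rw [h0]
    exact mul_nonneg (posSemidef_gram ℝ w).det_nonneg (posSemidef_gram ℝ d).det_nonneg
  have hD : (gram ℝ d).PosDef := posDef_gram_of_linearIndependent
    ((linearIndependent_of_det_gram_ne_zero h0).comp Sum.inr Sum.inr_injective)
  let _ : Invertible (gram ℝ d) := hD.isUnit.invertible
  have hP := posSemidef_gram ℝ (Sum.elim w d)
  rw [gram_sum_elim] at hP ⊢
  have h1 := det_le_add ((PosDef.fromBlocks₂₂ _ _ hD).1 hP)
    (hD.inv.posSemidef.mul_mul_conjTranspose_same (of fun i j => inner ℝ (w i) (d j)))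
  rw [sub_add_cancel] at h1
  rw [det_fromBlocks₂₂, invOf_eq_nonsing_inv, mul_comm]
  exact mul_le_mul_of_nonneg_right h1 hD.det_pos.le

theorem gram_comb (M : Matrix ι ι ℝ) (u : ι → E) :
    (gram ℝ fun j => ∑ i, M i j • u i).det = M.det ^ 2 * (gram ℝ u).det := by
  have h : (gram ℝ fun j => ∑ i, M i j • u i) = Mᵀ * gram ℝ u * M := by
    ext i j
    simp only [gram, of_apply, sum_inner, inner_sum, real_inner_smul_left, real_inner_smul_right,
      mul_apply, transpose_apply, Finset.sum_mul, Finset.mul_sum]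
    refine Finset.sum_congr rfl fun _ _ => Finset.sum_congr rfl fun _ _ => ?_
    ring
  rw [h, det_mul, det_mul, det_transpose]
  ring

theorem gram_bound (ι : Type) [Fintype ι] [DecidableEq ι] (C : ℝ) :
    ∃ C' : ℝ, ∀ u : ι → E, (∀ i, ‖u i‖ ≤ C) → (gram ℝ u).det ≤ C' := by
  refine ⟨(Fintype.card ι).factorial • (C * C) ^ Fintype.card ι, fun u hu => ?_⟩
  refine (le_abs_self _).trans (Matrix.det_le (abv := AbsoluteValue.abs) fun i j => ?_)
  exact (abs_real_inner_le_norm _ _).trans
    (mul_le_mul (hu i) (hu j) (norm_nonneg _) ((norm_nonneg _).trans (hu i)))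

end Gen

variable [Dim] {ι : Type} [Fintype ι] [DecidableEq ι]

theorem vdet_eq (u : Fin Dim.m → E2) :
    vdet u = (EuclideanSpace.basisFun (Fin Dim.m) ℝ).toBasis.det u := by
  rw [Module.Basis.det_apply, vdet, ← det_transpose]
  rfl

theorem vdet_map (S : E2 →ₗ[ℝ] E2) (u : Fin Dim.m → E2) :
    vdet (S ∘ u) = LinearMap.det S * vdet u := by
  rw [vdet_eq, vdet_eq, Module.Basis.det_comp]

theorem vdet_comb (M : Matrix (Fin Dim.m) (Fin Dim.m) ℝ) (u : Fin Dim.m → E2) :
    vdet (fun j => ∑ i, M i j • u i) = M.det * vdet u := by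
  rw [vdet, vdet, ← det_transpose M, ← det_mul]
  congr 1
  ext i j
  simp [mul_apply]

theorem gram_det (u : ι → E2) (e : Fin Dim.m ≃ ι) : (gram ℝ u).det = vdet (u ∘ e) ^ 2 := by
  have h : (gram ℝ u).submatrix e e = (of fun i j => (u ∘ e) i j) * (of fun i j => (u ∘ e) i j)ᵀ := by
    ext i j
    simp [gram, mul_apply, PiLp.inner_apply, mul_comm]
  rw [← det_submatrix_equiv_self e, h, det_mul, det_transpose, vdet, sq]

theorem li_of_vdet {d : Fin Dim.m → E2} (hd : vdet d ≠ 0) : LinearIndependent ℝ d := by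
  refine linearIndependent_of_det_gram_ne_zero (𝕜 := ℝ) ?_
  rw [gram_det d (Equiv.refl _)]
  exact pow_ne_zero _ hd

theorem vdet_sq_le (d : Fin Dim.m → E2) (p : Fin Dim.m → Prop) [DecidablePred p] :
    vdet d ^ 2 ≤ (gram ℝ fun i : {i // p i} => d i).det *
      (gram ℝ fun i : {i // ¬ p i} => d i).det := by
  refine le_trans (le_of_eq ?_) (fischer _ _)
  rw [gram_det _ (Equiv.sumCompl p).symm]
  congr 2
  funext i
  by_cases h : p i
  · simp [Equiv.sumCompl_symm_apply_of_pos h]
  · simp [Equiv.sumCompl_symm_apply_of_neg h]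

/-- the volume of the preimage of an orthonormal frame of the orthogonal complement -/
theorem key {k : ℕ} (s : ι → Fin Dim.m) (hs : Function.Injective s)
    (hk : Fintype.card ι + k = Dim.m) {d d' : Fin Dim.m → E2} (hd : vdet d ≠ 0) (T : E2 →L[ℝ] E2)
    (hT : ∀ i, T (d' i) = d i) : ∃ w w' : Fin k → E2, Orthonormal ℝ w ∧ (∀ i, T (w' i) = w i) ∧
      vdet d' ^ 2 * (gram ℝ fun i => d (s i)).det ≤
        vdet d ^ 2 * ((gram ℝ w').det * (gram ℝ fun i => d' (s i)).det) := by
  have hli := li_of_vdet hd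
  have hE : Module.finrank ℝ E2 = Dim.m := by simp
  let b : Module.Basis (Fin Dim.m) ℝ E2 :=
    basisOfLinearIndependentOfCardEqFinrank hli (by rw [hE, Fintype.card_fin])
  have hb : ∀ i, b i = d i := fun i => by simp [b]
  let S : E2 →ₗ[ℝ] E2 := b.constr ℝ d'
  have hS : ∀ i, S (d i) = d' i := fun i => by rw [← hb, Module.Basis.constr_basis]
  have hTS : ∀ z, T (S z) = z := fun z =>
    LinearMap.congr_fun (b.ext (f₁ := (T : E2 →ₗ[ℝ] E2) ∘ₗ S) (f₂ := LinearMap.id) fun i => by
      simp only [LinearMap.comp_apply, hb, hS, ContinuousLinearMap.coe_coe, hT, LinearMap.id_apply]) z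
  let W : Submodule ℝ E2 := Submodule.span ℝ (range fun i => d (s i))
  have hW : Module.finrank ℝ Wᗮ = k := by
    have h1 : Module.finrank ℝ W = Fintype.card ι := finrank_span_eq_card (hli.comp s hs)
    have h2 := W.finrank_add_finrank_orthogonal
    omega
  let o := (stdOrthonormalBasis ℝ Wᗮ).reindex (finCongr hW)
  let w : Fin k → E2 := fun i => o i
  have hw : Orthonormal ℝ w := o.orthonormal.comp_linearIsometry Wᗮ.subtypeₗᵢ
  let e : Fin Dim.m ≃ Fin k ⊕ ι := Fintype.equivOfCardEq (by simp; omega)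
  have h1 : (gram ℝ (Sum.elim w fun i => d (s i))).det = (gram ℝ fun i => d (s i)).det := by
    have h0 : (of fun i j => inner ℝ (w i) (d (s j))) = 0 := by
      ext i j
      exact Submodule.inner_left_of_mem_orthogonal (K := W)
        (Submodule.subset_span (mem_range_self j)) (o i).2
    rw [gram_sum_elim, h0, det_fromBlocks_zero₁₂, gram_eq_one_iff_orthonormal.2 hw, det_one, one_mul]
  have h2 : Sum.elim (S ∘ w) (fun i => d' (s i)) ∘ e = S ∘ (Sum.elim w (fun i => d (s i)) ∘ e) := by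
    funext i
    simp only [Function.comp_apply]
    rcases e i with j | j
    · rfl
    · exact (hS _).symm
  have h3 : vdet d' = LinearMap.det S * vdet d := by
    rw [← vdet_map]
    congr 1
    funext i
    exact (hS i).symm
  have h4 := fischer (S ∘ w) fun i => d' (s i)
  rw [gram_det _ e, h2, vdet_map, mul_pow, ← gram_det _ e, h1] at h4
  refine ⟨w, S ∘ w, hw, fun i => hTS _, ?_⟩
  rw [h3, mul_pow, mul_comm (_ ^ 2) (vdet d ^ 2), mul_assoc]
  exact mul_le_mul_of_nonneg_left h4 (sq_nonneg _)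

end Vale.Agent.P207Z.SC.Expo
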