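import Vale.Agent.P207Z.Sm.Fr
import Vale.Agent.P207Z.Sm.Trans.Ch

/-!
# P207, the smooth case: frames at points of the boundary and their transport
-/

open Set Filter Topology Metric MeasureTheory
open scoped ContDiff

noncomputable section

namespace Vale.Agent.P207Z.SC

open Vale.Agent.P207.N4 Vale.Agent.P207.N3

variable [Dim]

variable {Γ X B : Type} [Group Γ] [MetricSpace X] [ProperSpace X] [MulAction Γ X]
  [IsIsometricSMul Γ X] [TopologicalSpace B] [CompactSpace B] [T2Space B] [MulAction Γ B]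
  [ContinuousConstSMul Γ B] [MeasurableSpace B] [BorelSpace B] {L : Leaf Γ X B}
  {S : Sm L} {G : Type} [NormedAddCommGroup G] [NormedSpace ℝ G]

theorem zero_mem3 : (0 : E2) ∈ ball (0 : E2) 3 := mem_ball_self (by norm_num)

/-- a function which is continuous in all charts is continuous -/
theorem Basic0.continuous_of (h : Basic0 S) {T : Type*} [TopologicalSpace T] {g : B → T}
    (hg : ∀ x, ContinuousAt (fun u => g (L.e x u)) 0) : Continuous g := by
  refine continuous_iff_continuousAt.2 fun ξ => ?_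
  have h1 := hg (fr L ξ)
  rw [ContinuousAt, Tr.e_fr h] at h1
  have h2 := h.nhds (fr L ξ) 0 zero_mem3
  rw [Tr.e_fr h] at h2
  rw [ContinuousAt, ← h2, tendsto_map'_iff]
  exact h1

theorem IsFn.continuous (h : Basic0 S) {V : Type} [NormedAddCommGroup V] [NormedSpace ℝ V]
    {g : B → V} (hg : IsFn L g) : Continuous g :=
  h.continuous_of fun x => (hg x).continuousOn.continuousAt (isOpen_ball.mem_nhds zero_mem3)

namespace Alg

variable (A : Alg S G)

theorem van_iff {x : X} {u : E2} (hu : u ∈ ball (0 : E2) 3) (Z : G) :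
    A.Van (L.e x u) Z ↔ A.c Z x u = 0 :=
  ⟨fun h => h x u hu rfl, fun h => Tr.zero_of_chart (A.kill Z).1 ⟨u, hu, rfl⟩
    (by rwa [Tr.ch_e hu])⟩

theorem c_smooth (Z : G) (x : X) : ContDiffOn ℝ ∞ (A.c Z x) (ball 0 3) := (A.kill Z).1.1 x

theorem f_smooth (Z : G) : IsFn L (A.f Z) := (A.kill Z).2.1

variable [FiniteDimensional ℝ G]

/-- the value of the fields at a point of a chart -/
def cl (x : X) (u : E2) : G →L[ℝ] E2 :=
  LinearMap.toContinuousLinearMap (LinearMap.proj u ∘ₗ LinearMap.proj x ∘ₗ A.c)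

theorem cl_apply (x : X) (u : E2) (Z : G) : A.cl x u Z = A.c Z x u := rfl

/-- the value of the functions at a point -/
def fl (ξ : B) : G →L[ℝ] ℝ := LinearMap.toContinuousLinearMap (LinearMap.proj ξ ∘ₗ A.f)

theorem fl_apply (ξ : B) (Z : G) : A.fl ξ Z = A.f Z ξ := rfl

theorem cl_smooth (x : X) : ContDiffOn ℝ ∞ (A.cl x) (ball 0 3) :=
  contDiffOn_clm_apply.2 fun Z => A.c_smooth Z x

theorem fl_smooth : IsFn L A.fl := fun x => contDiffOn_clm_apply.2 fun Z => A.f_smooth Z x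

variable {A} {lam : Fin Dim.m → ℝ} {θ : G ≃L[ℝ] G} {ξ : B} {v : G} {Y : Fin Dim.m → G}

theorem Van.add {Z W : G} (hZ : A.Van ξ Z) (hW : A.Van ξ W) : A.Van ξ (Z + W) :=
  fun x u hu he => by rw [← cl_apply, map_add, cl_apply, cl_apply, hZ x u hu he, hW x u hu he,
    add_zero]

theorem Van.smul {Z : G} (hZ : A.Van ξ Z) (r : ℝ) : A.Van ξ (r • Z) :=
  fun x u hu he => by rw [← cl_apply, map_smul, cl_apply, hZ x u hu he, smul_zero]

theorem Van.sub {Z W : G} (hZ : A.Van ξ Z) (hW : A.Van ξ W) : A.Van ξ (Z - W) :=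
  fun x u hu he => by rw [← cl_apply, map_sub, cl_apply, cl_apply, hZ x u hu he, hW x u hu he,
    sub_zero]

/-- the projection which removes the negative root spaces -/
def pr (A : Alg S G) (lam : Fin Dim.m → ℝ) (θ : G ≃L[ℝ] G) (Y : Fin Dim.m → G) (Z : G) : G :=
  Z - ∑ i, A.ip lam θ Z (θ (Y i)) • θ (Y i)

theorem ip_pr (hF : A.Frame lam θ v Y) (Z : G) (j : Fin Dim.m) :
    A.ip lam θ (A.pr lam θ Y Z) (θ (Y j)) = 0 := by
  simp [pr, LA.ip_sub_left, LA.ip_sum_left, LA.ip_smul_left, hF.on_th]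

/-- the value of a field is a combination of the values of the `θ (Y i)` -/
theorem c_of_pr {x : X} {u : E2} {Z : G} (h : A.c (A.pr lam θ Y Z) x u = 0) :
    A.c Z x u = ∑ i, A.ip lam θ Z (θ (Y i)) • A.c (θ (Y i)) x u := by
  rw [← cl_apply, pr, map_sub, map_sum, sub_eq_zero] at h
  simpa only [map_smul, cl_apply] using h

theorem basis_of (htr : A.Trans) {x : X} {u : E2} (hu : u ∈ ball (0 : E2) 3)
    (h : ∀ Z, A.c (A.pr lam θ Y Z) x u = 0) :
    ∃ b : Module.Basis (Fin Dim.m) ℝ E2, ∀ i, b i = A.c (θ (Y i)) x u := by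
  refine ⟨basisOfTopLeSpanOfCardEqFinrank (fun i => A.c (θ (Y i)) x u) (fun w _ => ?_)
    (by simp), fun i => by simp⟩
  obtain ⟨Z, rfl⟩ := htr x u hu w
  change A.c Z x u ∈ _
  rw [c_of_pr (h Z)]
  exact Submodule.sum_mem _ fun i _ => Submodule.smul_mem _ _ (Submodule.subset_span ⟨i, rfl⟩)

/-- a criterion with closed conditions -/
theorem car_of (h : Basic0 S) (htr : A.Trans) (hF : A.Frame lam θ v Y)
    (h1 : ∀ Z, A.Van ξ (A.pr lam θ Y Z))
    (h2 : ∀ Z, A.f (A.pr lam θ Y Z) ξ = A.ip lam θ v (A.pr lam θ Y Z)) :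
    A.Car lam θ ξ v Y := by
  have h3 : ∀ Z, A.c (A.pr lam θ Y Z) (fr L ξ) 0 = 0 := fun Z =>
    h1 Z _ _ zero_mem3 (Tr.e_fr h ξ)
  have h4 : ∀ Z, A.Van ξ Z → ∀ i, A.ip lam θ Z (θ (Y i)) = 0 := fun Z hZ => by
    obtain ⟨b, hb⟩ := basis_of htr zero_mem3 h3
    have h5 := c_of_pr (h3 Z)
    rw [hZ _ _ zero_mem3 (Tr.e_fr h ξ)] at h5
    simp only [← hb] at h5
    exact Fintype.linearIndependent_iff.1 b.linearIndependent _ h5.symm
  have h6 : ∀ Z, (∀ i, A.ip lam θ Z (θ (Y i)) = 0) → A.pr lam θ Y Z = Z := fun Z hZ => by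
    simp [pr, hZ]
  exact ⟨hF, fun Z => ⟨h4 Z, fun hZ => h6 Z hZ ▸ h1 Z⟩, fun Z hZ => h6 Z (h4 Z hZ) ▸ h2 Z⟩

namespace Car

variable (hc : A.Car lam θ ξ v Y)

include hc

theorem van_pr (Z : G) : A.Van ξ (A.pr lam θ Y Z) := (hc.stab _).2 (ip_pr hc.toFrame Z)

omit [FiniteDimensional ℝ G] in
theorem van_Y (i : Fin Dim.m) : A.Van ξ (Y i) := (hc.stab _).2 (hc.ip_Y_th i)

omit [FiniteDimensional ℝ G] in
theorem van_v : A.Van ξ v := (hc.stab _).2 hc.ip_v_th

omit [FiniteDimensional ℝ G] in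
theorem f_v : A.f v ξ = 1 := by rw [hc.f_stab _ hc.van_v, hc.unit]

omit [FiniteDimensional ℝ G] in
theorem f_Y (i : Fin Dim.m) : A.f (Y i) ξ = 0 := by rw [hc.f_stab _ (hc.van_Y i), hc.ip_v_Y]

theorem c_eq {x : X} {u : E2} (hu : u ∈ ball (0 : E2) 3) (he : L.e x u = ξ) (Z : G) :
    A.c Z x u = ∑ i, A.ip lam θ Z (θ (Y i)) • A.c (θ (Y i)) x u :=
  c_of_pr (hc.van_pr Z x u hu he)

/-- the values of the `θ (Y i)` are a basis of the tangent space -/
theorem basis (htr : A.Trans) {x : X} {u : E2} (hu : u ∈ ball (0 : E2) 3) (he : L.e x u = ξ) :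
    ∃ b : Module.Basis (Fin Dim.m) ℝ E2, ∀ i, b i = A.c (θ (Y i)) x u :=
  basis_of htr hu fun Z => hc.van_pr Z x u hu he

theorem vdet_ne (htr : A.Trans) {x : X} {u : E2} (hu : u ∈ ball (0 : E2) 3) (he : L.e x u = ξ) :
    vdet (fun i => A.c (θ (Y i)) x u) ≠ 0 := by
  obtain ⟨b, hb⟩ := hc.basis htr hu he
  have h1 := ((EuclideanSpace.basisFun (Fin Dim.m) ℝ).toBasis.isUnit_det b).ne_zero
  rw [Module.Basis.det_apply, ← Matrix.det_transpose] at h1
  unfold vdet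
  refine fun h0 => h1 (Eq.trans ?_ h0)
  congr 1
  ext i j
  simp [Module.Basis.toMatrix_apply, hb]

theorem c_add {x : X} {u : E2} (hu : u ∈ ball (0 : E2) 3) (he : L.e x u = ξ) (i : Fin Dim.m) :
    A.c (Y i + θ (Y i)) x u = A.c (θ (Y i)) x u := by
  rw [← cl_apply, map_add, cl_apply, cl_apply, hc.van_Y i x u hu he, zero_add]

/-- the elements of `𝔭` which vanish at the point -/
theorem p_van {P : G} (hP : θ P = -P) (h0 : A.Van ξ P) : P = A.f P ξ • v := by
  have h1 := (hc.stab P).1 h0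
  have h2 : ∀ i, A.ip lam θ P (Y i) = 0 := fun i => by
    have := hc.ip_p_th hP (Y i)
    rw [h1 i] at this
    linarith
  rw [hc.f_stab P h0]
  exact hc.p_ker hP (hc.ker_of h2 h1)

/-- `v` is determined by the point -/
theorem uniq {v' : G} {Y' : Fin Dim.m → G} (hc' : A.Car lam θ ξ v' Y') : v' = v := by
  have h := hc.p_van hc'.neg hc'.van_v
  rwa [hc'.f_v, one_smul] at h

/-- every field is the sum of an element of `𝔨` and of a field which vanishes at the point -/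
theorem k_dec (Z : G) : ∃ k, θ k = k ∧ A.Van ξ (Z - k) := by
  refine ⟨∑ i, A.ip lam θ Z (θ (Y i)) • (Y i + θ (Y i)), ?_, (hc.stab _).2 fun j => ?_⟩
  · simp only [map_sum, map_smul, hc.th_add]
  · simp [LA.ip_sub_left, LA.ip_sum_left, LA.ip_smul_left, LA.ip_add_left, hc.ip_Y_th, hc.on_th]

/-- **transport of frames** along a driven curve -/
theorem flow (ht : A.Transport) {k : ℝ → G} (hk : Continuous k) {γ : ℝ → B}
    (hγ : Drv L (fun t => A.c (k t)) γ) (h0 : γ 0 = ξ) {g : ℝ → G ≃L[ℝ] G}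
    (hg : A.IsFlow k g) (t : ℝ) :
    A.Car lam (conj (g t) θ) (γ t) (g t v) fun i => g t (Y i) := by
  have ha := hg.aut hk t
  have h1 : ∀ W, A.Van ξ W → A.Van (γ t) (g t W) ∧ A.f (g t W) (γ t) = A.f W ξ := fun W hW => by
    have := ht.van k (fun s => g s W) γ hk (hg.der W) hγ (by rwa [h0, hg.zero]) t
    rwa [h0, hg.zero] at this
  have h2 : ∀ W, A.Van (γ t) (g t W) → A.Van ξ W := fun W hW => by
    have := (ht.van (fun s => k (s + t)) (fun s => g (s + t) W) (fun s => γ (s + t))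
      (hk.comp (continuous_add_const t)) (fun s => (hg.der W (s + t)).comp_add_const s t)
      (hγ.shift t) (by rwa [zero_add]) (-t)).1
    rwa [neg_add_cancel, h0, hg.zero] at this
  refine ⟨hc.toFrame.map ha, fun Z => ?_, fun Z hZ => ?_⟩
  · obtain ⟨W, rfl⟩ := (g t).surjective Z
    simp only [conj_map, ha.ip_conj]
    exact ⟨fun h => (hc.stab W).1 (h2 W h), fun h => (h1 W ((hc.stab W).2 h)).1⟩
  · obtain ⟨W, rfl⟩ := (g t).surjective Z
    rw [ha.ip_conj, (h1 W (h2 W hZ)).2, hc.f_stab W (h2 W hZ)]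

/-- transport of frames by elements of `𝔨` -/
theorem flow_k (ht : A.Transport) {k : ℝ → G} (hk : Continuous k) (hθ : ∀ t, θ (k t) = k t)
    {γ : ℝ → B} (hγ : Drv L (fun t => A.c (k t)) γ) (h0 : γ 0 = ξ) {g : ℝ → G ≃L[ℝ] G}
    (hg : A.IsFlow k g) (t : ℝ) : A.Car lam θ (γ t) (g t v) fun i => g t (Y i) := by
  have h := hc.flow ht hk hγ h0 hg t
  rwa [hg.conj_eq hk hc.aut hθ] at h

end Car

/-- the flow of one field through one point -/
theorem exists_curve (A : Alg S G) (hi : IC L) (Z : G) (ξ : B) :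
    ∃ (γ : ℝ → B) (g : ℝ → G ≃L[ℝ] G), γ 0 = ξ ∧ Drv L (fun _ => A.c Z) γ ∧
      A.IsFlow (fun _ => Z) g := by
  obtain ⟨γ, h0, hγ⟩ := hi _ (A.kill Z).1 ξ
  obtain ⟨g, hg⟩ := A.exists_flow (k := fun _ => Z) continuous_const fun _ => le_rfl
  exact ⟨γ, g, h0, hγ, hg⟩

end Alg

end Vale.Agent.P207Z.SC
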