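import Vale.Agent.P207Z.Sm.Sk
import Vale.Agent.P207.SPH.H761.Dyson

/-!
# P207, the smooth case: the Killing form, rank one frames, flows of automorphisms
-/

open Set Filter Topology Metric
open scoped ContDiff

noncomputable section

namespace Vale.Agent.P207Z.SC

/-- uniqueness for linear equations with continuous coefficients -/
theorem lin_uniq {E : Type} [NormedAddCommGroup E] [NormedSpace ℝ E] {a : ℝ → E →L[ℝ] E}
    (ha : Continuous a) {y z : ℝ → E} (hy : ∀ t, HasDerivAt y (a t (y t)) t)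
    (hz : ∀ t, HasDerivAt z (a t (z t)) t) {t₀ : ℝ} (h0 : y t₀ = z t₀) (t : ℝ) : y t = z t := by
  obtain ⟨C, hC⟩ := (isCompact_Icc (a := -(|t| + |t₀| + 1)) (b := |t| + |t₀| + 1)
    ).exists_bound_of_continuousOn ha.continuousOn
  have h1 := abs_nonneg t
  have h2 := abs_nonneg t₀
  refine ODE_solution_unique_of_mem_Ioo (v := fun t y => a t y) (s := fun _ => univ)
    (K := Real.toNNReal C) (a := -(|t| + |t₀| + 1)) (b := |t| + |t₀| + 1) (t₀ := t₀)
    (fun s hs => ?_) ⟨by linarith [neg_abs_le t₀], by linarith [le_abs_self t₀]⟩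
    (fun s _ => ⟨hy s, mem_univ _⟩) (fun s _ => ⟨hz s, mem_univ _⟩) h0
    ⟨by linarith [neg_abs_le t], by linarith [le_abs_self t]⟩
  refine ((a s).lipschitz.weaken ?_).lipschitzOnWith
  exact NNReal.coe_le_coe.1 ((hC s (Ioo_subset_Icc_self hs)).trans (Real.le_coe_toNNReal C))

/-- conjugation of an involution -/
def conj {G : Type} [NormedAddCommGroup G] [NormedSpace ℝ G] (g θ : G ≃L[ℝ] G) : G ≃L[ℝ] G :=
  (g.symm.trans θ).trans g

theorem conj_apply {G : Type} [NormedAddCommGroup G] [NormedSpace ℝ G] (g θ : G ≃L[ℝ] G) (Z : G) :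
    conj g θ Z = g (θ (g.symm Z)) := rfl

theorem conj_map {G : Type} [NormedAddCommGroup G] [NormedSpace ℝ G] (g θ : G ≃L[ℝ] G) (Z : G) :
    conj g θ (g Z) = g (θ Z) := by rw [conj_apply, g.symm_apply_apply]

theorem conj_eq {G : Type} [NormedAddCommGroup G] [NormedSpace ℝ G] {g θ : G ≃L[ℝ] G}
    (h : ∀ Z, g (θ Z) = θ (g Z)) : conj g θ = θ := by
  ext Z
  change g (θ (g.symm Z)) = θ Z
  rw [h, g.apply_symm_apply]

namespace LA

variable {G : Type} [NormedAddCommGroup G] [NormedSpace ℝ G] (A : LA G)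

theorem br_self (a : G) : A.br a a = 0 := by
  have h := A.anti a a
  have h2 : (2 : ℝ) • A.br a a = 0 := by rw [two_smul]; exact add_eq_zero_iff_eq_neg.2 h
  exact (smul_eq_zero.1 h2).resolve_left two_ne_zero

theorem br_br (a b : G) : A.br (A.br a b) = A.br a ∘L A.br b - A.br b ∘L A.br a := by
  ext c
  simp only [sub_apply, ContinuousLinearMap.comp_apply]
  rw [A.jac a b c, add_sub_cancel_right]

theorem kil_symm (a b : G) : A.kil a b = A.kil b a := by
  unfold kil
  rw [ContinuousLinearMap.toLinearMap_comp, ContinuousLinearMap.toLinearMap_comp]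
  exact LinearMap.trace_mul_comm ℝ (A.br a : G →ₗ[ℝ] G) (A.br b : G →ₗ[ℝ] G)

theorem kil_add (a b c : G) : A.kil a (b + c) = A.kil a b + A.kil a c := by
  unfold kil
  rw [map_add, ContinuousLinearMap.comp_add, ContinuousLinearMap.toLinearMap_add, map_add]

theorem kil_smul (r : ℝ) (a b : G) : A.kil a (r • b) = r * A.kil a b := by
  unfold kil
  rw [map_smul, ContinuousLinearMap.comp_smul, ContinuousLinearMap.toLinearMap_smul, map_smul,
    smul_eq_mul]

/-- the Killing form as a bilinear map -/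
def kilL : G →ₗ[ℝ] G →ₗ[ℝ] ℝ :=
  LinearMap.mk₂ ℝ A.kil
    (fun a b c => by rw [A.kil_symm, A.kil_add, A.kil_symm c a, A.kil_symm c b])
    (fun r a b => by rw [A.kil_symm, A.kil_smul, A.kil_symm b a, smul_eq_mul])
    A.kil_add (fun r a b => A.kil_smul r a b)

theorem kilL_apply (a b : G) : A.kilL a b = A.kil a b := rfl

theorem kil_neg (a b : G) : A.kil a (-b) = -A.kil a b := map_neg (A.kilL a) b

theorem kil_br (a b c : G) : A.kil (A.br a b) c = A.kil a (A.br b c) := by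
  unfold kil
  rw [A.br_br, A.br_br]
  have h := LinearMap.trace_mul_comm ℝ (A.br b : G →ₗ[ℝ] G)
    ((A.br a : G →ₗ[ℝ] G) * (A.br c : G →ₗ[ℝ] G))
  simp only [ContinuousLinearMap.sub_comp, ContinuousLinearMap.comp_sub,
    ContinuousLinearMap.toLinearMap_sub, ContinuousLinearMap.toLinearMap_comp, map_sub,
    ← Module.End.mul_eq_comp, mul_assoc] at h ⊢
  rw [h]

variable {A}

theorem IsAut.symm {g : G ≃L[ℝ] G} (hg : A.IsAut g) : A.IsAut g.symm := fun a b => by
  apply g.injective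
  rw [g.apply_symm_apply, hg, g.apply_symm_apply, g.apply_symm_apply]

theorem IsAut.conj {g θ : G ≃L[ℝ] G} (hg : A.IsAut g) (hθ : A.IsAut θ) : A.IsAut (conj g θ) :=
  fun a b => by rw [conj_apply, conj_apply, conj_apply, hg.symm, hθ, hg]

theorem IsAut.kil [FiniteDimensional ℝ G] {g : G ≃L[ℝ] G} (hg : A.IsAut g) (a b : G) :
    A.kil (g a) (g b) = A.kil a b := by
  unfold LA.kil
  rw [← LinearMap.trace_conj' ((A.br a ∘L A.br b : G →L[ℝ] G) : G →ₗ[ℝ] G) g.toLinearEquiv]
  congr 1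
  ext c
  change A.br (g a) (A.br (g b) c) = g (A.br a (A.br b (g.symm c)))
  rw [hg, hg, g.apply_symm_apply]

variable (A) {n : ℕ} (lam : Fin n → ℝ) (θ : G ≃L[ℝ] G)

/-- the scalar product as a bilinear map -/
def ipL : G →ₗ[ℝ] G →ₗ[ℝ] ℝ :=
  (-(2 * ∑ i, lam i ^ 2)⁻¹) • A.kilL.compl₂ (θ : G →L[ℝ] G).toLinearMap

theorem ipL_apply (a b : G) : A.ipL lam θ a b = A.ip lam θ a b := by
  simp only [ipL, ip, LinearMap.smul_apply, LinearMap.compl₂_apply, kilL_apply, smul_eq_mul,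
    ContinuousLinearMap.coe_coe, ContinuousLinearEquiv.coe_coe]
  ring

/-- the scalar product as a continuous bilinear map -/
def ipC [FiniteDimensional ℝ G] : G →L[ℝ] G →L[ℝ] ℝ :=
  LinearMap.toContinuousLinearMap
    ((LinearMap.toContinuousLinearMap : (G →ₗ[ℝ] ℝ) ≃ₗ[ℝ] _).toLinearMap ∘ₗ A.ipL lam θ)

theorem ipC_apply [FiniteDimensional ℝ G] (a b : G) : A.ipC lam θ a b = A.ip lam θ a b :=
  A.ipL_apply lam θ a b

theorem ip_cont [FiniteDimensional ℝ G] {T : Type*} [TopologicalSpace T] {a b : T → G}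
    (ha : Continuous a) (hb : Continuous b) : Continuous fun t => A.ip lam θ (a t) (b t) := by
  simp only [← ipC_apply]
  exact ((A.ipC lam θ).continuous.comp ha).clm_apply hb

theorem ip_add_left (a b c : G) :
    A.ip lam θ (a + b) c = A.ip lam θ a c + A.ip lam θ b c := by
  simp only [← ipL_apply, map_add, LinearMap.add_apply]

theorem ip_add_right (a b c : G) :
    A.ip lam θ a (b + c) = A.ip lam θ a b + A.ip lam θ a c := by
  simp only [← ipL_apply, map_add]

theorem ip_sub_left (a b c : G) :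
    A.ip lam θ (a - b) c = A.ip lam θ a c - A.ip lam θ b c := by
  simp only [← ipL_apply, map_sub, LinearMap.sub_apply]

theorem ip_sub_right (a b c : G) :
    A.ip lam θ a (b - c) = A.ip lam θ a b - A.ip lam θ a c := by
  simp only [← ipL_apply, map_sub]

theorem ip_smul_left (r : ℝ) (a b : G) : A.ip lam θ (r • a) b = r * A.ip lam θ a b := by
  simp only [← ipL_apply, map_smul, LinearMap.smul_apply, smul_eq_mul]

theorem ip_smul_right (r : ℝ) (a b : G) : A.ip lam θ a (r • b) = r * A.ip lam θ a b := by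
  simp only [← ipL_apply, map_smul, smul_eq_mul]

theorem ip_neg_left (a b : G) : A.ip lam θ (-a) b = -A.ip lam θ a b := by
  simp only [← ipL_apply, map_neg, LinearMap.neg_apply]

theorem ip_neg_right (a b : G) : A.ip lam θ a (-b) = -A.ip lam θ a b := by
  simp only [← ipL_apply, map_neg]

theorem ip_zero_left (b : G) : A.ip lam θ 0 b = 0 := by
  simp only [← ipL_apply, map_zero, LinearMap.zero_apply]

theorem ip_zero_right (a : G) : A.ip lam θ a 0 = 0 := by
  simp only [← ipL_apply, map_zero]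

theorem ip_sum_left {ι : Type*} (s : Finset ι) (a : ι → G) (b : G) :
    A.ip lam θ (∑ i ∈ s, a i) b = ∑ i ∈ s, A.ip lam θ (a i) b := by
  simp only [← ipL_apply, map_sum, LinearMap.sum_apply]

theorem ip_sum_right {ι : Type*} (s : Finset ι) (a : G) (b : ι → G) :
    A.ip lam θ a (∑ i ∈ s, b i) = ∑ i ∈ s, A.ip lam θ a (b i) := by
  simp only [← ipL_apply, map_sum]

variable {A lam θ} [FiniteDimensional ℝ G]

theorem IsAut.ip_conj {g : G ≃L[ℝ] G} (hg : A.IsAut g) (lam : Fin n → ℝ) (θ : G ≃L[ℝ] G)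
    (a b : G) : A.ip lam (SC.conj g θ) (g a) (g b) = A.ip lam θ a b := by
  unfold ip
  rw [conj_map, hg.kil]

namespace Frame

variable {v : G} {Y : Fin n → G} (hF : A.Frame lam θ v Y)

include hF

theorem ip_th (a b : G) : A.ip lam θ (θ a) (θ b) = A.ip lam θ a b := by
  unfold ip
  rw [hF.aut.kil]

theorem ip_symm (a b : G) : A.ip lam θ a b = A.ip lam θ b a := by
  unfold ip
  rw [← hF.aut.kil a, hF.inv, A.kil_symm]

theorem ip_th_left (a b : G) : A.ip lam θ (θ a) b = A.ip lam θ a (θ b) := by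
  rw [← hF.ip_th, hF.inv]

omit [FiniteDimensional ℝ G] in
/-- the adjoint of `ad z` is `- ad (θ z)` -/
theorem ip_br (z a b : G) : A.ip lam θ (A.br z a) b = -A.ip lam θ a (A.br (θ z) b) := by
  unfold ip
  rw [A.anti z a, A.kil_symm (-_), A.kil_neg, A.kil_symm (θ b), A.kil_br, hF.aut, hF.inv]
  ring

omit [FiniteDimensional ℝ G] in
theorem ip_nonneg (Z : G) : 0 ≤ A.ip lam θ Z Z := by
  by_cases h : Z = 0
  · rw [h, ip_zero_left]
  · exact (hF.pos Z h).le

omit [FiniteDimensional ℝ G] in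
theorem eq_zero {Z : G} (h : A.ip lam θ Z Z ≤ 0) : Z = 0 := by
  by_contra h0
  exact absurd (hF.pos Z h0) (not_lt.2 h)

/-- `𝔭` and `𝔨` are orthogonal -/
theorem ip_pk {P k : G} (hP : θ P = -P) (hk : θ k = k) : A.ip lam θ P k = 0 := by
  have h := hF.ip_th P k
  rw [hP, hk, ip_neg_left] at h
  linarith

omit [FiniteDimensional ℝ G] in
/-- eigenvectors of an element of `𝔭` for different eigenvalues are orthogonal -/
theorem orth {P a b : G} (hP : θ P = -P) {r s : ℝ} (ha : A.br P a = r • a)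
    (hb : A.br P b = s • b) (hrs : r ≠ s) : A.ip lam θ a b = 0 := by
  have h := hF.ip_br P a b
  rw [hP, map_neg, neg_apply, ha, hb, ip_neg_right, ip_smul_left,
    ip_smul_right, neg_neg] at h
  have h2 : (r - s) * A.ip lam θ a b = 0 := by linarith
  exact (mul_eq_zero.1 h2).resolve_left (sub_ne_zero.2 hrs)

omit [FiniteDimensional ℝ G] in
theorem eig_th (i : Fin n) : A.br v (θ (Y i)) = (-lam i) • θ (Y i) := by
  have h := hF.aut v (Y i)
  rw [hF.eig, hF.neg, map_smul, map_neg, neg_apply] at h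
  rw [neg_smul, h, neg_neg]

omit [FiniteDimensional ℝ G] in
theorem ip_Y_th (i j : Fin n) : A.ip lam θ (Y i) (θ (Y j)) = 0 :=
  hF.orth hF.neg (hF.eig i) (hF.eig_th j) (by linarith [hF.lam_pos i, hF.lam_pos j])

omit [FiniteDimensional ℝ G] in
theorem ip_th_Y (i j : Fin n) : A.ip lam θ (θ (Y i)) (Y j) = 0 :=
  hF.orth hF.neg (hF.eig_th i) (hF.eig j) (by linarith [hF.lam_pos i, hF.lam_pos j])

theorem on_th (i j : Fin n) : A.ip lam θ (θ (Y i)) (θ (Y j)) = if i = j then 1 else 0 := by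
  rw [hF.ip_th, hF.on]

omit [FiniteDimensional ℝ G] in
theorem ip_ker_Y {Z : G} (hZ : A.br v Z = 0) (i : Fin n) : A.ip lam θ Z (Y i) = 0 :=
  hF.orth hF.neg (r := 0) (by rw [hZ, zero_smul]) (hF.eig i) (hF.lam_pos i).ne

omit [FiniteDimensional ℝ G] in
theorem ip_ker_th {Z : G} (hZ : A.br v Z = 0) (i : Fin n) : A.ip lam θ Z (θ (Y i)) = 0 :=
  hF.orth hF.neg (r := 0) (by rw [hZ, zero_smul]) (hF.eig_th i)
    (by linarith [hF.lam_pos i])

omit [FiniteDimensional ℝ G] in
theorem ip_v_Y (i : Fin n) : A.ip lam θ v (Y i) = 0 := hF.ip_ker_Y (A.br_self v) i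

omit [FiniteDimensional ℝ G] in
theorem ip_v_th (i : Fin n) : A.ip lam θ v (θ (Y i)) = 0 := hF.ip_ker_th (A.br_self v) i

/-- the coefficients of the decomposition -/
theorem coef (Z : G) : A.br v (Z - ∑ i, A.ip lam θ Z (Y i) • Y i -
    ∑ i, A.ip lam θ Z (θ (Y i)) • θ (Y i)) = 0 := by
  obtain ⟨Z₀, s, t, h0, hZ⟩ := hF.dec Z
  have hs : ∀ j, A.ip lam θ Z (Y j) = s j := fun j => by
    rw [hZ]
    simp [ip_add_left, ip_sum_left, ip_smul_left, hF.ip_ker_Y h0, hF.on, hF.ip_th_Y]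
  have ht : ∀ j, A.ip lam θ Z (θ (Y j)) = t j := fun j => by
    rw [hZ]
    simp [ip_add_left, ip_sum_left, ip_smul_left, hF.ip_ker_th h0, hF.on_th, hF.ip_Y_th]
  simp only [hs, ht]
  rw [← h0]
  congr 1
  rw [hZ]
  abel

/-- an element which is orthogonal to all `Y i`, `θ (Y i)` commutes with `v` -/
theorem ker_of {Z : G} (h1 : ∀ i, A.ip lam θ Z (Y i) = 0)
    (h2 : ∀ i, A.ip lam θ Z (θ (Y i)) = 0) : A.br v Z = 0 := by
  simpa [h1, h2] using hF.coef Z

theorem ip_p_th {P : G} (hP : θ P = -P) (a : G) : A.ip lam θ P (θ a) = -A.ip lam θ P a := by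
  rw [← hF.ip_th_left, hP, ip_neg_left]

omit [FiniteDimensional ℝ G] in
/-- rank one -/
theorem p_ker {P : G} (hP : θ P = -P) (h0 : A.br v P = 0) : P = A.ip lam θ v P • v := by
  have h := hF.zero P h0
  rw [map_sub, map_smul, hP, hF.neg] at h
  have h2 : (2 : ℝ) • (P - A.ip lam θ v P • v) = 0 := by
    rw [two_smul]
    nth_rewrite 1 [← h]
    rw [smul_neg]
    abel
  exact sub_eq_zero.1 ((smul_eq_zero.1 h2).resolve_left two_ne_zero)

/-- the decomposition of the elements of `𝔭` -/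
theorem p_dec {P : G} (hP : θ P = -P) :
    P = A.ip lam θ v P • v + ∑ i, A.ip lam θ P (Y i) • (Y i - θ (Y i)) := by
  have h := hF.coef P
  have h1 : P - ∑ i, A.ip lam θ P (Y i) • Y i - ∑ i, A.ip lam θ P (θ (Y i)) • θ (Y i) =
      P - ∑ i, A.ip lam θ P (Y i) • (Y i - θ (Y i)) := by
    simp only [hF.ip_p_th hP, neg_smul, smul_sub, Finset.sum_sub_distrib, Finset.sum_neg_distrib]
    abel
  rw [h1] at h
  have h2 := hF.p_ker (by
    simp only [map_sub, map_sum, map_smul, hP, hF.inv, smul_sub, Finset.sum_sub_distrib]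
    abel) h
  have h3 : A.ip lam θ v (P - ∑ i, A.ip lam θ P (Y i) • (Y i - θ (Y i))) = A.ip lam θ v P := by
    simp [ip_sub_right, ip_sum_right, ip_smul_right, hF.ip_v_Y, hF.ip_v_th]
  rw [h3] at h2
  exact sub_eq_iff_eq_add.1 h2

/-- an eigenvector for a positive eigenvalue is a combination of the `Y i` -/
theorem pos_dec {W : G} {r : ℝ} (hr : 0 < r) (hW : A.br v W = r • W) :
    W = ∑ i, A.ip lam θ W (Y i) • Y i := by
  have h1 : ∀ i, A.ip lam θ W (θ (Y i)) = 0 := fun i =>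
    hF.orth hF.neg hW (hF.eig_th i) (by linarith [hF.lam_pos i])
  have h := hF.coef W
  simp only [h1, zero_smul, Finset.sum_const_zero, sub_zero] at h
  refine sub_eq_zero.1 (hF.eq_zero (le_of_eq ?_))
  rw [ip_sub_right, hF.orth hF.neg (r := 0) (by rw [h, zero_smul]) hW hr.ne, ip_sum_right]
  simp [ip_smul_right, hF.ip_ker_Y h]

omit [FiniteDimensional ℝ G] in
theorem br_v_add (i : Fin n) : A.br v (Y i + θ (Y i)) = lam i • (Y i - θ (Y i)) := by
  rw [map_add, hF.eig, hF.eig_th, smul_sub, neg_smul, sub_eq_add_neg]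

omit [FiniteDimensional ℝ G] in
theorem th_add (a : G) : θ (a + θ a) = a + θ a := by rw [map_add, hF.inv, add_comm]

omit [FiniteDimensional ℝ G] in
theorem th_sub (a : G) : θ (a - θ a) = -(a - θ a) := by rw [map_sub, hF.inv, neg_sub]

/-- the image of a frame under an automorphism -/
theorem map {g : G ≃L[ℝ] G} (hg : A.IsAut g) :
    A.Frame lam (SC.conj g θ) (g v) fun i => g (Y i) where
  aut := hg.conj hF.aut
  inv Z := by rw [conj_apply g θ Z, conj_map, hF.inv, g.apply_symm_apply]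
  pos Z hZ := by
    rw [← g.apply_symm_apply Z, hg.ip_conj]
    exact hF.pos _ fun h => hZ (by rw [← g.apply_symm_apply Z, h, map_zero])
  lam_pos := hF.lam_pos
  neg := by rw [conj_map, hF.neg, map_neg]
  unit := by rw [hg.ip_conj, hF.unit]
  eig i := by rw [← hg, hF.eig, map_smul]
  on i j := by rw [hg.ip_conj, hF.on]
  dec Z := by
    obtain ⟨Z₀, s, t, h0, hZ⟩ := hF.dec (g.symm Z)
    refine ⟨g Z₀, s, t, by rw [← hg, h0, map_zero], ?_⟩
    rw [← g.apply_symm_apply Z, hZ]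
    simp only [map_add, map_sum, map_smul, conj_map]
  zero Z hZ := by
    obtain ⟨W, rfl⟩ := g.surjective Z
    rw [← hg, g.map_eq_zero_iff] at hZ
    rw [hg.ip_conj, ← map_smul, ← map_sub, conj_map, hF.zero W hZ]

/-- Parseval's identity for one finite family -/
theorem parseval : ∃ (N : ℕ) (b : Fin N → G) (w : Fin N → ℝ), ∀ Z Z',
    A.ip lam θ Z Z' = ∑ a, w a * (A.ip lam θ Z (b a) * A.ip lam θ Z' (b a)) := by
  have hs : LinearMap.IsSymm (A.ipL lam θ) := ⟨fun a b => by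
    rw [RingHom.id_apply, ipL_apply, ipL_apply, hF.ip_symm]⟩
  obtain ⟨b, hb⟩ := LinearMap.BilinForm.exists_orthogonal_basis hs
  refine ⟨_, b, fun a => (A.ip lam θ (b a) (b a))⁻¹, fun Z Z' => ?_⟩
  have h1 : ∀ a, A.ip lam θ Z' (b a) = b.repr Z' a * A.ip lam θ (b a) (b a) := fun a => by
    nth_rewrite 1 [← b.sum_repr Z']
    rw [ip_sum_left, Finset.sum_eq_single a, ip_smul_left]
    · intro c _ hc
      rw [ip_smul_left, ← ipL_apply, hb hc, mul_zero]
    · simp
  nth_rewrite 1 [← b.sum_repr Z']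
  rw [ip_sum_right]
  refine Finset.sum_congr rfl fun a _ => ?_
  have h2 := (hF.pos _ (b.ne_zero a)).ne'
  rw [ip_smul_right, h1]
  field_simp

/-- the unit sphere of the scalar product is compact -/
theorem isCompact_unit : IsCompact {Z : G | A.ip lam θ Z Z = 1} := by
  have hc : Continuous fun Z : G => A.ip lam θ Z Z := A.ip_cont lam θ continuous_id continuous_id
  have : ProperSpace G := FiniteDimensional.proper_real G
  refine Metric.isCompact_of_isClosed_isBounded (isClosed_eq hc continuous_const) ?_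
  have hv : v ≠ 0 := fun h => by
    have := hF.unit
    rw [h, ip_zero_left] at this
    exact zero_ne_one this
  have hne : (sphere (0 : G) 1).Nonempty := ⟨‖v‖⁻¹ • v, by
    rw [mem_sphere_zero_iff_norm, norm_smul, norm_inv, norm_norm,
      inv_mul_cancel₀ (norm_ne_zero_iff.2 hv)]⟩
  obtain ⟨Z₀, hZ₀, hmin⟩ := (isCompact_sphere (0 : G) 1).exists_isMinOn hne hc.continuousOn
  have hc0 : 0 < A.ip lam θ Z₀ Z₀ := hF.pos _ fun h => by
    rw [h, mem_sphere_zero_iff_norm, norm_zero] at hZ₀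
    exact zero_ne_one hZ₀
  refine (isBounded_closedBall (x := (0 : G)) (r := (A.ip lam θ Z₀ Z₀)⁻¹ + 1)).subset
    fun Z hZ => ?_
  have hZ' : A.ip lam θ Z Z = 1 := hZ
  rw [mem_closedBall_zero_iff]
  have hi := inv_pos.2 hc0
  by_contra hlt
  have hn : 0 < ‖Z‖ := by linarith [not_le.1 hlt]
  have h1 : A.ip lam θ Z₀ Z₀ ≤ A.ip lam θ (‖Z‖⁻¹ • Z) (‖Z‖⁻¹ • Z) := hmin (by
    rw [mem_sphere_zero_iff_norm, norm_smul, norm_inv, norm_norm, inv_mul_cancel₀ hn.ne'])
  rw [ip_smul_left, ip_smul_right, hZ', mul_one] at h1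
  have h2 : ‖Z‖⁻¹ < A.ip lam θ Z₀ Z₀ := inv_lt_of_inv_lt₀ hc0 (by linarith [not_le.1 hlt])
  have h3 : ‖Z‖⁻¹ ≤ 1 := inv_le_one_of_one_le₀ (by linarith [not_le.1 hlt])
  have h4 : 0 < ‖Z‖⁻¹ := inv_pos.2 hn
  nlinarith

end Frame

/-! ### Flows of automorphisms -/

/-- `g' = - ad (k t) g`, `g 0 = 1` -/
structure IsFlow (A : LA G) (k : ℝ → G) (g : ℝ → G ≃L[ℝ] G) : Prop where
  zero : ∀ a, g 0 a = a
  der : ∀ a t, HasDerivAt (fun s => g s a) (-A.br (k t) (g t a)) t

omit [FiniteDimensional ℝ G] in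
theorem ad_uniq {k : ℝ → G} (hk : Continuous k) {y z : ℝ → G}
    (hy : ∀ t, HasDerivAt y (-A.br (k t) (y t)) t) (hz : ∀ t, HasDerivAt z (-A.br (k t) (z t)) t)
    {t₀ : ℝ} (h0 : y t₀ = z t₀) (t : ℝ) : y t = z t :=
  lin_uniq (a := fun t => -A.br (k t)) (A.br.continuous.comp hk).neg hy hz h0 t

theorem exists_flow (A : LA G) {k : ℝ → G} (hk : Continuous k) {C : ℝ} (hC : ∀ t, ‖k t‖ ≤ C) :
    ∃ g, A.IsFlow k g := by
  have : CompleteSpace G := FiniteDimensional.complete ℝ G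
  have hc : Continuous fun q : ℝ × Unit => -A.br (k q.1) :=
    (A.br.continuous.comp (hk.comp continuous_fst)).neg
  have hL0 : 0 ≤ ‖A.br‖ * C := mul_nonneg A.br.opNorm_nonneg ((norm_nonneg _).trans (hC 0))
  have hL : ∀ q : ℝ × Unit, ‖-A.br (k q.1)‖ ≤ ‖A.br‖ * C := fun q => by
    rw [norm_neg]
    exact A.br.le_opNorm_of_le (hC _)
  obtain ⟨y, hy0, hy⟩ : ∃ y : ℝ → G →L[ℝ] G, y 0 = 1 ∧
      ∀ t, HasDerivAt y (-A.br (k t) * y t) t :=
    ⟨_, Vale.Agent.P207.SPH.H761.YY_zero hc hL0 hL (),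
      fun t => Vale.Agent.P207.SPH.H761.YY_deriv hc hL0 hL t ()⟩
  have hd : ∀ a t, HasDerivAt (fun s => y s a) (-A.br (k t) (y t a)) t := fun a t => by
    simpa using (hy t).clm_apply (hasDerivAt_const t a)
  have hinj : ∀ t, Function.Injective (y t).toLinearMap := fun t => by
    refine (injective_iff_map_eq_zero _).2 fun a ha => ?_
    have := ad_uniq hk (hd a) (z := fun _ => 0) (fun s => by
      simpa using hasDerivAt_const s (0 : G)) (t₀ := t) ha 0
    simpa [hy0] using this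
  exact ⟨fun t => (LinearEquiv.ofInjectiveEndo _ (hinj t)).toContinuousLinearEquiv,
    fun a => by simp [hy0], hd⟩

namespace IsFlow

variable {k : ℝ → G} {g : ℝ → G ≃L[ℝ] G}

omit [FiniteDimensional ℝ G]

theorem aut (hg : A.IsFlow k g) (hk : Continuous k) (t : ℝ) : A.IsAut (g t) := fun a b => by
  refine ad_uniq hk (hg.der (A.br a b)) (z := fun s => A.br (g s a) (g s b)) (fun s => ?_)
    (t₀ := 0) (by simp only [hg.zero]) t
  have h := (A.br.hasFDerivAt.comp_hasDerivAt s (hg.der a s)).clm_apply (hg.der b s)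
  refine h.congr_deriv ?_
  rw [A.jac (k s)]
  simp only [Function.comp_apply, map_neg, neg_apply]
  abel

theorem comm (hg : A.IsFlow k g) (hk : Continuous k) (hθ : A.IsAut θ) (h : ∀ t, θ (k t) = k t)
    (t : ℝ) (Z : G) : g t (θ Z) = θ (g t Z) := by
  refine ad_uniq hk (hg.der (θ Z)) (z := fun s => θ (g s Z)) (fun s => ?_)
    (t₀ := 0) (by simp only [hg.zero]) t
  have h1 := (θ : G →L[ℝ] G).hasFDerivAt.comp_hasDerivAt s (hg.der Z s)
  refine h1.congr_deriv ?_
  rw [ContinuousLinearEquiv.coe_coe, map_neg, hθ, h]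

theorem conj_eq (hg : A.IsFlow k g) (hk : Continuous k) (hθ : A.IsAut θ)
    (h : ∀ t, θ (k t) = k t) (t : ℝ) : SC.conj (g t) θ = θ :=
  SC.conj_eq (hg.comm hk hθ h t)

/-- the group law for a constant field -/
theorem add {Z : G} (hg : A.IsFlow (fun _ => Z) g) (s t : ℝ) (a : G) :
    g (s + t) a = g s (g t a) :=
  ad_uniq (k := fun _ => Z) continuous_const (y := fun s => g (s + t) a)
    (fun s => (hg.der a (s + t)).comp_add_const s t) (hg.der (g t a)) (t₀ := 0)
    (by rw [zero_add, hg.zero]) s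

theorem self {Z : G} (hg : A.IsFlow (fun _ => Z) g) (t : ℝ) : g t Z = Z :=
  ad_uniq (k := fun _ => Z) continuous_const (hg.der Z) (z := fun _ => Z)
    (fun s => by simpa [A.br_self] using hasDerivAt_const s Z) (t₀ := 0) (hg.zero Z) t

end IsFlow

end LA

end Vale.Agent.P207Z.SC
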