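import Vale.Agent.P207Z.Sm.Sk

/-!
# P207, the smooth case: linear fields which preserve a compact spanning set
-/

open Set Filter Topology Metric MeasureTheory

noncomputable section

namespace Vale.Agent.P207Z.SC

namespace Skew

variable {V : Type} [NormedAddCommGroup V] [NormedSpace ℝ V] [FiniteDimensional ℝ V]

/-- the flow of a linear field -/
theorem exists_flow (M : V →L[ℝ] V) : ∃ g : ℝ → V →L[ℝ] V, g 0 = 1 ∧
    (∀ v, HasDerivAt (fun t => g t v) (M v) 0) ∧ (∀ t v, g (-t) (g t v) = v) ∧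
    ∀ y : ℝ → V, (∀ t, HasDerivAt y (M (y t)) t) → ∀ t, y t = g t (y 0) := by
  have : CompleteSpace V := FiniteDimensional.complete ℝ V
  have h0 : NormedSpace.exp ((0 : ℝ) • M) = 1 := by rw [zero_smul, NormedSpace.exp_zero]
  have h1 : ∀ v t, HasDerivAt (fun t : ℝ => NormedSpace.exp (t • M) v)
      (M (NormedSpace.exp (t • M) v)) t := fun v t => by
    simpa using (hasDerivAt_exp_smul_const' M t).clm_apply (hasDerivAt_const t v)
  have h2 : ∀ y : ℝ → V, (∀ t, HasDerivAt y (M (y t)) t) →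
      ∀ t, NormedSpace.exp ((-t) • M) (y t) = y 0 := fun y hy t => by
    have h3 : ∀ t, HasDerivAt (fun t : ℝ => NormedSpace.exp ((-t) • M) (y t)) 0 t := fun t => by
      have h4 := ((hasDerivAt_exp_smul_const M (-t)).scomp t (hasDerivAt_neg t)).clm_apply (hy t)
      simpa using h4
    have h5 := is_const_of_deriv_eq_zero (fun t => (h3 t).differentiableAt)
      (fun t => (h3 t).deriv) t 0
    simpa using h5
  have h6 : ∀ (t : ℝ) v, NormedSpace.exp ((-t) • M) (NormedSpace.exp (t • M) v) = v := fun t v => by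
    have h7 := h2 _ (h1 v) t
    rwa [h0] at h7
  refine ⟨fun t => NormedSpace.exp (t • M), h0, fun v => ?_, h6, fun y hy t => ?_⟩
  · have h7 := h1 v 0
    rwa [h0] at h7
  · have h7 := h6 (-t) (y t)
    rw [neg_neg, h2 y hy t] at h7
    exact h7.symm

/-- an invariant scalar product -/
theorem exists_form {K : Set V} (hK : IsCompact K) (hs : Submodule.span ℝ K = ⊤) :
    ∃ q : V →L[ℝ] V →L[ℝ] ℝ, (∀ v w, q v w = q w v) ∧ (∀ v, v ≠ 0 → 0 < q v v) ∧
      ∀ g g' : V →L[ℝ] V, (∀ v, g' (g v) = v) → MapsTo g K K → MapsTo g' K K →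
        ∀ v w, q (g v) (g w) = q v w := by
  have : CompleteSpace V := FiniteDimensional.complete ℝ V
  let : MeasurableSpace (V →L[ℝ] ℝ) := borel _
  have : BorelSpace (V →L[ℝ] ℝ) := ⟨rfl⟩
  have : ProperSpace (V →L[ℝ] ℝ) := FiniteDimensional.proper_real _
  obtain ⟨μ, hμ⟩ : ∃ μ : Measure (V →L[ℝ] ℝ), μ.IsAddHaarMeasure := ⟨Measure.addHaar, inferInstance⟩
  obtain ⟨C, hC⟩ : ∃ C : Set (V →L[ℝ] ℝ), ∀ l, l ∈ C ↔ ∀ x ∈ K, ‖l x‖ ≤ 1 :=
    ⟨{l | ∀ x ∈ K, ‖l x‖ ≤ 1}, fun _ => Iff.rfl⟩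
  have c1 : IsClosed C := by
    have : C = ⋂ x ∈ K, {l : V →L[ℝ] ℝ | ‖l x‖ ≤ 1} := by
      ext l
      simp [hC]
    rw [this]
    exact isClosed_biInter fun x _ => isClosed_le (by fun_prop) continuous_const
  have c2 : IsCompact C := by
    have k1 : ∀ x : V, ∃ R, ∀ l : C, ‖(l : V →L[ℝ] ℝ) x‖ ≤ R := fun x => by
      have hx : x ∈ Submodule.span ℝ K := hs ▸ Submodule.mem_top
      induction hx using Submodule.span_induction with
      | mem x hx => exact ⟨1, fun l => (hC l).1 l.2 x hx⟩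
      | zero => exact ⟨0, fun l => by simp⟩
      | add x y _ _ hx hy =>
        obtain ⟨R, hR⟩ := hx
        obtain ⟨S, hS⟩ := hy
        exact ⟨R + S, fun l => by
          rw [map_add]
          exact norm_add_le_of_le (hR l) (hS l)⟩
      | smul t x _ hx =>
        obtain ⟨R, hR⟩ := hx
        exact ⟨‖t‖ * R, fun l => by
          rw [map_smul, norm_smul]
          exact mul_le_mul_of_nonneg_left (hR l) (norm_nonneg t)⟩
    obtain ⟨R, hR⟩ := banach_steinhaus k1
    exact isCompact_of_isClosed_isBounded c1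
      (isBounded_iff_forall_norm_le.2 ⟨R, fun l hl => hR ⟨l, hl⟩⟩)
  obtain ⟨ε, ε0, c3⟩ : ∃ ε > 0, ball (0 : V →L[ℝ] ℝ) ε ⊆ C := by
    obtain ⟨R, R0, hR⟩ := hK.isBounded.exists_pos_norm_le
    refine ⟨R⁻¹, inv_pos.2 R0, fun l hl => (hC l).2 fun x hx => ?_⟩
    calc ‖l x‖ ≤ ‖l‖ * ‖x‖ := l.le_opNorm x
      _ ≤ R⁻¹ * R := mul_le_mul (mem_ball_zero_iff.1 hl).le (hR x hx) (norm_nonneg _)
          (inv_pos.2 R0).le
      _ = 1 := inv_mul_cancel₀ R0.ne'
  have i1 : ∀ v w : V, Continuous fun l : V →L[ℝ] ℝ => l v * l w := fun v w => by fun_prop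
  obtain ⟨q, hq⟩ : ∃ q : V →L[ℝ] V →L[ℝ] ℝ, ∀ v w, q v w = ∫ l in C, l v * l w ∂μ := by
    have k1 := fun v w => (i1 v w).continuousOn.integrableOn_compact (μ := μ) c2
    exact ⟨LinearMap.toContinuousLinearMap
      ((LinearMap.toContinuousLinearMap : (V →ₗ[ℝ] ℝ) ≃ₗ[ℝ] V →L[ℝ] ℝ).toLinearMap ∘ₗ
        LinearMap.mk₂ ℝ (fun v w => ∫ l in C, l v * l w ∂μ)
          (fun u v w => by simp only [map_add, add_mul, integral_add (k1 _ _) (k1 _ _)])
          (fun t v w => by simp only [map_smul, smul_eq_mul, mul_assoc, integral_const_mul])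
          (fun u v w => by simp only [map_add, mul_add, integral_add (k1 _ _) (k1 _ _)])
          (fun t v w => by
            simp only [map_smul, smul_eq_mul, mul_left_comm _ t, integral_const_mul])),
      fun _ _ => rfl⟩
  refine ⟨q, fun v w => ?_, fun v hv => ?_, fun g g' h1 h2 h3 v w => ?_⟩
  · simp only [hq, mul_comm]
  · rw [hq, setIntegral_pos_iff_support_of_nonneg_ae (Eventually.of_forall fun l => mul_self_nonneg _)
      ((i1 v v).continuousOn.integrableOn_compact c2)]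
    refine lt_of_lt_of_le ?_ (measure_mono (inter_subset_inter_right _ c3))
    refine ((i1 v v).isOpen_support.inter isOpen_ball).measure_pos μ ?_
    obtain ⟨l, l1, l2⟩ := exists_dual_vector ℝ v (norm_ne_zero_iff.2 hv)
    refine ⟨(ε / 2) • l, ?_, ?_⟩
    · have : ((ε / 2) • l) v ≠ 0 := by
        rw [smul_apply, l2]
        exact smul_ne_zero (by positivity) (norm_ne_zero_iff.2 hv)
      exact mul_ne_zero this this
    · rw [mem_ball_zero_iff, norm_smul, l1, mul_one, Real.norm_of_nonneg (by positivity)]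
      linarith
  · have h4 : ∀ v, g (g' v) = v := fun v =>
      LinearMap.congr_fun (mul_eq_one_comm.1
        (LinearMap.ext h1 : (g' : V →ₗ[ℝ] V) * (g : V →ₗ[ℝ] V) = 1)) v
    obtain ⟨φ, hφ, φ1⟩ : ∃ φ : (V →L[ℝ] ℝ) →ₗ[ℝ] (V →L[ℝ] ℝ), (∀ l x, φ l x = l (g x)) ∧
        LinearMap.det φ ≠ 0 := by
      refine ⟨((ContinuousLinearMap.compL ℝ V V ℝ).flip g : (V →L[ℝ] ℝ) →L[ℝ] (V →L[ℝ] ℝ)),
        fun _ _ => rfl, fun h0 => ?_⟩
      obtain ⟨l, l1, l2⟩ := (Submodule.ne_bot_iff _).1 (LinearMap.det_eq_zero_iff_ker_ne_bot.1 h0)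
      refine l2 (ContinuousLinearMap.ext fun x => ?_)
      rw [← h4 x]
      exact DFunLike.congr_fun (LinearMap.mem_ker.1 l1) (g' x)
    have φ2 : φ ⁻¹' C = C := by
      ext l
      rw [mem_preimage, hC, hC]
      refine ⟨fun h x hx => ?_, fun h x hx => ?_⟩
      · have := h _ (h3 hx)
        rwa [hφ, h4] at this
      · rw [hφ]
        exact h _ (h2 hx)
    have φ3 : Measurable φ := φ.continuous_of_finiteDimensional.measurable
    have φ4 : Measure.map φ μ = μ := by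
      have k1 := Measure.map_linearMap_addHaar_eq_smul_addHaar μ φ1
      have k2 := congrArg (fun ν : Measure (V →L[ℝ] ℝ) => ν C) k1
      simp only [Measure.map_apply φ3 c1.measurableSet, φ2, Measure.smul_apply, smul_eq_mul] at k2
      have k3 : μ C ≠ 0 := ((measure_ball_pos μ 0 ε0).trans_le (measure_mono c3)).ne'
      have k4 : ENNReal.ofReal |(LinearMap.det φ)⁻¹| = 1 :=
        (ENNReal.mul_left_inj k3 c2.measure_lt_top.ne).1 (by rw [one_mul, ← k2])
      rw [k1, k4, one_smul]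
    have k5 := setIntegral_map (μ := μ) (g := φ) (f := fun l : V →L[ℝ] ℝ => l v * l w)
      c1.measurableSet (i1 v w).aestronglyMeasurable φ3.aemeasurable
    rw [φ4, φ2] at k5
    simp only [hq, k5, hφ]

end Skew

theorem skew : SkewStmt := by
  intro V _ _ _ K T hK hs hT
  obtain ⟨q, q1, q2, q3⟩ := Skew.exists_form hK hs
  refine ⟨q, q1, q2, fun M hM v w => ?_⟩
  obtain ⟨g, g0, g1, g2, g3⟩ := Skew.exists_flow M
  have h1 : ∀ t, MapsTo (g t) K K := fun t x hx => by
    obtain ⟨y, y0, hy⟩ := hT M hM x hx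
    rw [← y0, ← g3 y (fun t => (hy t).2) t]
    exact (hy t).1
  have h2 : (fun t => q (g t v) (g t w)) = fun _ => q v w :=
    funext fun t => q3 _ _ (g2 t) (h1 t) (h1 (-t)) v w
  have h3 := ((q.hasFDerivAt.comp_hasDerivAt (0 : ℝ) (g1 v)).clm_apply (g1 w)).deriv
  simp only [Function.comp_def, h2, g0, deriv_const, one_apply_eq_self] at h3
  exact h3.symm

end Vale.Agent.P207Z.SC
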